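import Claimed.Agent.R280.Spec.Conn

/-!
# Row 280, package Spec: the abstract specialisation theorem (TOP statement, PROVED from the packages), package S9 `Final`

CHAIN of [S]:   ValIface (V1-V4, proofs in package Val)  →  Ctx (defs)  →  S1 SecSpec  →  S2 DimIneq, S3 ResGenus  →  S4 Endgame
                ConnDefs → S5 ConnA, S6 ConnB → S7 ConnC (conn_main)  →  S8 Conn (connected)  →  S9 Final (spec_main).

PLAN of `spec_main`.  `vX` is onto (`vL_surj`, `vX_ext`); V1 gives `w₀ : C.Prol`.  `connected`: `g • w₀ = w₀` for all `g`, so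
`Dec w₀ = ⊤`, `Orb w₀` is a singleton, `sum_mw`: `[K(w₀):EE] = m = |J|` (`IsGalois.card_aut_eq_finrank`).
`endgame`: `u r a` with `ResShape w₀ u r a`, `p ∤ a l`, and `deg redFib_Y (P l) = deg redFib_{w₀} (t l)`.
`ResShape.1`: `m |Ine| = p^u m`, so `|Ine w₀| = p^u`: a `p`-group, normal by `ine_normal`.
Nontrivial: fix `l`; all `Q | P l` have the same `e` (`Place.exists_smulAut_eq`, `smulAut_over`), `p ∣ e` (`C.ram`);
`redFib_deg_mul` twice: `e · y = m n_l = (r l a l) · τ`, `y = τ > 0`, so `e = r l · a l`, `p ∣ r l ∣ p^u`, `u ≥ 1`.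
~300 lines.
-/

set_option autoImplicit false

namespace Claimed.Agent.R280

/-- if all places over `P` have ramification index `e` then `e · deg (reduced fibre) = [M':M] deg P` -/
theorem redFib_deg_mul {k M M' : Type} [Field k] [Field M] [Field M'] [Algebra k M] [Algebra k M'] [Algebra M M']
    [IsScalarTower k M M'] [IsFF k M] [Module.Finite M M'] (P : Place k M) (e : ℕ)
    (h : ∀ Q : Place k M', Q.Over P → Q.ramIdx P = e) :
    (e : ℤ) * (redFib k M' P).deg = (Module.finrank M M' : ℤ) * (P.deg : ℤ) := by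
  rw [← endgame_sum_ramIdx (M' := M') P, endgame_deg_redFib, Finset.mul_sum]
  apply Finset.sum_congr rfl
  intro Q hQ
  rw [h Q (by simpa using hQ)]

theorem redFib_deg_pos {k M M' : Type} [Field k] [Field M] [Field M'] [Algebra k M] [Algebra k M'] [Algebra M M']
    [IsScalarTower k M M'] [IsFF k M] [Module.Finite M M'] (P : Place k M) : 0 < (redFib k M' P).deg :=
  endgame_deg_redFib_pos P

/-- **[S] Proposition 7.1, abstract form**: the Galois group of the cover has a nontrivial normal `p`-subgroup. -/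
theorem spec_main (p : ℕ) [Fact p.Prime] (C : SpecData p) :
    ∃ N : Subgroup (C.YY ≃ₐ[C.XX] C.YY), N.Normal ∧ IsPGroup p N ∧ N ≠ ⊥ := by
  have hp : p.Prime := Fact.out
  -- a prolongation of the Gauss valuation
  have hsurj : Function.Surjective C.vX := fun γ => by
    obtain ⟨a, ha⟩ := C.vL_surj γ
    exact ⟨algebraMap C.L C.XX a, by rw [C.vX_ext, ha]⟩
  obtain ⟨w, hw⟩ := exists_prolongs (U := C.YY) C.vX hsurj
  let w₀ : C.Prol := ⟨w, hw⟩
  have hconn : ∀ g : C.J, g • w₀ = w₀ := C.connected w₀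
  -- the orbit is a point
  let w₁ : C.Orb w₀ := ⟨w₀, MulAction.mem_orbit_self w₀⟩
  have huniq : ∀ w' : C.Orb w₀, w' = w₁ := by
    rintro ⟨w', g, rfl⟩
    exact Subtype.ext (hconn g)
  have hsum : ∀ {A : Type} [AddCommMonoid A] (f : C.Orb w₀ → A), ∑ w' : C.Orb w₀, f w' = f w₁ := fun f =>
    Fintype.sum_eq_single w₁ fun w' hw' => absurd (huniq w') hw'
  have hm : Module.finrank C.EE (C.Kw w₀) = Module.finrank C.XX C.YY := by
    have := C.sum_mw w₀
    rw [hsum] at this
    exact this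
  have hmpos : 0 < Module.finrank C.XX C.YY := Module.finrank_pos
  have hdec : C.Dec w₀ = ⊤ := by
    rw [eq_top_iff]
    intro g _
    exact hconn g
  have hcardDec : Nat.card (C.Dec w₀) = Module.finrank C.XX C.YY := by
    rw [hdec, Subgroup.card_top]
    exact IsGalois.card_aut_eq_finrank C.XX C.YY
  obtain ⟨-, hfib, hshape⟩ := C.endgame w₀
  obtain ⟨u, r, a, ⟨hs1, hs2, hs3⟩, ha⟩ := hshape w₁
  change Module.finrank C.EE (C.Kw w₀) * Nat.card (C.Ine w₀) = p ^ u * Nat.card (C.Dec w₀) at hs1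
  have hcardIne : Nat.card (C.Ine w₀) = p ^ u := by
    rw [hm, hcardDec, mul_comm] at hs1
    exact Nat.eq_of_mul_eq_mul_right hmpos hs1
  refine ⟨C.Ine w₀, ⟨fun n hn g => C.ine_normal w₀ g (hconn g) n hn⟩, IsPGroup.of_card hcardIne, ?_⟩
  -- nontriviality
  obtain ⟨l⟩ := C.neLam
  obtain ⟨Q₀, hQ₀⟩ := Place.exists_over (M' := C.YY) (C.P l)
  have hall : ∀ Q : Place C.L C.YY, Q.Over (C.P l) → Q.ramIdx (C.P l) = Q₀.ramIdx (C.P l) := by
    intro Q hQ
    obtain ⟨g, rfl⟩ := Place.exists_smulAut_eq hQ₀ hQ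
    exact (Place.smulAut_over g hQ₀).2.1
  have h1 := redFib_deg_mul (M' := C.YY) (C.P l) _ hall
  have h2 := redFib_deg_mul (M' := C.Kw w₀) (C.t l) (r l * a l) (fun P' hP' => hs3 l P' hP')
  have h3 := hfib l
  rw [hsum] at h3
  change (redFib C.L C.YY (C.P l)).deg = (redFib C.F (C.Kw w₀) (C.t l)).deg at h3
  have hpos := redFib_deg_pos (M' := C.YY) (C.P l)
  rw [hm, ← C.deg_P l, ← h1, ← h3] at h2
  have he : ((r l * a l : ℕ) : ℤ) = (Q₀.ramIdx (C.P l) : ℤ) := mul_right_cancel₀ hpos.ne' h2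
  have he' : r l * a l = Q₀.ramIdx (C.P l) := by exact_mod_cast he
  have hdvd : p ∣ r l * a l := he' ▸ C.ram l Q₀ hQ₀
  have hr : p ∣ r l := (hp.dvd_mul.1 hdvd).resolve_right (ha l)
  have hpu : p ∣ p ^ u := hr.trans (hs2 l)
  intro hbot
  rw [hbot, Subgroup.card_bot] at hcardIne
  have hu : u = 0 := by
    by_contra hu
    have : 1 < p ^ u := Nat.one_lt_pow hu hp.one_lt
    omega
  rw [hu, pow_zero] at hpu
  exact hp.one_lt.ne' (Nat.dvd_one.1 hpu)

end Claimed.Agent.R280
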