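import Claimed.Agent.R280.Spec.Ctx

/-!
# Row 280, Spec package S3c `GenusTower`: genus of a tower  `K / M / E`  (Galois over purely inseparable), pure function field theory over `F`

INPUT: `E ⊆ M ⊆ K` function fields over `F` (characteristic `p`), `M/E` purely inseparable, `K/M` Galois, marked places `t l` of `E`, and the estimate
`∑_l ([M:E] deg t_l - deg z_l) ≤ ν(M)` for the places `z l` of `M` over `t l`.
OUTPUT: `r l = e(z_l | t_l)`, `a l = e(P' | z_l)` (independent of `P'`), `e(P' | t_l) = r_l a_l`, and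
`∑_l ([K:E] n_l - τ_l + [p ∣ a_l] τ_l) ≤ ν(K)`, `τ_l = deg` of the reduced fibre of `K` over `t l`.

PLAN.
* `ramIdx_tower`: `OverE` composes: `Q.v (alg alg f) = (P.v f ^ e₁) ^ e₂`; `ramIdx` is THE `e` with `OverE` (`P.v` is onto `ℤᵐ⁰`, so `e` is unique; `Place.overE_ramIdx`).
* `over_tower`: `P'` over `t` ⇒ the place of `M` below `P'` lies over `t` (uniqueness of the place below), and it is `z` (`Place.over_unique_of_purelyInseparable`).
* `ramIdx_dvd_finrank`: `e · deg z = [M:E] · deg t` (`sum_ramIdx_mul_deg`, only one place above), `deg t ∣ deg z` (`deg_dvd_deg`), so `e · f = [M:E]`.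
* `ramIdx_const`: Galois conjugate places have the same index (`Place.exists_smulAut_eq`, `smulAut_over`).
* `redFib_deg`: `(redFib F K t).deg = ∑ᶠ_{P' over t} deg P'`; `a · τ = [K:M] deg z` (`sum_ramIdx_mul_deg` for `K/M`).
* main: `nu_eq_of_separable` for `K/M`; `diffExp ≥ 0` everywhere, `≥ a - 1` resp. `≥ a` (if `p ∣ a`) at the `P'` over the `z l` (`ramIdx_sub_one_le_diffExp`, `ramIdx_le_diffExp_of_dvd`);
  the fibres over different `l` are disjoint (`t_inj`); `finsum` over a finite support ≥ the sum over the marked fibres;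
  `ν(K) ≥ g ν(M) + ∑_l (a_l - 1 + [p ∣ a_l]) τ_l ≥ g ∑_l ([M:E] n_l - deg z_l) + ∑_l (g deg z_l - τ_l + [p ∣ a_l] τ_l)`, `g = [K:M]`.
~900 lines.   Owner of the statements: helper66.
-/

set_option autoImplicit false

namespace Claimed.Agent.R280

open WithZero

section Tower

variable {F E M K : Type} [Field F] [Field E] [Field M] [Field K] [Algebra F E] [Algebra F M] [Algebra F K]
  [Algebra E M] [Algebra E K] [Algebra M K] [IsScalarTower F E M] [IsScalarTower F E K] [IsScalarTower F M K]
  [IsScalarTower E M K] [IsFF F E] [IsFF F M] [Module.Finite E M] [Module.Finite M K] [Module.Finite E K]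

/-- multiplicativity of the ramification index -/
theorem ramIdx_tower {P' : Place F K} {z : Place F M} {t : Place F E} (h₁ : P'.Over z) (h₂ : z.Over t) :
    P'.Over t ∧ P'.ramIdx t = z.ramIdx t * P'.ramIdx z :=
  ⟨h₁.trans h₂, by rw [Place.ramIdx_trans h₁ h₂, mul_comm]⟩

theorem over_tower [IsPurelyInseparable E M] {P' : Place F K} {z : Place F M} {t : Place F E} (h : P'.Over t)
    (h₂ : z.Over t) : P'.Over z := by
  obtain ⟨z', hz', _⟩ := Place.existsUnique_below (M := M) P'
  obtain ⟨t', ht', _⟩ := Place.existsUnique_below (M := E) z'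
  have h1 : t' = t := (hz'.trans ht').unique h
  rw [h1] at ht'
  rwa [Place.over_unique_of_purelyInseparable ht' h₂] at hz'

omit [Algebra F K] [Algebra E K] [Algebra M K] [IsScalarTower F E K] [IsScalarTower F M K] [IsScalarTower E M K]
  [Module.Finite M K] [Module.Finite E K] [Field K] [IsFF F M] in
theorem ramIdx_dvd_finrank [IsPurelyInseparable E M] {z : Place F M} {t : Place F E} (h : z.Over t) :
    z.ramIdx t ∣ Module.finrank E M := by
  have h1 := sum_ramIdx_mul_deg (M' := M) t
  rw [finsum_eq_single _ z (fun Q hQ => by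
    have : ¬ Q.Over t := fun hQt => hQ (Place.over_unique_of_purelyInseparable hQt h)
    rw [Place.ramIdx_eq_zero this, zero_mul])] at h1
  obtain ⟨f, hf⟩ := Place.deg_dvd_deg h
  refine ⟨f, ?_⟩
  rw [hf] at h1
  have h2 : (z.ramIdx t * f) * t.deg = Module.finrank E M * t.deg := by
    rw [← h1]; ring
  exact (Nat.eq_of_mul_eq_mul_right t.deg_pos h2).symm

omit [Algebra F E] [Algebra E M] [Algebra E K] [IsScalarTower F E M] [IsScalarTower F E K] [IsScalarTower E M K]
  [IsFF F E] [Module.Finite E M] [Module.Finite E K] [Field E] in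
theorem ramIdx_const [IsGalois M K] {P' P'' : Place F K} {z : Place F M} (h : P'.Over z) (h' : P''.Over z) :
    P'.ramIdx z = P''.ramIdx z := by
  obtain ⟨g, hg⟩ := Place.exists_smulAut_eq h h'
  rw [← hg]
  exact ((Place.smulAut_over g h).2.1).symm

omit [Algebra E M] [Algebra M K] [IsScalarTower F E M] [IsScalarTower F M K] [IsScalarTower E M K]
  [IsFF F M] [Module.Finite E M] [Module.Finite M K] [Field M] [Algebra F M] in
theorem gt_deg_redFib (t : Place F E) :
    (redFib F K t).deg = ∑ Q ∈ (Place.finite_over (M' := K) t).toFinset, (Q.deg : ℤ) := by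
  classical
  have h1 : redFib F K t
      = ∑ Q ∈ (Place.finite_over (M' := K) t).toFinset, Finsupp.single Q (1 : ℤ) := by
    unfold redFib
    rw [finsum_eq_sum_of_support_subset (s := (Place.finite_over (M' := K) t).toFinset)]
    · apply Finset.sum_congr rfl
      intro Q hQ
      rw [if_pos]
      simpa using hQ
    · intro Q hQ
      rw [Set.Finite.coe_toFinset]
      by_contra h
      exact hQ (if_neg h)
  rw [h1]
  have h2 : ∀ (s : Finset (Place F K)),
      Dvsr.deg (∑ Q ∈ s, (Finsupp.single Q (1 : ℤ) : Dvsr F K) : Dvsr F K)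
        = ∑ Q ∈ s, (Q.deg : ℤ) := by
    intro s
    induction s using Finset.induction_on with
    | empty => simp
    | insert i s hi ih =>
      rw [Finset.sum_insert hi, Finset.sum_insert hi, Dvsr.deg_add, ih, Dvsr.deg_single, one_mul]
  exact h2 _

/-- **genus of the tower** -/
theorem genus_tower (p : ℕ) [Fact p.Prime] [CharP F p] [IsPurelyInseparable E M] [IsGalois M K] {Lam : Type}
    [Fintype Lam] (t : Lam → Place F E) (t_inj : Function.Injective t)
    (hins : ∀ z : Lam → Place F M, (∀ l, (z l).Over (t l)) →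
      ∑ l, ((Module.finrank E M : ℤ) * ((t l).deg : ℤ) - ((z l).deg : ℤ)) ≤ nu F M) :
    ∃ r a : Lam → ℕ, (∀ l, r l ∣ Module.finrank E M) ∧
      (∀ (l : Lam) (P' : Place F K), P'.Over (t l) → P'.ramIdx (t l) = r l * a l) ∧
      ∑ l, ((Module.finrank E K : ℤ) * ((t l).deg : ℤ) - (redFib F K (t l)).deg
        + if p ∣ a l then (redFib F K (t l)).deg else 0) ≤ nu F K := by
  classical
  have hFK : IsFF F K := isFF_of_finite F M K
  choose z hz using fun l => Place.exists_over (M' := M) (t l)
  choose R hR using fun l => Place.exists_over (M' := K) (z l)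
  have hconst : ∀ (l : Lam) (P' : Place F K), P'.Over (z l) → P'.ramIdx (z l) = (R l).ramIdx (z l) :=
    fun l P' hP' => ramIdx_const hP' (hR l)
  refine ⟨fun l => (z l).ramIdx (t l), fun l => (R l).ramIdx (z l),
    fun l => ramIdx_dvd_finrank (hz l), fun l P' hP' => ?_, ?_⟩
  · have h1 := over_tower hP' (hz l)
    rw [(ramIdx_tower h1 (hz l)).2, hconst l P' h1]
  -- the fibres
  set Fib : Lam → Finset (Place F K) := fun l => (Place.finite_over (M' := K) (t l)).toFinset
    with hFib
  have hmemFib : ∀ l (P' : Place F K), P' ∈ Fib l ↔ P'.Over (t l) := fun l P' => by simp [hFib]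
  have hFibz : ∀ l, Fib l = (Place.finite_over (M' := K) (z l)).toFinset := by
    intro l
    ext P'
    rw [hmemFib]
    simp only [Set.Finite.mem_toFinset, Set.mem_ofPred_eq]
    exact ⟨fun h => over_tower h (hz l), fun h => (ramIdx_tower h (hz l)).1⟩
  set τ : Lam → ℤ := fun l => (redFib F K (t l)).deg with hτ
  have hτeq : ∀ l, τ l = ∑ Q ∈ Fib l, (Q.deg : ℤ) := fun l => gt_deg_redFib (t l)
  have hτ0 : ∀ l, 0 ≤ τ l := fun l => by
    rw [hτeq]; exact Finset.sum_nonneg fun _ _ => Int.natCast_nonneg _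
  -- `a τ = g deg z`
  have haτ : ∀ l, ((R l).ramIdx (z l) : ℤ) * τ l
      = (Module.finrank M K : ℤ) * ((z l).deg : ℤ) := by
    intro l
    have h1 := sum_ramIdx_mul_deg (M' := K) (z l)
    rw [finsum_eq_sum_of_support_subset (s := Fib l)] at h1
    · rw [hτeq, Finset.mul_sum]
      have h2 : ∑ Q ∈ Fib l, ((R l).ramIdx (z l) : ℤ) * (Q.deg : ℤ)
          = ((∑ Q ∈ Fib l, Q.ramIdx (z l) * Q.deg : ℕ) : ℤ) := by
        push_cast
        refine Finset.sum_congr rfl fun Q hQ => ?_
        rw [hconst l Q (over_tower ((hmemFib l Q).1 hQ) (hz l))]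
      rw [h2, h1]
      push_cast
      rfl
    · intro Q hQ
      rw [hFibz]
      simp only [Set.Finite.coe_toFinset, Set.mem_ofPred_eq]
      by_contra h
      exact hQ (by simp [Place.ramIdx_eq_zero h])
  -- lower bound for the degree of the different
  set D : Place F K → ℤ := fun Q => diffExp M Q * (Q.deg : ℤ) with hD
  have hD0 : ∀ Q, 0 ≤ D Q := fun Q => mul_nonneg (diffExp_nonneg Q) (Int.natCast_nonneg _)
  have hDsupp : (Function.support D).Finite := by
    refine (finite_diffExp_ne_zero (k := F) (M := M) (M' := K)).subset ?_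
    intro Q hQ h0
    exact hQ (by simp only [hD]; rw [h0, zero_mul])
  have hdisj : ∀ l ∈ (Finset.univ : Finset Lam), ∀ l' ∈ (Finset.univ : Finset Lam), l ≠ l' →
      Disjoint (Fib l) (Fib l') := by
    intro l _ l' _ hne
    rw [Finset.disjoint_left]
    intro Q hQ hQ'
    exact hne (t_inj (((hmemFib l Q).1 hQ).unique ((hmemFib l' Q).1 hQ')))
  have hsumD : ∑ l, ∑ Q ∈ Fib l, D Q ≤ ∑ᶠ Q : Place F K, D Q := by
    rw [finsum_eq_sum_of_support_subset (s := hDsupp.toFinset ∪ Finset.univ.biUnion Fib)
      D (by intro Q hQ; simp [hQ]), ← Finset.sum_biUnion hdisj]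
    exact Finset.sum_le_sum_of_subset_of_nonneg Finset.subset_union_right fun Q _ _ => hD0 Q
  have hfib : ∀ l, (((R l).ramIdx (z l) : ℤ) - 1 + if p ∣ (R l).ramIdx (z l) then 1 else 0) * τ l
      ≤ ∑ Q ∈ Fib l, D Q := by
    intro l
    rw [hτeq, Finset.mul_sum]
    refine Finset.sum_le_sum fun Q hQ => ?_
    have hQz : Q.Over (z l) := over_tower ((hmemFib l Q).1 hQ) (hz l)
    refine mul_le_mul_of_nonneg_right ?_ (Int.natCast_nonneg _)
    split_ifs with hp
    · have h1 := ramIdx_le_diffExp_of_dvd p hQz (by rw [hconst l Q hQz]; exact hp)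
      rw [hconst l Q hQz] at h1
      linarith
    · have h1 := ramIdx_sub_one_le_diffExp hQz
      rw [hconst l Q hQz] at h1
      linarith
  have hH := nu_eq_of_separable (k := F) (M := M) (M' := K)
  have hins' := hins z hz
  have hg0 : (0 : ℤ) ≤ (Module.finrank M K : ℤ) := Int.natCast_nonneg _
  have hmul : (Module.finrank E K : ℤ) = (Module.finrank M K : ℤ) * (Module.finrank E M : ℤ) := by
    rw [← Module.finrank_mul_finrank E M K]
    push_cast; ring
  have h1 : (Module.finrank M K : ℤ) *
      ∑ l, ((Module.finrank E M : ℤ) * ((t l).deg : ℤ) - ((z l).deg : ℤ))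
        ≤ (Module.finrank M K : ℤ) * nu F M := mul_le_mul_of_nonneg_left hins' hg0
  have h2 : ∑ l, (((R l).ramIdx (z l) : ℤ) - 1 + if p ∣ (R l).ramIdx (z l) then 1 else 0) * τ l
      ≤ ∑ᶠ Q : Place F K, D Q := (Finset.sum_le_sum fun l _ => hfib l).trans hsumD
  rw [hH]
  refine le_trans (le_of_eq ?_) (add_le_add h1 h2)
  rw [Finset.mul_sum, ← Finset.sum_add_distrib]
  refine Finset.sum_congr rfl fun l _ => ?_
  have h3 := haτ l
  rw [hmul]
  split_ifs <;> linarith

end Tower

end Claimed.Agent.R280
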