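import Claimed.Agent.R280.Spec.ResAct
import Claimed.Agent.R280.Spec.GenusTower

/-!
# Row 280, Spec package S3 `ResGenus`: the tower `K(w) / M_w / EE` and its genus  ([S] Lemma 7.4, (7.13))

Second level:  S3a + S3b = Spec/ResAct.lean (action of `Dec w` on `K(w)`, `M_w`, Artin, pure inseparability),  S3c = Spec/GenusTower.lean (pure function field theory).
`ine_normal` and `resGenus` are PROVED here from these.
-/

set_option autoImplicit false

namespace Claimed.Agent.R280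

open WithZero

namespace SpecData

variable {p : ℕ} [Fact p.Prime] (C : SpecData p)

omit [Fact p.Prime] in
/-- `Ine w` is normal in `Dec w` -/
theorem ine_le_dec (w : C.Prol) : C.Ine w ≤ C.Dec w := fun _ hg => hg.1

theorem ine_normal (w : C.Prol) (g : C.J) (hg : g ∈ C.Dec w) (x : C.J) (hx : x ∈ C.Ine w) :
    g * x * g⁻¹ ∈ C.Ine w := by
  have hx' : x ∈ C.Dec w := C.ine_le_dec w hx
  have h1 : C.decHom w ⟨x, hx'⟩ = 1 := (C.decHom_eq_one_iff w ⟨x, hx'⟩).2 hx
  obtain ⟨g', hg'⟩ : ∃ g' : C.Dec w, (g' : C.J) = g := ⟨⟨g, hg⟩, rfl⟩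
  obtain ⟨x', hx''⟩ : ∃ x' : C.Dec w, (x' : C.J) = x := ⟨⟨x, hx'⟩, rfl⟩
  have h1' : C.decHom w x' = 1 := by
    have : x' = ⟨x, hx'⟩ := Subtype.ext hx''
    rw [this]; exact h1
  have h2 : C.decHom w (g' * x' * g'⁻¹) = 1 := by
    rw [map_mul, map_mul, h1', mul_one, ← map_mul, mul_inv_cancel, map_one]
  have h3 := (C.decHom_eq_one_iff w _).1 h2
  rw [Subgroup.coe_mul, Subgroup.coe_mul, Subgroup.coe_inv, hg', hx''] at h3
  exact h3

instance tower_Mw (w : C.Prol) : IsScalarTower C.F (C.Mw w) (C.Kw w) := IsScalarTower.of_algebraMap_eq fun _ => rfl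

instance isFF_Mw (w : C.Prol) : IsFF C.F (C.Mw w) := by
  exact isFF_of_finite C.F C.EE (C.Mw w)

/-- **[S] Lemma 7.4 and (7.13)**, for one prolongation, in integers:
`∑_l (m_w n_l - τ_l + [p ∣ a_l] τ_l) ≤ ν(C_w)`, `τ_l = deg` of the reduced fibre over `t l`. -/
theorem resGenus (w : C.Prol) : ∃ (u : ℕ) (r a : C.Lam → ℕ), C.ResShape w u r a ∧
    ∑ l, ((Module.finrank C.EE (C.Kw w) : ℤ) * ((C.t l).deg : ℤ) - (redFib C.F (C.Kw w) (C.t l)).deg
      + if p ∣ a l then (redFib C.F (C.Kw w) (C.t l)).deg else 0) ≤ nu C.F (C.Kw w) := by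
  obtain ⟨u, hu⟩ := C.finrank_Mw_pow w
  have hmul : Module.finrank C.EE (C.Mw w) * Module.finrank (C.Mw w) (C.Kw w) = Module.finrank C.EE (C.Kw w) :=
    Module.finrank_mul_finrank _ _ _
  have hle : Module.finrank C.EE (C.Mw w) ≤ Module.finrank C.XX C.YY := by
    refine le_trans ?_ (C.finrank_Kw_le w)
    rw [← hmul]
    exact Nat.le_mul_of_pos_right _ Module.finrank_pos
  obtain ⟨r, a, h1, h2, h3⟩ := genus_tower (F := C.F) (E := C.EE) (M := C.Mw w) (K := C.Kw w) p C.t C.t_inj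
    (fun z hz => C.insep (C.Mw w) hle z hz)
  refine ⟨u, r, a, ⟨?_, fun l => hu ▸ h1 l, h2⟩, h3⟩
  rw [← hmul, hu, mul_assoc, C.finrank_Mw w]

end SpecData

end Claimed.Agent.R280
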