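import Claimed.Agent.R280.Spec.DimIneq
import Claimed.Agent.R280.Spec.ResGenus

/-!
# Row 280, Spec package S4 `Endgame`: Hurwitz and the numerical endgame  ([S] (7.2), (7.16)-(7.18))

PLAN.  `hurwitz`: `nu_eq_of_separable`, `diffExp_eq_of_charZero`, `C.unram`, `C.chiX`, `sum_ramIdx_mul_deg`.
`endgame`: put `y_l = deg redFib(P l)`, `τ_l(w) = deg redFib_w(t l)`, `τ_l = ∑_w τ_l(w)`, `A = {l | y_l < τ_l}`.
`ν(Y) = ∑ (m n_l - y_l)`; `∑_w ν(C_w) ≥ ∑_l (m n_l - τ_l) + ∑_{w,l} [p ∣ a_{w,l}] τ_l(w)` (`resGenus`, `sum_mw`, `C.deg_P`);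
`ν(Y) ≥ ∑_w ν(C_w) + 2 ∑_{l ∈ A} (τ_l - y_l)` (`chi_le`).  Hence `0 ≥ ∑_l |τ_l - y_l| + ∑ [p ∣ a] τ_l(w)`; `τ_l(w) > 0`.
-/

set_option autoImplicit false
set_option linter.unusedSectionVars false

namespace Claimed.Agent.R280

open WithZero

section General

variable {k M M' : Type} [Field k] [Field M] [Field M'] [Algebra k M] [Algebra k M'] [Algebra M M']

omit [Field M'] [Algebra k M'] [Algebra M M'] in
theorem endgame_deg_sum {ι : Type} (s : Finset ι) (f : ι → Dvsr k M) :
    (∑ i ∈ s, f i).deg = ∑ i ∈ s, (f i).deg := by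
  classical
  induction s using Finset.induction_on with
  | empty => simp [Dvsr.deg]
  | insert i s hi ih => rw [Finset.sum_insert hi, Finset.sum_insert hi, Dvsr.deg_add, ih]

variable [IsScalarTower k M M'] [IsFF k M] [Module.Finite M M']

theorem endgame_redFib_eq (P : Place k M) :
    redFib k M' P = ∑ Q ∈ (Place.finite_over (M' := M') P).toFinset, Finsupp.single Q 1 := by
  classical
  unfold redFib
  rw [finsum_eq_sum_of_support_subset (s := (Place.finite_over (M' := M') P).toFinset)]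
  · apply Finset.sum_congr rfl
    intro Q hQ
    rw [if_pos]
    simpa using hQ
  · intro Q hQ
    rw [Set.Finite.coe_toFinset]
    by_contra h
    exact hQ (if_neg h)

theorem endgame_deg_redFib (P : Place k M) :
    (redFib k M' P).deg = ∑ Q ∈ (Place.finite_over (M' := M') P).toFinset, (Q.deg : ℤ) := by
  rw [endgame_redFib_eq, endgame_deg_sum]
  apply Finset.sum_congr rfl
  intro Q _
  rw [Dvsr.deg_single, one_mul]

theorem endgame_deg_redFib_pos (P : Place k M) : 0 < (redFib k M' P).deg := by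
  have : IsFF k M' := isFF_of_finite k M M'
  rw [endgame_deg_redFib]
  obtain ⟨Q, hQ⟩ := Place.exists_over (M' := M') P
  apply Finset.sum_pos
  · intro Q _
    exact_mod_cast Q.deg_pos
  · exact ⟨Q, by simpa using hQ⟩

theorem endgame_sum_ramIdx (P : Place k M) :
    ∑ Q ∈ (Place.finite_over (M' := M') P).toFinset, (Q.ramIdx P : ℤ) * (Q.deg : ℤ)
      = (Module.finrank M M' : ℤ) * (P.deg : ℤ) := by
  have h := sum_ramIdx_mul_deg (M' := M') P
  rw [finsum_eq_sum_of_support_subset (s := (Place.finite_over (M' := M') P).toFinset)] at h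
  · exact_mod_cast h
  · intro Q hQ
    rw [Set.Finite.coe_toFinset]
    by_contra hn
    apply hQ
    show Q.ramIdx P * Q.deg = 0
    rw [Place.ramIdx_eq_zero hn, zero_mul]

end General

/-- the numerical endgame, in integers -/
theorem endgame_numeric {W Λ : Type} [Fintype W] [Fintype Λ] (y n : Λ → ℤ) (τ : W → Λ → ℤ)
    (ε : W → Λ → Prop) [∀ w l, Decidable (ε w l)] (mw χ : W → ℤ) (m χY : ℤ)
    (hH : -2 * χY = ∑ l, (m * n l - y l))
    (hG : ∀ w, ∑ l, (mw w * n l - τ w l + if ε w l then τ w l else 0) ≤ -2 * χ w)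
    (hC : ∀ A : Finset Λ, χY - ∑ l ∈ A, y l ≤ ∑ w, (χ w - ∑ l ∈ A, τ w l))
    (hm : ∑ w, mw w = m) (hpos : ∀ w l, 0 < τ w l) :
    χY = ∑ w, χ w ∧ (∀ l, y l = ∑ w, τ w l) ∧ ∀ w l, ¬ ε w l := by
  classical
  set T : Λ → ℤ := fun l => ∑ w, τ w l with hT
  set E : ℤ := ∑ w, ∑ l, (if ε w l then τ w l else 0) with hE
  have hterm : ∀ w l, 0 ≤ (if ε w l then τ w l else 0) := by
    intro w l
    split_ifs
    · exact (hpos w l).le
    · exact le_rfl
  have hE0 : 0 ≤ E := Finset.sum_nonneg fun w _ => Finset.sum_nonneg fun l _ => hterm w l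
  have hGs : ∑ l, (m * n l - T l) + E ≤ -2 * ∑ w, χ w := by
    have h1 := Finset.sum_le_sum (fun w (_ : w ∈ Finset.univ) => hG w)
    rw [← Finset.mul_sum] at h1
    refine le_trans (le_of_eq ?_) h1
    simp only [Finset.sum_add_distrib, Finset.sum_sub_distrib]
    rw [hE]
    congr 1
    congr 1
    · rw [Finset.sum_comm]
      apply Finset.sum_congr rfl
      intro l _
      rw [← Finset.sum_mul, hm]
    · rw [Finset.sum_comm]
  have hCs : ∀ A : Finset Λ, χY - ∑ w, χ w ≤ ∑ l ∈ A, (y l - T l) := by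
    intro A
    have h := hC A
    rw [Finset.sum_sub_distrib, Finset.sum_comm] at h
    rw [Finset.sum_sub_distrib]
    linarith
  set A : Finset Λ := Finset.univ.filter fun l => y l < T l with hA
  have habs : ∑ l, |T l - y l| = - ∑ l, (T l - y l) - 2 * ∑ l ∈ A, (y l - T l) := by
    rw [hA, Finset.sum_filter, Finset.mul_sum, ← Finset.sum_neg_distrib, ← Finset.sum_sub_distrib]
    apply Finset.sum_congr rfl
    intro l _
    split_ifs with h
    · rw [abs_of_pos (by linarith)]; ring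
    · rw [abs_of_nonpos (by linarith)]; ring
  have hsplit : ∑ l, (T l - y l) = ∑ l, (m * n l - y l) - ∑ l, (m * n l - T l) := by
    rw [← Finset.sum_sub_distrib]
    apply Finset.sum_congr rfl
    intro l _
    ring
  have habs0 : 0 ≤ ∑ l, |T l - y l| := Finset.sum_nonneg fun _ _ => abs_nonneg _
  have hCA := hCs A
  have hEz : E = 0 := by linarith
  have hAz : ∑ l, |T l - y l| = 0 := by linarith
  have hyT : ∀ l, y l = T l := by
    intro l
    have h := (Finset.sum_eq_zero_iff_of_nonneg (fun l _ => abs_nonneg (T l - y l))).1 hAz l (Finset.mem_univ l)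
    have := abs_eq_zero.1 h
    linarith
  refine ⟨?_, hyT, ?_⟩
  · have h0 := hCs ∅
    rw [Finset.sum_empty] at h0
    have h1 : ∑ l, (T l - y l) = 0 := Finset.sum_eq_zero fun l _ => by rw [hyT l]; ring
    linarith
  · intro w l hε
    have h1 := (Finset.sum_eq_zero_iff_of_nonneg
      (fun w _ => Finset.sum_nonneg fun l _ => hterm w l)).1 hEz w (Finset.mem_univ w)
    have h2 := (Finset.sum_eq_zero_iff_of_nonneg (fun l _ => hterm w l)).1 h1 l (Finset.mem_univ l)
    rw [if_pos hε] at h2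
    exact (hpos w l).ne' h2

namespace SpecData

variable {p : ℕ} [Fact p.Prime] (C : SpecData p)

/-- **[S] (7.2)** Riemann-Hurwitz over `L` -/
theorem hurwitz : nu C.L C.YY = ∑ l, ((C.m : ℤ) * ((C.P l).deg : ℤ) - (redFib C.L C.YY (C.P l)).deg) := by
  classical
  have hsep : Algebra.IsSeparable C.XX C.YY := inferInstance
  rw [nu_eq_of_separable (k := C.L) (M := C.XX) (M' := C.YY)]
  have hnuX : nu C.L C.XX = 0 := by unfold nu; rw [C.chiX]; ring
  rw [hnuX, mul_zero, zero_add]
  set S : C.Lam → Finset (Place C.L C.YY) :=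
    fun l => (Place.finite_over (M' := C.YY) (C.P l)).toFinset with hS
  have hmemS : ∀ l Q, Q ∈ S l ↔ Q.Over (C.P l) := by
    intro l Q
    simp [hS]
  have hsupp : Function.support (fun Q : Place C.L C.YY => diffExp C.XX Q * (Q.deg : ℤ))
      ⊆ ↑(Finset.univ.biUnion S) := by
    intro Q hQ
    obtain ⟨P', hP', -⟩ := Place.existsUnique_below (M := C.XX) Q
    by_contra hmem
    apply hQ
    have hnot : P' ∉ Set.range C.P := by
      rintro ⟨l, rfl⟩
      apply hmem
      rw [Finset.mem_coe, Finset.mem_biUnion]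
      exact ⟨l, Finset.mem_univ l, (hmemS l Q).2 hP'⟩
    show diffExp C.XX Q * (Q.deg : ℤ) = 0
    rw [diffExp_eq_of_charZero hP', C.unram P' Q hP' hnot]
    simp
  rw [finsum_eq_sum_of_support_subset _ hsupp, Finset.sum_biUnion]
  · apply Finset.sum_congr rfl
    intro l _
    have h1 := endgame_sum_ramIdx (M' := C.YY) (C.P l)
    rw [endgame_deg_redFib]
    unfold m
    rw [← h1, ← Finset.sum_sub_distrib]
    apply Finset.sum_congr rfl
    intro Q hQ
    rw [diffExp_eq_of_charZero ((hmemS l Q).1 hQ)]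
    ring
  · intro l _ l' _ hne
    rw [Function.onFun, Finset.disjoint_left]
    intro Q hQ hQ'
    exact hne (C.P_inj (Place.Over.unique ((hmemS l Q).1 hQ) ((hmemS l' Q).1 hQ')))

/-- **[S] (7.18)** -/
theorem endgame (w₀ : C.Prol) :
    chi C.L C.YY = ∑ w : C.Orb w₀, chi C.F (C.Kw w.1) ∧
    (∀ l, (redFib C.L C.YY (C.P l)).deg = ∑ w : C.Orb w₀, (redFib C.F (C.Kw w.1) (C.t l)).deg) ∧
    ∀ w : C.Orb w₀, ∃ (u : ℕ) (r a : C.Lam → ℕ), C.ResShape w.1 u r a ∧ ∀ l, ¬ p ∣ a l := by
  classical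
  choose u r a hshape hgen using fun w : C.Orb w₀ => C.resGenus w.1
  have hnum := endgame_numeric (W := C.Orb w₀) (Λ := C.Lam)
    (fun l => (redFib C.L C.YY (C.P l)).deg) (fun l => ((C.t l).deg : ℤ))
    (fun w l => (redFib C.F (C.Kw w.1) (C.t l)).deg) (fun w l => p ∣ a w l)
    (fun w => (Module.finrank C.EE (C.Kw w.1) : ℤ)) (fun w => chi C.F (C.Kw w.1)) (C.m : ℤ) (chi C.L C.YY)
    ?_ ?_ ?_ ?_ ?_
  · exact ⟨hnum.1, hnum.2.1, fun w => ⟨u w, r w, a w, hshape w, fun l => hnum.2.2 w l⟩⟩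
  · have h := C.hurwitz
    unfold nu at h
    rw [h]
    apply Finset.sum_congr rfl
    intro l _
    rw [C.deg_P l]
  · intro w
    have h := hgen w
    unfold nu at h
    exact h
  · intro A
    have h := C.chi_le w₀ A
    unfold TY at h
    rw [endgame_deg_sum] at h
    refine le_trans h (le_of_eq ?_)
    apply Finset.sum_congr rfl
    intro w _
    unfold Tw
    rw [endgame_deg_sum]
  · exact_mod_cast C.sum_mw w₀
  · intro w l
    exact endgame_deg_redFib_pos _

end SpecData

end Claimed.Agent.R280
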