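import Claimed.Agent.R280.Spec.ConnC
import Claimed.Agent.R280.Spec.Endgame

/-!
# Row 280, Spec package S8 `Conn`: the orbit of prolongations is a single point

Glue: build a `ConnData` from a `SpecData` and apply `conn_main`.  The sorried facts are short
(`deg_conorm`, `sum_mw`, `endgame`, `sec_spec` with `A = ∅`, functoriality of `ResMap.map`).  ~300 lines.
-/

set_option autoImplicit false
set_option linter.unusedSectionVars false

namespace Claimed.Agent.R280

open WithZero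

namespace SpecData

variable {p : ℕ} [Fact p.Prime] (C : SpecData p)

theorem prolongs_vL (w : C.Prol) : Prolongs C.vL w.1 := fun a => by
  rw [IsScalarTower.algebraMap_apply C.L C.XX C.YY, w.2, C.vX_ext]

theorem algebraMap_F_Kw (w : C.Prol) :
    algebraMap C.F (C.Kw w) = C.rL.map (C.rw w) (C.prolongs_vL w) := by
  ext x
  obtain ⟨c, rfl⟩ := C.rL.surj x
  have hc : C.vL (c : C.L) ≤ 1 := (Valuation.mem_valuationSubring_iff _ _).1 c.2
  have h1 := C.dimIneq_res_L w (c : C.L) hc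
  rw [C.rL.res_eq hc] at h1
  have h2 : w.1 (algebraMap C.L C.YY (c : C.L)) ≤ 1 := by rw [C.prolongs_vL w]; exact hc
  rw [(C.rw w).res_eq h2] at h1
  rw [ResMap.map, ResMap.lift_toHom]
  exact h1.symm

theorem DY_nonneg (Q : Place C.L C.YY) : 0 ≤ C.DY Q := by
  obtain ⟨P', hP', -⟩ := Place.existsUnique_below (M := C.XX) Q
  unfold DY
  rw [conorm_apply C.DX hP']
  exact mul_nonneg (Int.natCast_nonneg _) (C.DX_nonneg P')

theorem Dw_nonneg (w : C.Prol) (Q : Place C.F (C.Kw w)) : 0 ≤ C.Dw w Q := by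
  obtain ⟨P', hP', -⟩ := Place.existsUnique_below (M := C.EE) Q
  unfold Dw
  rw [conorm_apply C.DF hP']
  exact mul_nonneg (Int.natCast_nonneg _) (C.DF_nonneg P')

theorem Dw_deg_pos (w : C.Prol) : 0 < (C.Dw w).deg := by
  unfold Dw
  rw [deg_conorm, ← C.deg_eq]
  exact mul_pos (by exact_mod_cast C.dimIneq_mw_pos w) C.deg_pos

theorem DY_deg_eq (w₀ : C.Prol) : C.DY.deg = ∑ w : C.Orb w₀, (C.Dw w.1).deg := by
  have h : ∀ w : C.Orb w₀, (C.Dw w.1).deg = (Module.finrank C.EE (C.Kw w.1) : ℤ) * C.DX.deg := by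
    intro w
    unfold Dw
    rw [deg_conorm, ← C.deg_eq]
  simp only [h]
  rw [← Finset.sum_mul]
  have h2 : (∑ w : C.Orb w₀, (Module.finrank C.EE (C.Kw w.1) : ℤ)) = (C.m : ℤ) := by
    exact_mod_cast C.sum_mw w₀
  rw [h2]
  unfold DY m
  rw [deg_conorm]

theorem red_orb (w₀ : C.Prol) (j : ℕ) (a : C.YY) (ha : a ∈ LSp (j • C.DY)) (h : ∀ w : C.Orb w₀, w.1.1 a ≤ 1)
    (w : C.Orb w₀) : (C.rw w.1).res a ∈ LSp (j • C.Dw w.1) := by
  have h1 : C.TY ∅ = 0 := by unfold TY; rw [Finset.sum_empty]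
  have h2 : C.Tw w.1 ∅ = 0 := by unfold Tw; rw [Finset.sum_empty]
  have h3 := C.sec_spec w₀ j ∅ a (by rw [h1, sub_zero]; exact ha) ((C.nrm_le_iff w₀ a 1).2 h) w
  rw [h2, sub_zero] at h3
  exact h3

/-- the connectedness data of the orbit of `w₀` -/
noncomputable def connData (w₀ : C.Prol) : ConnData where
  L := C.L
  YY := C.YY
  F := C.F
  vL := C.vL
  vL_surj := C.vL_surj
  sph := C.sph
  rL := C.rL
  algClosed := C.algClosed
  W := C.Orb w₀
  w := fun w => w.1.1
  w_inj := fun _ _ h => Subtype.ext (Subtype.ext h)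
  w_ext := fun w => C.prolongs_vL w.1
  K := fun w => C.Kw w.1
  r := fun w => C.rw w.1
  r_ext := fun w => C.algebraMap_F_Kw w.1
  DY := C.DY
  D := fun w => C.Dw w.1
  DY_nonneg := C.DY_nonneg
  D_nonneg := fun w => C.Dw_nonneg w.1
  deg_pos := fun w => C.Dw_deg_pos w.1
  deg_eq := C.DY_deg_eq w₀
  chi_eq := (C.endgame w₀).1
  red := C.red_orb w₀

/-- **the orbit is a point** -/
theorem connected (w₀ : C.Prol) (g : C.J) : g • w₀ = w₀ := by
  have h : Subsingleton (C.Orb w₀) := (C.connData w₀).conn_main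
  have := h.elim ⟨g • w₀, MulAction.mem_orbit w₀ g⟩ ⟨w₀, MulAction.mem_orbit_self w₀⟩
  exact congrArg Subtype.val this

end SpecData

end Claimed.Agent.R280
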