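import Claimed.Agent.R280.Spec.ValIface

/-!
# Row 280, Spec package S0 `Reduce`: unit balls of normed spaces over a spherically complete field and their reductions (shared by S2, S5, S6)

`L` spherically complete with value group `ℚ`, residue map `r` onto `F`; `U` a finite dimensional `L`-space with a valuation norm `N`; `ρ : U → B` a "reduction map" on the unit ball
(additive, semilinear over `r`, kernel `= {N < 1}`), `B` an `F`-vector space.

PLAN.
* `exists_reduced_basis`: V2 gives `e` with `N (∑ c_i e_i) = max v(c_i)`.  `N (e_i) = 1`.  Independence: lift a relation `∑ c̄_i ρ(e_i) = 0` (`r.surj`; lift `0` by `0`), then `ρ (∑ c_i e_i) = 0`, so `max v(c_i) < 1`, so all `c̄_i = 0`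
  (`r.ker`).  Span: `x = ∑ c_i e_i` with `v(c_i) ≤ N x ≤ 1`, `ρ x = ∑ res(c_i) ρ(e_i)`.
* `finrank_reduction`: the image of the unit ball is the span of the `ρ (e_i)`.
* `ball_le_of_dense` (Nakayama): `e_i = n_i + z_i`, `N z_i < 1`, `z_i = ∑_j c_ij e_j`, `v(c_ij) < 1`.  `(1 - C) e = n`; `det (1 - C)` has residue `1`, so it is a unit of `O_L`; `(1 - C)⁻¹ = det⁻¹ · adjugate` has integral entries;
  so every `e_i`, hence every element of the unit ball, is an integral combination of the `n_i`.
~600 lines.   Owner of the statements: helper66.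
-/

set_option autoImplicit false

namespace Claimed.Agent.R280

open WithZero

/-! ### auxiliary lemmas (prefix `rdc_`) -/

section rdcAux

variable {L F : Type} [Field L] [Field F] {v : Valuation L ℚᵐ⁰} (r : ResMap v F)

theorem rdc_res_add {a b : L} (ha : v a ≤ 1) (hb : v b ≤ 1) : r.res (a + b) = r.res a + r.res b := by
  have hab : v (a + b) ≤ 1 := (v.map_add a b).trans (max_le ha hb)
  rw [r.res_eq ha, r.res_eq hb, r.res_eq hab, ← map_add]
  rfl

theorem rdc_res_eq_zero_iff {a : L} (ha : v a ≤ 1) : r.res a = 0 ↔ v a < 1 := by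
  rw [r.res_eq ha, r.ker]

theorem rdc_exists_res (c : F) : ∃ a : L, v a ≤ 1 ∧ r.res a = c := by
  obtain ⟨x, hx⟩ := r.surj c
  have hx1 : v (x : L) ≤ 1 := (Valuation.mem_valuationSubring_iff v _).1 x.2
  exact ⟨x, hx1, by rw [r.res_eq hx1]; exact hx⟩

variable {U : Type} [AddCommGroup U] [Module L U] {N : U → ℚᵐ⁰}

theorem rdc_N_zero (hN : IsVNorm v N) : N 0 = 0 := (hN.eq_zero 0).2 rfl

theorem rdc_N_neg (hN : IsVNorm v N) (x : U) : N (-x) = N x := by
  have h := hN.smul (-1) x
  rwa [neg_one_smul, Valuation.map_neg, map_one, one_mul] at h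

theorem rdc_N_sub_le (hN : IsVNorm v N) (x y : U) : N (x - y) ≤ max (N x) (N y) := by
  rw [sub_eq_add_neg, ← rdc_N_neg hN y]
  exact hN.add_le x (-y)

/-- the dominant term -/
theorem rdc_N_sub_eq (hN : IsVNorm v N) {x y : U} (h : N y < N x) : N (x - y) = N x := by
  refine le_antisymm ((rdc_N_sub_le hN x y).trans (max_le le_rfl h.le)) ?_
  by_contra hlt
  rw [not_le] at hlt
  have h1 : N x ≤ max (N (x - y)) (N y) := by
    have := hN.add_le (x - y) y
    rwa [sub_add_cancel] at this
  exact absurd h1 (not_le.2 (max_lt hlt h))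

theorem rdc_N_sum_le (hN : IsVNorm v N) {ι : Type} (s : Finset ι) (x : ι → U) :
    N (∑ i ∈ s, x i) ≤ s.sup fun i => N (x i) := by
  classical
  induction s using Finset.induction_on with
  | empty => simp [rdc_N_zero hN]
  | insert a s ha ih =>
    rw [Finset.sum_insert ha, Finset.sup_insert]
    exact (hN.add_le _ _).trans (max_le_max le_rfl ih)

theorem rdc_N_comb_le (hN : IsVNorm v N) {ι : Type} (s : Finset ι) (c : ι → L) (x : ι → U)
    (hc : ∀ i ∈ s, v (c i) ≤ 1) (hx : ∀ i ∈ s, N (x i) ≤ 1) : N (∑ i ∈ s, c i • x i) ≤ 1 := by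
  refine (rdc_N_sum_le hN s _).trans (Finset.sup_le fun i hi => ?_)
  rw [hN.smul]
  exact mul_le_one' (hc i hi) (hx i hi)

end rdcAux

section

variable {L F : Type} [Field L] [Field F] {v : Valuation L ℚᵐ⁰} (hv : Function.Surjective v) (hs : IsSphComplete v)
  (r : ResMap v F) {U : Type} [AddCommGroup U] [Module L U] [FiniteDimensional L U] {N : U → ℚᵐ⁰} (hN : IsVNorm v N)

/-- a reduction map on the unit ball -/
structure IsReduction (r : ResMap v F) (N : U → ℚᵐ⁰) {B : Type} [AddCommGroup B] [Module F B] (ρ : U → B) : Prop where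
  add : ∀ x y, N x ≤ 1 → N y ≤ 1 → ρ (x + y) = ρ x + ρ y
  smul : ∀ (c : L) (x : U), v c ≤ 1 → N x ≤ 1 → ρ (c • x) = r.res c • ρ x
  ker : ∀ x, N x ≤ 1 → (ρ x = 0 ↔ N x < 1)

omit [FiniteDimensional L U] in
theorem rdc_rho_zero {r : ResMap v F} (hN : IsVNorm v N) {B : Type} [AddCommGroup B] [Module F B] {ρ : U → B}
    (hρ : IsReduction r N ρ) : ρ 0 = 0 := by
  have h0 : N (0 : U) = 0 := rdc_N_zero hN
  exact (hρ.ker 0 (by rw [h0]; exact zero_le_one)).2 (by rw [h0]; exact zero_lt_one)

omit [FiniteDimensional L U] in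
theorem rdc_rho_comb {r : ResMap v F} (hN : IsVNorm v N) {B : Type} [AddCommGroup B] [Module F B] {ρ : U → B}
    (hρ : IsReduction r N ρ) {ι : Type} (s : Finset ι) (c : ι → L) (x : ι → U)
    (hc : ∀ i ∈ s, v (c i) ≤ 1) (hx : ∀ i ∈ s, N (x i) ≤ 1) :
    ρ (∑ i ∈ s, c i • x i) = ∑ i ∈ s, r.res (c i) • ρ (x i) := by
  classical
  induction s using Finset.induction_on with
  | empty => simpa using rdc_rho_zero hN hρ
  | insert a s ha ih =>
    have hc' : ∀ i ∈ s, v (c i) ≤ 1 := fun i hi => hc i (Finset.mem_insert_of_mem hi)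
    have hx' : ∀ i ∈ s, N (x i) ≤ 1 := fun i hi => hx i (Finset.mem_insert_of_mem hi)
    have hca := hc a (Finset.mem_insert_self a s)
    have hxa := hx a (Finset.mem_insert_self a s)
    rw [Finset.sum_insert ha, Finset.sum_insert ha, hρ.add _ _ ?_ (rdc_N_comb_le hN s c x hc' hx'),
      hρ.smul _ _ hca hxa, ih hc' hx']
    rw [hN.smul]
    exact mul_le_one' hca hxa

include hv hs hN in
theorem exists_reduced_basis {B : Type} [AddCommGroup B] [Module F B] {ρ : U → B} (hρ : IsReduction r N ρ) :
    ∃ e : Module.Basis (Fin (Module.finrank L U)) L U,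
      (∀ c : Fin (Module.finrank L U) → L, N (∑ i, c i • e i) = Finset.univ.sup fun i => v (c i)) ∧
      (∀ i, N (e i) = 1) ∧ LinearIndependent F (fun i => ρ (e i)) ∧
      ∀ x, N x ≤ 1 → ρ x ∈ Submodule.span F (Set.range fun i => ρ (e i)) := by
  classical
  obtain ⟨e, he⟩ := exists_orthonormal_basis v hv hs N hN
  have he1 : ∀ i, N (e i) = 1 := by
    intro i
    have h := he (Pi.single i 1)
    have h1 : ∑ j, (Pi.single i (1 : L) : Fin (Module.finrank L U) → L) j • e j = e i := by
      rw [Finset.sum_eq_single i]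
      · simp
      · intro j _ hj
        simp [Pi.single_eq_of_ne hj]
      · intro h
        exact absurd (Finset.mem_univ i) h
    rw [h1] at h
    rw [h]
    refine le_antisymm (Finset.sup_le fun j _ => ?_) ?_
    · by_cases hj : j = i
      · subst hj
        simp
      · simp [Pi.single_eq_of_ne hj]
    · have := Finset.le_sup (f := fun j => v ((Pi.single i (1 : L) : Fin (Module.finrank L U) → L) j))
        (Finset.mem_univ i)
      simpa using this
  refine ⟨e, he, he1, ?_, ?_⟩
  · rw [Fintype.linearIndependent_iff]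
    intro g hg i
    choose c hc1 hcg using fun i => rdc_exists_res r (g i)
    have h1 : ρ (∑ i, c i • e i) = 0 := by
      rw [rdc_rho_comb hN hρ Finset.univ c e (fun i _ => hc1 i) (fun i _ => (he1 i).le), ← hg]
      exact Finset.sum_congr rfl fun i _ => by rw [hcg]
    have h2 : N (∑ i, c i • e i) ≤ 1 :=
      rdc_N_comb_le hN Finset.univ c e (fun i _ => hc1 i) (fun i _ => (he1 i).le)
    have h3 := (hρ.ker _ h2).1 h1
    rw [he] at h3
    have h4 : v (c i) < 1 := lt_of_le_of_lt (Finset.le_sup (f := fun i => v (c i)) (Finset.mem_univ i)) h3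
    rw [← hcg i]
    exact (rdc_res_eq_zero_iff r (hc1 i)).2 h4
  · intro x hx
    have hx' : ∑ i, e.repr x i • e i = x := e.sum_repr x
    have h1 := he (fun i => e.repr x i)
    rw [hx'] at h1
    have h2 : ∀ i, v (e.repr x i) ≤ 1 := fun i =>
      (Finset.le_sup (f := fun i => v (e.repr x i)) (Finset.mem_univ i)).trans (h1 ▸ hx)
    rw [← hx', rdc_rho_comb hN hρ Finset.univ _ e (fun i _ => h2 i) (fun i _ => (he1 i).le)]
    exact Submodule.sum_mem _ fun i _ => Submodule.smul_mem _ _ (Submodule.subset_span ⟨i, rfl⟩)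

include hv hs hN in
/-- the reduction of the unit ball is a subspace of dimension `dim_L U` -/
theorem finrank_reduction {B : Type} [AddCommGroup B] [Module F B] {ρ : U → B} (hρ : IsReduction r N ρ) :
    ∃ R : Submodule F B, (∀ β, β ∈ R ↔ ∃ x, N x ≤ 1 ∧ ρ x = β) ∧ Module.finrank F R = Module.finrank L U ∧
      Module.Finite F R := by
  classical
  obtain ⟨e, he, he1, hli, hsp⟩ := exists_reduced_basis hv hs r hN hρ
  refine ⟨Submodule.span F (Set.range fun i => ρ (e i)), fun β => ⟨fun hβ => ?_, ?_⟩, ?_, ?_⟩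
  · obtain ⟨g, hg⟩ := (Submodule.mem_span_range_iff_exists_fun F).1 hβ
    choose c hc1 hcg using fun i => rdc_exists_res r (g i)
    refine ⟨∑ i, c i • e i, rdc_N_comb_le hN Finset.univ c e (fun i _ => hc1 i) (fun i _ => (he1 i).le), ?_⟩
    rw [rdc_rho_comb hN hρ Finset.univ c e (fun i _ => hc1 i) (fun i _ => (he1 i).le), ← hg]
    exact Finset.sum_congr rfl fun i _ => by rw [hcg]
  · rintro ⟨x, hx, rfl⟩
    exact hsp x hx
  · rw [finrank_span_eq_card hli, Fintype.card_fin]
  · exact FiniteDimensional.span_of_finite F (Set.finite_range _)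

include hv hs hN in
/-- **Nakayama for unit balls**: an `O_L`-submodule of the unit ball which is dense modulo the maximal ideal is the whole unit ball -/
theorem ball_le_of_dense (S : Set U) (h0 : (0 : U) ∈ S) (hadd : ∀ x ∈ S, ∀ y ∈ S, x + y ∈ S)
    (hsmul : ∀ (c : L), v c ≤ 1 → ∀ x ∈ S, c • x ∈ S) (hdense : ∀ x, N x ≤ 1 → ∃ n ∈ S, N (x - n) < 1) :
    ∀ x, N x ≤ 1 → x ∈ S := by
  classical
  obtain ⟨e, he⟩ := exists_orthonormal_basis v hv hs N hN
  have he1 : ∀ i, N (e i) = 1 := by
    intro i
    have h := he (Pi.single i 1)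
    have h1 : ∑ j, (Pi.single i (1 : L) : Fin (Module.finrank L U) → L) j • e j = e i := by
      rw [Finset.sum_eq_single i]
      · simp
      · intro j _ hj
        simp [Pi.single_eq_of_ne hj]
      · intro h
        exact absurd (Finset.mem_univ i) h
    rw [h1] at h
    rw [h]
    refine le_antisymm (Finset.sup_le fun j _ => ?_) ?_
    · by_cases hj : j = i
      · subst hj
        simp
      · simp [Pi.single_eq_of_ne hj]
    · have := Finset.le_sup (f := fun j => v ((Pi.single i (1 : L) : Fin (Module.finrank L U) → L) j))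
        (Finset.mem_univ i)
      simpa using this
  choose n hnS hn using fun i => hdense (e i) (he1 i).le
  -- the `n i` are orthonormal as well
  have key : ∀ c : Fin (Module.finrank L U) → L, N (∑ i, c i • n i) = Finset.univ.sup fun i => v (c i) := by
    intro c
    by_cases hM : (Finset.univ.sup fun i => v (c i)) = 0
    · have hc : ∀ i, c i = 0 := fun i => by
        have h1 : v (c i) ≤ 0 := hM ▸ Finset.le_sup (f := fun i => v (c i)) (Finset.mem_univ i)
        exact (Valuation.zero_iff v).1 (le_antisymm h1 zero_le)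
      rw [hM]
      simp [hc, rdc_N_zero hN]
    · have hM0 : 0 < Finset.univ.sup fun i => v (c i) := lt_of_le_of_ne zero_le (Ne.symm hM)
      have h1 : ∑ i, c i • n i = ∑ i, c i • e i - ∑ i, c i • (e i - n i) := by
        rw [← Finset.sum_sub_distrib]
        exact Finset.sum_congr rfl fun i _ => by rw [smul_sub, sub_sub_cancel]
      have h2 : N (∑ i, c i • (e i - n i)) < N (∑ i, c i • e i) := by
        rw [he]
        refine lt_of_le_of_lt (rdc_N_sum_le hN _ _) ?_
        rw [Finset.sup_lt_iff (by simpa using hM0)]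
        intro i _
        rw [hN.smul]
        by_cases hci : v (c i) = 0
        · rw [hci, zero_mul]
          exact hM0
        · have h3 : v (c i) * N (e i - n i) < v (c i) * 1 :=
            mul_lt_mul_of_pos_left (hn i) (lt_of_le_of_ne zero_le (Ne.symm hci))
          rw [mul_one] at h3
          exact lt_of_lt_of_le h3 (Finset.le_sup (f := fun i => v (c i)) (Finset.mem_univ i))
      rw [h1, rdc_N_sub_eq hN h2, he]
  have hli : LinearIndependent L n := by
    rw [Fintype.linearIndependent_iff]
    intro g hg i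
    have h1 := key g
    rw [hg, rdc_N_zero hN] at h1
    have h2 : v (g i) ≤ 0 := h1 ▸ Finset.le_sup (f := fun i => v (g i)) (Finset.mem_univ i)
    exact (Valuation.zero_iff v).1 (le_antisymm h2 zero_le)
  have htop : Submodule.span L (Set.range n) = ⊤ :=
    hli.span_eq_top_of_card_eq_finrank' (by rw [Fintype.card_fin])
  intro x hx
  have hxs : x ∈ Submodule.span L (Set.range n) := by rw [htop]; trivial
  obtain ⟨c, hc⟩ := (Submodule.mem_span_range_iff_exists_fun L).1 hxs
  have h1 := key c
  rw [hc] at h1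
  have h2 : ∀ i, v (c i) ≤ 1 := fun i =>
    (Finset.le_sup (f := fun i => v (c i)) (Finset.mem_univ i)).trans (h1 ▸ hx)
  have h3 : ∀ s : Finset (Fin (Module.finrank L U)), ∑ i ∈ s, c i • n i ∈ S := by
    intro s
    induction s using Finset.induction_on with
    | empty => simpa using h0
    | insert a s ha ih =>
      rw [Finset.sum_insert ha]
      exact hadd _ (hsmul _ (h2 a) _ (hnS a)) _ ih
  rw [← hc]
  exact h3 Finset.univ

end

end Claimed.Agent.R280
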