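import Claimed.Agent.R280.Spec.ConnDefs
import Claimed.Agent.R280.Spec.Reduce

/-!
# Row 280, Spec package S5 `ConnA`: surjectivity of reduction and a good function

PLAN.  `onto_large`: as in `SpecData.ell_le` (orthonormal basis of `L(j DY)`, V2) the reduction
`A_j / m A_j → ⊕ L(j D i)` is injective, so its image has dimension `ell (j DY) = j deg DY + χ(YY)` (`j` large, Riemann), which
is `∑ (j deg D i + χ(K i)) = dim ⊕ L(j D i)` by `deg_eq`, `chi_eq`: it is onto.
`exists_good`: take `j ≥ j₀` so large that moreover `ell (j DY - Q) < ell (j DY)` for the finitely many `Q ∈ supp DY` and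
`ell (j D i - Q') < ell (j D i)` for `Q' ∈ supp D i`.  The reductions `R_Q` of the unit balls of `L(j DY - Q)` are proper
subspaces of `B_j = ⊕ L(j D i)` (dimension `ell (j DY - Q)`), so are `L(j D i - Q') ⊕ (rest)` and `{β | β i = 0}`.
`F` is infinite: a vector space is not a finite union of proper subspaces (`Subspace.biUnion_ne_univ_of_top_notMem` /
`Submodule` version in Mathlib).  Take `β` outside all of them and `x` a lift.  `w i x = 1` since `β i ≠ 0`.
~900 lines.

Helper lemmas: prefix `cna_`.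
-/

set_option autoImplicit false

namespace Claimed.Agent.R280

open WithZero

/-! ### generic helpers -/

theorem cna_res_mul {K k : Type} [Field K] [Field k] {v : Valuation K ℚᵐ⁰} (r : ResMap v k) {a b : K}
    (ha : v a ≤ 1) (hb : v b ≤ 1) : r.res (a * b) = r.res a * r.res b := by
  have hab : v (a * b) ≤ 1 := by
    rw [map_mul]
    exact mul_le_one' ha hb
  rw [r.res_eq ha, r.res_eq hb, r.res_eq hab, ← map_mul]
  rfl

/-- dimension of a product of subspaces -/
theorem cna_pi_finrank {F : Type} [Field F] {W : Type} [Fintype W] {K : W → Type} [∀ i, AddCommGroup (K i)]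
    [∀ i, Module F (K i)] (p : ∀ i, Submodule F (K i)) [∀ i, Module.Finite F (p i)] :
    Module.finrank F (Submodule.pi Set.univ p) = ∑ i, Module.finrank F (p i) ∧
      Module.Finite F (Submodule.pi Set.univ p) := by
  classical
  let Φ : (∀ i, p i) →ₗ[F] (∀ i, K i) := LinearMap.pi fun i => (p i).subtype ∘ₗ LinearMap.proj i
  have hΦ : Function.Injective Φ := by
    intro a b hab
    funext i
    exact Subtype.ext (congrFun hab i)
  have hr : Submodule.pi Set.univ p = LinearMap.range Φ := by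
    ext β
    constructor
    · intro hβ
      exact ⟨fun i => ⟨β i, hβ i (Set.mem_univ i)⟩, rfl⟩
    · rintro ⟨a, rfl⟩ i _
      exact (a i).2
  rw [hr]
  exact ⟨by rw [LinearMap.finrank_range_of_inj hΦ, Module.finrank_pi_fintype], Module.Finite.range Φ⟩

section FFaux

variable {k M : Type} [Field k] [Field M] [Algebra k M]

theorem cna_nsmul_apply (j : ℕ) (D : Dvsr k M) (Q : Place k M) : (j • D) Q = j * D Q := by
  rw [Finsupp.smul_apply, nsmul_eq_mul]

/-- a section of `D` which is not a section of `D - Q` has a pole of exact order `D Q` at `Q` -/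
theorem cna_v_eq {D : Dvsr k M} {f : M} (hf : f ∈ LSp D) {Q : Place k M}
    (hQ : f ∉ LSp (D - Finsupp.single Q 1)) : Q.v f = exp (D Q) := by
  classical
  by_contra hne
  apply hQ
  intro P
  by_cases hP : P = Q
  · subst hP
    have hlt : P.v f < exp (D P) := lt_of_le_of_ne (hf P) hne
    rw [Finsupp.sub_apply, Finsupp.single_eq_same]
    by_cases h0 : f = 0
    · simp [h0]
    · rw [P.v_lt_exp_iff h0] at hlt
      rw [P.v_le_exp_iff h0]
      omega
  · rw [Finsupp.sub_apply, Finsupp.single_eq_of_ne hP, sub_zero]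
    exact hf P

variable [IsFF k M]

/-- Riemann's theorem for the large multiples of a divisor of positive degree -/
theorem cna_riemann (D : Dvsr k M) (hD : 0 < D.deg) :
    ∃ j₁ : ℕ, ∀ j : ℕ, j₁ ≤ j → (ell (j • D) : ℤ) = j * D.deg + chi k M ∧
      ∀ Q ∈ D.support, (ell (j • D - Finsupp.single Q 1) : ℤ) = j * D.deg - Q.deg + chi k M := by
  obtain ⟨c, hc⟩ := hasChi_chi (k := k) (M := M)
  refine ⟨(c + ∑ Q ∈ D.support, (Q.deg : ℤ)).toNat, fun j hj => ?_⟩
  have hj' : c + ∑ Q ∈ D.support, (Q.deg : ℤ) ≤ j := Int.toNat_le.1 hj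
  have hj0 : (0 : ℤ) ≤ j := Int.natCast_nonneg j
  have h1 : (j : ℤ) ≤ j * D.deg := by nlinarith
  have hdeg : (j • D).deg = j * D.deg := by rw [← natCast_zsmul, Dvsr.deg_smul]
  have hs0 : (0 : ℤ) ≤ ∑ Q ∈ D.support, (Q.deg : ℤ) := Finset.sum_nonneg fun _ _ => Int.natCast_nonneg _
  constructor
  · rw [hc _ (by rw [hdeg]; linarith), hdeg]
  · intro Q hQ
    have h2 : (Q.deg : ℤ) ≤ ∑ Q ∈ D.support, (Q.deg : ℤ) :=
      Finset.single_le_sum (f := fun Q : Place k M => (Q.deg : ℤ)) (fun _ _ => Int.natCast_nonneg _) hQ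
    have hd : (j • D - Finsupp.single Q 1).deg = j * D.deg - Q.deg := by
      rw [Dvsr.deg_sub, hdeg, Dvsr.deg_single, one_mul]
    rw [hc _ (by rw [hd]; linarith), hd]

end FFaux

namespace ConnData

variable (C : ConnData)

theorem cna_nrm_le_one {a : C.YY} : C.nrm a ≤ 1 ↔ ∀ i, C.w i a ≤ 1 := by
  unfold nrm
  rw [Finset.sup_le_iff]
  simp

theorem cna_nrm_lt_one {a : C.YY} : C.nrm a < 1 ↔ ∀ i, C.w i a < 1 := by
  unfold nrm
  rw [Finset.sup_lt_iff (by simp)]
  simp

theorem isVNorm_nrm [Nonempty C.W] : IsVNorm C.vL C.nrm where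
  eq_zero x := by
    constructor
    · intro h
      obtain ⟨i⟩ := ‹Nonempty C.W›
      have h1 : C.w i x ≤ 0 := h ▸ Finset.le_sup (f := fun i => C.w i x) (Finset.mem_univ i)
      exact (Valuation.zero_iff _).1 (le_antisymm h1 zero_le)
    · rintro rfl
      refine le_antisymm (Finset.sup_le fun i _ => ?_) zero_le
      simp
  add_le x y := by
    refine Finset.sup_le fun i _ => ((C.w i).map_add x y).trans (max_le_max ?_ ?_)
    · exact Finset.le_sup (f := fun i => C.w i x) (Finset.mem_univ i)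
    · exact Finset.le_sup (f := fun i => C.w i y) (Finset.mem_univ i)
  smul a x := by
    unfold nrm
    have h : ∀ i, C.w i (a • x) = C.vL a * C.w i x := fun i => by
      rw [Algebra.smul_def, map_mul, C.w_ext i]
    simp only [h]
    exact (Finset.apply_sup_eq_sup_comp_of_linearOrder (fun t => C.vL a * t)
      (fun _ _ h => mul_le_mul_right h _) (by simp)).symm

theorem cna_isVNorm [Nonempty C.W] (V : Submodule C.L C.YY) :
    IsVNorm C.vL (fun a : V => C.nrm (a : C.YY)) where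
  eq_zero x := by
    rw [C.isVNorm_nrm.eq_zero]
    exact Submodule.coe_eq_zero
  add_le x y := C.isVNorm_nrm.add_le x y
  smul a x := C.isVNorm_nrm.smul a x

theorem cna_res_algebraMap (i : C.W) {c : C.L} (hc : C.vL c ≤ 1) :
    (C.r i).res (algebraMap C.L C.YY c) = algebraMap C.F (C.K i) (C.rL.res c) := by
  have h1 : C.w i (algebraMap C.L C.YY c) ≤ 1 := by rw [C.w_ext i]; exact hc
  rw [C.r_ext i, C.rL.res_eq hc, (C.r i).res_eq h1, ResMap.map, ResMap.lift_toHom]
  rfl

theorem cna_isReduction (V : Submodule C.L C.YY) :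
    IsReduction C.rL (fun a : V => C.nrm (a : C.YY))
      (fun (a : V) (i : C.W) => (C.r i).res (a : C.YY)) where
  add x y hx hy := by
    funext i
    exact rdc_res_add (C.r i) (C.cna_nrm_le_one.1 hx i) (C.cna_nrm_le_one.1 hy i)
  smul c x hc hx := by
    funext i
    have h1 : C.w i (algebraMap C.L C.YY c) ≤ 1 := by rw [C.w_ext i]; exact hc
    show (C.r i).res ((c • x : V) : C.YY) = C.rL.res c • (C.r i).res (x : C.YY)
    rw [Submodule.coe_smul, Algebra.smul_def, cna_res_mul (C.r i) h1 (C.cna_nrm_le_one.1 hx i),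
      C.cna_res_algebraMap i hc, Algebra.smul_def]
  ker x hx := by
    rw [funext_iff, C.cna_nrm_lt_one]
    exact forall_congr' fun i => rdc_res_eq_zero_iff (C.r i) (C.cna_nrm_le_one.1 hx i)

/-- the reduction of the unit ball of a finite dimensional subspace `V` of `YY` -/
theorem cna_red [Nonempty C.W] (V : Submodule C.L C.YY) [FiniteDimensional C.L V] :
    ∃ R : Submodule C.F (∀ i, C.K i),
      (∀ β, β ∈ R ↔ ∃ x ∈ V, (∀ i, C.w i x ≤ 1) ∧ ∀ i, (C.r i).res x = β i) ∧
      Module.finrank C.F R = Module.finrank C.L V ∧ Module.Finite C.F R := by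
  obtain ⟨R, h1, h2, h3⟩ :=
    finrank_reduction C.vL_surj C.sph C.rL (C.cna_isVNorm V) (C.cna_isReduction V)
  refine ⟨R, fun β => ?_, h2, h3⟩
  rw [h1]
  constructor
  · rintro ⟨x, hx, rfl⟩
    exact ⟨x, x.2, C.cna_nrm_le_one.1 hx, fun i => rfl⟩
  · rintro ⟨x, hxV, hx, hβ⟩
    exact ⟨⟨x, hxV⟩, C.cna_nrm_le_one.2 hx, funext hβ⟩

theorem cna_DY_deg_pos [Nonempty C.W] : 0 < C.DY.deg := by
  rw [C.deg_eq]
  exact Finset.sum_pos (fun i _ => C.deg_pos i) Finset.univ_nonempty

/-- K1: reduction is onto in high degree -/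
theorem onto_large : ∃ j₀ : ℕ, ∀ j : ℕ, j₀ ≤ j → ∀ β : ∀ i, C.K i, (∀ i, β i ∈ LSp (j • C.D i)) →
    ∃ a ∈ LSp (j • C.DY), (∀ i, C.w i a ≤ 1) ∧ ∀ i, (C.r i).res a = β i := by
  classical
  rcases isEmpty_or_nonempty C.W with hW | hW
  · exact ⟨0, fun j _ β _ => ⟨0, Submodule.zero_mem _, fun i => isEmptyElim i, fun i => isEmptyElim i⟩⟩
  obtain ⟨jY, hjY⟩ := cna_riemann C.DY C.cna_DY_deg_pos
  choose jK hjK using fun i => cna_riemann (C.D i) (C.deg_pos i)
  refine ⟨jY + ∑ i, jK i, fun j hj β hβ => ?_⟩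
  have hjY' : jY ≤ j := le_trans (Nat.le_add_right _ _) hj
  have hjK' : ∀ i, jK i ≤ j := fun i =>
    le_trans (le_trans (Finset.single_le_sum (f := jK) (fun _ _ => Nat.zero_le _) (Finset.mem_univ i))
      (Nat.le_add_left _ _)) hj
  have := finite_LSp (j • C.DY)
  obtain ⟨R, hR, hRfin, hRF⟩ := C.cna_red (LSp (j • C.DY))
  have : ∀ i, Module.Finite C.F (LSp (j • C.D i)) := fun i => finite_LSp _
  obtain ⟨hT, hTF⟩ := cna_pi_finrank (fun i => LSp (j • C.D i))
  have hle : R ≤ Submodule.pi Set.univ (fun i => LSp (j • C.D i)) := by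
    intro γ hγ
    obtain ⟨x, hxV, hx, hγ'⟩ := (hR γ).1 hγ
    intro i _
    rw [← hγ' i]
    exact C.red j x hxV hx i
  have heq : Module.finrank C.F R =
      Module.finrank C.F (Submodule.pi Set.univ (fun i => LSp (j • C.D i))) := by
    rw [hRfin, hT]
    have h1 : ((ell (j • C.DY) : ℕ) : ℤ) = ((∑ i, ell (j • C.D i) : ℕ) : ℤ) := by
      rw [(hjY j hjY').1, Nat.cast_sum, Finset.sum_congr rfl fun i _ => (hjK i j (hjK' i)).1,
        Finset.sum_add_distrib, ← Finset.mul_sum, ← C.deg_eq, ← C.chi_eq]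
    exact_mod_cast h1
  have hRT := Submodule.eq_of_le_of_finrank_eq hle heq
  have hβT : β ∈ R := by
    rw [hRT]
    exact fun i _ => hβ i
  obtain ⟨x, hxV, hx, hx'⟩ := (hR β).1 hβT
  exact ⟨x, hxV, hx, hx'⟩

/-- K2: a good function exists -/
theorem exists_good [Nonempty C.W] : ∃ (j : ℕ) (x : C.YY), C.IsGood j x := by
  classical
  obtain ⟨j₀, hj₀⟩ := C.onto_large
  obtain ⟨jY, hjY⟩ := cna_riemann C.DY C.cna_DY_deg_pos
  choose jK hjK using fun i => cna_riemann (C.D i) (C.deg_pos i)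
  obtain ⟨j, hj⟩ : ∃ j, j = 1 + j₀ + jY + ∑ i, jK i := ⟨_, rfl⟩
  have hj1 : 0 < j := by omega
  have hjj₀ : j₀ ≤ j := by omega
  have hjY' : jY ≤ j := by omega
  have hjK' : ∀ i, jK i ≤ j := fun i => by
    have := Finset.single_le_sum (f := jK) (fun _ _ => Nat.zero_le _) (Finset.mem_univ i)
    omega
  have hfinK : ∀ i, Module.Finite C.F (LSp (j • C.D i)) := fun i => finite_LSp _
  obtain ⟨hT, hTF⟩ := cna_pi_finrank (fun i => LSp (j • C.D i))
  have hRQ : ∀ Q : Place C.L C.YY, ∃ R : Submodule C.F (∀ i, C.K i),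
      (∀ β, β ∈ R ↔ ∃ x ∈ LSp (j • C.DY - Finsupp.single Q 1), (∀ i, C.w i x ≤ 1) ∧
        ∀ i, (C.r i).res x = β i) ∧
      Module.finrank C.F R = Module.finrank C.L (LSp (j • C.DY - Finsupp.single Q 1)) ∧
      Module.Finite C.F R := fun Q => by
    have := finite_LSp (j • C.DY - Finsupp.single Q 1)
    exact C.cna_red _
  choose R hR hRfin hRF using hRQ
  let V : ({Q // Q ∈ C.DY.support} ⊕ (Σ i, {Q // Q ∈ (C.D i).support})) → Submodule C.F (∀ i, C.K i) :=
    Sum.elim (fun Q => R Q.1)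
      (fun s => (LSp (j • C.D s.1 - Finsupp.single s.2.1 1)).comap (LinearMap.proj s.1))
  have hex : ∃ β ∈ Submodule.pi Set.univ (fun i => LSp (j • C.D i)), ∀ s, β ∉ V s := by
    by_contra hcon
    push Not at hcon
    have hcov : ⋃ s, (((V s).comap (Submodule.pi Set.univ (fun i => LSp (j • C.D i))).subtype :
        Submodule C.F (Submodule.pi Set.univ (fun i => LSp (j • C.D i)))) :
        Set (Submodule.pi Set.univ (fun i => LSp (j • C.D i)))) = Set.univ := by
      ext β
      simp only [Set.mem_iUnion, Set.mem_univ, iff_true]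
      exact hcon β.1 β.2
    obtain ⟨s, hs⟩ := Subspace.exists_eq_top_of_iUnion_eq_univ hcov
    have hTV : Submodule.pi Set.univ (fun i => LSp (j • C.D i)) ≤ V s := by
      intro β hβ
      have h1 : (⟨β, hβ⟩ : Submodule.pi Set.univ (fun i => LSp (j • C.D i))) ∈
          (V s).comap (Submodule.pi Set.univ (fun i => LSp (j • C.D i))).subtype := by
        rw [hs]
        trivial
      exact h1
    rcases s with Q | ⟨i, Q⟩
    · have hfin := hRF Q.1
      have h1 : Module.finrank C.F (Submodule.pi Set.univ (fun i => LSp (j • C.D i))) ≤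
          Module.finrank C.F (R Q.1) := Submodule.finrank_mono hTV
      rw [hT, hRfin] at h1
      have h2 : ((∑ i, ell (j • C.D i) : ℕ) : ℤ) ≤ ((ell (j • C.DY - Finsupp.single Q.1 1) : ℕ) : ℤ) := by
        exact_mod_cast h1
      rw [(hjY j hjY').2 Q.1 Q.2, Nat.cast_sum, Finset.sum_congr rfl fun i _ => (hjK i j (hjK' i)).1,
        Finset.sum_add_distrib, ← Finset.mul_sum, ← C.deg_eq, ← C.chi_eq] at h2
      have h3 : (0 : ℤ) < Q.1.deg := by exact_mod_cast Q.1.deg_pos
      linarith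
    · have h1 : LSp (j • C.D i) ≤ LSp (j • C.D i - Finsupp.single Q.1 1) := by
        intro γ hγ
        have h2 : (Pi.single i γ : ∀ i, C.K i) ∈ Submodule.pi Set.univ (fun i => LSp (j • C.D i)) := by
          intro i' _
          by_cases hi : i' = i
          · subst hi
            simpa using hγ
          · rw [Pi.single_eq_of_ne hi]
            exact Submodule.zero_mem _
        have h3 : (Pi.single i γ : ∀ i, C.K i) i ∈ LSp (j • C.D i - Finsupp.single Q.1 1) := hTV h2
        simpa using h3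
      have hfin := finite_LSp (j • C.D i - Finsupp.single Q.1 1)
      have h2 : ell (j • C.D i) ≤ ell (j • C.D i - Finsupp.single Q.1 1) := Submodule.finrank_mono h1
      have h3 : ((ell (j • C.D i) : ℕ) : ℤ) ≤ ((ell (j • C.D i - Finsupp.single Q.1 1) : ℕ) : ℤ) := by
        exact_mod_cast h2
      rw [(hjK i j (hjK' i)).1, (hjK i j (hjK' i)).2 Q.1 Q.2] at h3
      have h4 : (0 : ℤ) < Q.1.deg := by exact_mod_cast Q.1.deg_pos
      linarith
  obtain ⟨β, hβT, hβV⟩ := hex
  have hβ : ∀ i, β i ∈ LSp (j • C.D i) := fun i => hβT i (Set.mem_univ i)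
  obtain ⟨x, hxV, hx, hxβ⟩ := hj₀ j hjj₀ β hβ
  have hβQ : ∀ (i : C.W) (Q : Place C.F (C.K i)), Q ∈ (C.D i).support →
      β i ∉ LSp (j • C.D i - Finsupp.single Q 1) := fun i Q hQ => hβV (Sum.inr ⟨i, ⟨Q, hQ⟩⟩)
  refine ⟨j, x, hj1, fun i => ?_, fun Q hQ => ?_, fun Q hQ => ?_, fun i Q hQ => ?_, fun i Q hQ => ?_,
    fun l hl γ hγ => ?_⟩
  · refine le_antisymm (hx i) (not_lt.1 fun hlt => ?_)
    have h0 : β i = 0 := by
      rw [← hxβ i]
      exact (rdc_res_eq_zero_iff (C.r i) (hx i)).2 hlt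
    have hne : (C.D i).support.Nonempty := by
      rw [Finsupp.support_nonempty_iff]
      intro h
      have := C.deg_pos i
      rw [h] at this
      simp [Dvsr.deg] at this
    obtain ⟨Q, hQ⟩ := hne
    apply hβQ i Q hQ
    rw [h0]
    exact Submodule.zero_mem _
  · have hQs : Q ∈ C.DY.support := Finsupp.mem_support_iff.2 hQ.ne'
    have h1 : x ∉ LSp (j • C.DY - Finsupp.single Q 1) := fun hmem =>
      hβV (Sum.inl ⟨Q, hQs⟩) ((hR Q β).2 ⟨x, hmem, hx, hxβ⟩)
    rw [cna_v_eq hxV h1, cna_nsmul_apply]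
  · have h1 := hxV Q
    rwa [cna_nsmul_apply, hQ, mul_zero, exp_zero] at h1
  · have hQs : Q ∈ (C.D i).support := Finsupp.mem_support_iff.2 hQ.ne'
    rw [hxβ i, cna_v_eq (hβ i) (hβQ i Q hQs), cna_nsmul_apply]
  · have h1 := hβ i Q
    rw [hxβ i]
    rwa [cna_nsmul_apply, hQ, mul_zero, exp_zero] at h1
  · exact hj₀ (l * j) (le_trans hjj₀ (Nat.le_mul_of_pos_left j hl)) γ hγ

end ConnData

end Claimed.Agent.R280
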