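import Claimed.Agent.R280.Spec.ConnA
import Claimed.Agent.R280.Spec.Reduce

/-!
# Row 280, Spec package S6 `ConnB`: the pencil trick and the bounded obstruction (second level)

Notation: `x` good of level `j`, `V_l = L(l j DY)`, `A_l` its unit ball, `B_l = ⊕ L(l j D i)`, `β i = res_i x`.

S6a (~900 lines): `LSp_pencil`, `nrm_mul_good`, `good_mem`, `pencil_mod`;  `pencil` is PROVED from them and `ball_le_of_dense` (S0).
* `LSp_pencil` (pure function fields): `L(lE) ∩ β L(lE) = β L((l-1)E)` (orders at the poles of `β`; at the other places `g = f/β ∈ L(lE)` is regular by assumption), so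
  `dim (L(lE) + β L(lE)) = 2 ell(lE) - ell((l-1)E) = ell((l+1)E)` once Riemann (`hasChi_chi`) is exact from `(l-1) deg E` on; `L(lE) + β L(lE) ⊆ L((l+1)E)`; equal dimensions.
* `pencil_mod`: `l₀ := max_i` of the bounds of `LSp_pencil` for `E = j • D i`, `β = res_i x` (`IsGood.pole'`, `reg'`), and `≥ 1`.  `res_i a ∈ L((l+1) j D i)` (`C.red`), `= f₁ + β f₂`; lift `(f₁)_i`, `(f₂)_i` by `IsGood.onto`;
  `res_i (a - a₁ - x a₂) = 0` for all `i`.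
S6b (~1000 lines): `pencil_iter`, `split3`, `pole_orders`, `exists_c0`, `const_of_both`, `bounded`.
* `pencil_iter`: induction on `n` with `pencil`.
* `split3`: `x^l y ∈ A_{2l}`; if `2l ≥ l₀`: `pencil_iter` gives `y = ∑_k x^{k-l} c_k`; sort the exponents `k - l ≥ 0`, `≤ -l₀`, in between.  If `2l < l₀`: `A_{2l} ⊆ A_{l₀}`.
* `pole_orders`: compare orders at the places with `DY Q > 0` (there `f₂` is regular) and at the zeros of `x` (there `f₁` is regular).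
* `exists_c0`: `U₀ = V_{l₀} + x^{-l₀} V_{l₀}` is finite dimensional; orthonormal basis `u_i = p_i + q_i`; `v(c₀) · max (nrm p_i, nrm q_i) ≤ 1`.
* `const_of_both`: no poles: `isAlgebraic_of_forall_le_one`, `C.algClosed`.
* `bounded`: as in the header of the first version: `γ = 0`: `a = a'`, `const_of_both`.  `γ = v(c₁)`, `γ₀ = v(c₀)`: `y = (a - a')/(c₁ c₀)`, `split3`, `λ = (a/(c₁c₀) - b) - (a'/(c₁c₀) + b')`, `pole_orders`, `exists_c0`:
  `c₀ y = b₁ + b₁'`, `a - c₁ b₁ = a' + c₁ b₁'`, `const_of_both`.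
Owner of the statements: helper66.
-/

set_option autoImplicit false

namespace Claimed.Agent.R280

open WithZero

/-! ### pure function field lemmas -/
section FF

variable {F K : Type} [Field F] [Field K] [Algebra F K]

theorem mul_mem_LSp {D D' : Dvsr F K} {f g : K} (hf : f ∈ LSp D) (hg : g ∈ LSp D') : f * g ∈ LSp (D + D') := by
  intro Q
  rw [map_mul, Finsupp.add_apply, exp_add]
  exact mul_le_mul' (hf Q) (hg Q)

theorem connB_deg_nsmul (n : ℕ) (D : Dvsr F K) : (n • D).deg = n * D.deg := by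
  rw [← Dvsr.deg_smul, natCast_zsmul]

theorem connB_finrank_map (β : K) (hβ : β ≠ 0) (U : Submodule F K) :
    Module.finrank F (U.map (LinearMap.mulLeft F β)) = Module.finrank F U :=
  (LinearEquiv.finrank_eq (Submodule.equivMapOfInjective (LinearMap.mulLeft F β)
    (fun _ _ h => mul_left_cancel₀ hβ h) U)).symm

/-- **base point free pencil trick** -/
theorem LSp_pencil [IsFF F K] (E : Dvsr F K) (hE : ∀ Q, 0 ≤ E Q) (hdeg : 0 < E.deg) (β : K)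
    (hpole : ∀ Q : Place F K, 0 < E Q → Q.v β = exp (E Q)) (hreg : ∀ Q : Place F K, E Q = 0 → Q.v β ≤ 1) :
    ∃ l₀ : ℕ, ∀ l : ℕ, l₀ ≤ l → ∀ f ∈ LSp ((l + 1) • E), ∃ f₁ ∈ LSp (l • E), ∃ f₂ ∈ LSp (l • E),
      f = f₁ + β * f₂ := by
  classical
  obtain ⟨c, hc⟩ := hasChi_chi (k := F) (M := K)
  refine ⟨c.toNat + 1, fun l hl f hf => ?_⟩
  obtain ⟨m, rfl⟩ : ∃ m, l = m + 1 := ⟨l - 1, by omega⟩
  have hβ : β ≠ 0 := by
    by_contra h0
    have hE0 : E = 0 := by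
      ext Q
      rcases (hE Q).lt_or_eq with h | h
      · have := hpole Q h
        rw [h0, map_zero] at this
        exact absurd this.symm exp_ne_zero
      · exact h.symm
    rw [hE0] at hdeg
    simp [Dvsr.deg] at hdeg
  have hβE : β ∈ LSp E := by
    intro Q
    rcases (hE Q).lt_or_eq with h | h
    · exact (hpole Q h).le
    · rw [← h]; simpa using hreg Q h.symm
  have hmono : LSp (m • E) ≤ LSp ((m + 1) • E) := by
    refine LSp_mono fun Q => ?_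
    simp only [Finsupp.smul_apply, nsmul_eq_mul]
    have := hE Q
    push_cast
    nlinarith
  have hinf : LSp ((m + 1) • E) ⊓ (LSp ((m + 1) • E)).map (LinearMap.mulLeft F β) =
      (LSp (m • E)).map (LinearMap.mulLeft F β) := by
    ext f
    constructor
    · rintro ⟨hfU, g, hgU, rfl⟩
      refine ⟨g, fun Q => ?_, rfl⟩
      rcases (hE Q).lt_or_eq with h | h
      · have h1 : Q.v (β * g) ≤ exp (((m + 1) • E) Q) := hfU Q
        rw [Q.v_mul_le_exp_iff hβ, (Q.ord_eq_iff hβ (-(E Q))).2 (by rw [neg_neg]; exact hpole Q h)] at h1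
        refine h1.trans (le_of_eq ?_)
        congr 1
        simp only [Finsupp.smul_apply, nsmul_eq_mul]
        push_cast
        ring
      · have h1 : Q.v g ≤ exp (((m + 1) • E) Q) := hgU Q
        refine h1.trans (le_of_eq ?_)
        simp only [Finsupp.smul_apply, nsmul_eq_mul, ← h, mul_zero]
    · rintro ⟨g, hg, rfl⟩
      refine ⟨?_, g, hmono hg, rfl⟩
      have h := mul_mem_LSp hβE hg
      have e : E + m • E = (m + 1) • E := by rw [add_smul, one_smul, add_comm]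
      rw [e] at h
      exact h
  have hle : LSp ((m + 1) • E) ⊔ (LSp ((m + 1) • E)).map (LinearMap.mulLeft F β) ≤ LSp ((m + 1 + 1) • E) := by
    refine sup_le ?_ ?_
    · refine LSp_mono fun Q => ?_
      simp only [Finsupp.smul_apply, nsmul_eq_mul]
      have := hE Q
      push_cast
      nlinarith
    · rintro _ ⟨g, hg, rfl⟩
      have h := mul_mem_LSp hβE hg
      have e : E + (m + 1) • E = (m + 1 + 1) • E := by rw [add_smul (m + 1) 1, one_smul, add_comm]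
      rw [e] at h
      exact h
  have : Module.Finite F (LSp ((m + 1) • E)) := finite_LSp _
  have : Module.Finite F (LSp ((m + 1 + 1) • E)) := finite_LSp _
  have : Module.Finite F ((LSp ((m + 1) • E)).map (LinearMap.mulLeft F β)) := inferInstance
  have hdim := Submodule.finrank_sup_add_finrank_inf_eq (LSp ((m + 1) • E))
    ((LSp ((m + 1) • E)).map (LinearMap.mulLeft F β))
  rw [hinf, connB_finrank_map β hβ, connB_finrank_map β hβ] at hdim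
  have hcm : c ≤ (m : ℤ) * E.deg := by
    have h1 : c ≤ (m : ℤ) := by omega
    nlinarith
  have e0 : (ell (m • E) : ℤ) = m * E.deg + chi F K := by
    rw [hc _ (by rw [connB_deg_nsmul]; exact hcm), connB_deg_nsmul]
  have e1 : (ell ((m + 1) • E) : ℤ) = (m + 1) * E.deg + chi F K := by
    rw [hc _ (by rw [connB_deg_nsmul]; push_cast; nlinarith), connB_deg_nsmul]
    push_cast; ring
  have e2 : (ell ((m + 1 + 1) • E) : ℤ) = (m + 2) * E.deg + chi F K := by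
    rw [hc _ (by rw [connB_deg_nsmul]; push_cast; nlinarith), connB_deg_nsmul]
    push_cast; ring
  have heq : LSp ((m + 1) • E) ⊔ (LSp ((m + 1) • E)).map (LinearMap.mulLeft F β) = LSp ((m + 1 + 1) • E) := by
    refine Submodule.eq_of_le_of_finrank_eq hle ?_
    have h0 : (Module.finrank F (LSp (m • E)) : ℤ) = m * E.deg + chi F K := e0
    have h1 : (Module.finrank F (LSp ((m + 1) • E)) : ℤ) = (m + 1) * E.deg + chi F K := e1
    have h2 : (Module.finrank F (LSp ((m + 1 + 1) • E)) : ℤ) = (m + 2) * E.deg + chi F K := e2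
    have h3 : ((Module.finrank F ↥(LSp ((m + 1) • E) ⊔ (LSp ((m + 1) • E)).map (LinearMap.mulLeft F β)) : ℕ) : ℤ) +
        (Module.finrank F (LSp (m • E)) : ℤ) = (Module.finrank F (LSp ((m + 1) • E)) : ℤ) +
        (Module.finrank F (LSp ((m + 1) • E)) : ℤ) := by exact_mod_cast hdim
    have : ((Module.finrank F ↥(LSp ((m + 1) • E) ⊔ (LSp ((m + 1) • E)).map (LinearMap.mulLeft F β)) : ℕ) : ℤ) =
        (Module.finrank F (LSp ((m + 1 + 1) • E)) : ℤ) := by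
      rw [h2]; rw [h0, h1] at h3; linarith
    exact_mod_cast this
  have hf' : f ∈ LSp ((m + 1) • E) ⊔ (LSp ((m + 1) • E)).map (LinearMap.mulLeft F β) := heq ▸ hf
  obtain ⟨f₁, h₁, g, hg, rfl⟩ := Submodule.mem_sup.1 hf'
  obtain ⟨f₂, h₂, rfl⟩ := hg
  exact ⟨f₁, h₁, f₂, h₂, rfl⟩

end FF

section Res

variable {K : Type} [Field K] {v : Valuation K ℚᵐ⁰} {k : Type} [Field k] (r : ResMap v k)

theorem connB_res_add {a b : K} (ha : v a ≤ 1) (hb : v b ≤ 1) : r.res (a + b) = r.res a + r.res b := by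
  have hab : v (a + b) ≤ 1 := (v.map_add a b).trans (max_le ha hb)
  rw [r.res_eq ha, r.res_eq hb, r.res_eq hab, ← map_add]
  rfl

theorem connB_res_mul {a b : K} (ha : v a ≤ 1) (hb : v b ≤ 1) : r.res (a * b) = r.res a * r.res b := by
  have hab : v (a * b) ≤ 1 := by
    rw [map_mul]
    exact mul_le_one' ha hb
  rw [r.res_eq ha, r.res_eq hb, r.res_eq hab, ← map_mul]
  rfl

end Res

namespace ConnData

variable (C : ConnData)

theorem connB_le_nrm (i : C.W) (a : C.YY) : C.w i a ≤ C.nrm a :=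
  Finset.le_sup (f := fun i => C.w i a) (Finset.mem_univ i)

theorem connB_nrm_le {a : C.YY} {γ : ℚᵐ⁰} : C.nrm a ≤ γ ↔ ∀ i, C.w i a ≤ γ := by
  simp [nrm, Finset.sup_le_iff]

theorem connB_nrm_lt {a : C.YY} {γ : ℚᵐ⁰} (hγ : 0 < γ) : C.nrm a < γ ↔ ∀ i, C.w i a < γ := by
  rw [nrm, Finset.sup_lt_iff (by simpa using hγ)]
  simp

theorem nrm_mul_good {j : ℕ} {x : C.YY} (hx : C.IsGood j x) (a : C.YY) : C.nrm (x * a) = C.nrm a := by
  simp only [nrm, map_mul, hx.unit, one_mul]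

theorem good_mem {j : ℕ} {x : C.YY} (hx : C.IsGood j x) : x ∈ LSp (j • C.DY) := by
  intro Q
  rcases (C.DY_nonneg Q).lt_or_eq with h | h
  · rw [hx.pole Q h]
    simp
  · have := hx.reg Q h.symm
    simpa [← h] using this

/-- K3 modulo the maximal ideal -/
theorem pencil_mod [Nonempty C.W] {j : ℕ} {x : C.YY} (hx : C.IsGood j x) : ∃ l₀ : ℕ, ∀ l : ℕ, l₀ ≤ l → ∀ a : C.YY,
    a ∈ LSp (((l + 1) * j) • C.DY) → C.nrm a ≤ 1 →
    ∃ a₁ a₂ : C.YY, a₁ ∈ LSp ((l * j) • C.DY) ∧ a₂ ∈ LSp ((l * j) • C.DY) ∧ C.nrm a₁ ≤ 1 ∧ C.nrm a₂ ≤ 1 ∧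
      C.nrm (a - (a₁ + x * a₂)) < 1 := by
  classical
  have hP : ∀ i : C.W, ∃ l₀ : ℕ, ∀ l : ℕ, l₀ ≤ l → ∀ f ∈ LSp ((l + 1) • (j • C.D i)),
      ∃ f₁ ∈ LSp (l • (j • C.D i)), ∃ f₂ ∈ LSp (l • (j • C.D i)), f = f₁ + (C.r i).res x * f₂ := by
    intro i
    refine LSp_pencil (j • C.D i) (fun Q => ?_) ?_ _ (fun Q hQ => ?_) (fun Q hQ => ?_)
    · simp only [Finsupp.smul_apply, nsmul_eq_mul]
      exact mul_nonneg (by positivity) (C.D_nonneg i Q)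
    · rw [connB_deg_nsmul]
      exact mul_pos (by exact_mod_cast hx.pos) (C.deg_pos i)
    · simp only [Finsupp.smul_apply, nsmul_eq_mul] at hQ ⊢
      refine hx.pole' i Q ?_
      by_contra h
      have h0 : C.D i Q = 0 := le_antisymm (not_lt.1 h) (C.D_nonneg i Q)
      rw [h0, mul_zero] at hQ
      exact lt_irrefl _ hQ
    · simp only [Finsupp.smul_apply, nsmul_eq_mul] at hQ
      refine hx.reg' i Q ?_
      rcases mul_eq_zero.1 hQ with h | h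
      · have := hx.pos
        exact absurd (by exact_mod_cast h) this.ne'
      · exact h
  choose l₀ hl₀ using hP
  refine ⟨Finset.univ.sup l₀ + 1, fun l hl a ha hN => ?_⟩
  have hw : ∀ i, C.w i a ≤ 1 := C.connB_nrm_le.1 hN
  have hred := C.red ((l + 1) * j) a ha hw
  have hdec : ∀ i, ∃ f₁ ∈ LSp (l • (j • C.D i)), ∃ f₂ ∈ LSp (l • (j • C.D i)),
      (C.r i).res a = f₁ + (C.r i).res x * f₂ := by
    intro i
    refine hl₀ i l ?_ _ ?_
    · have : l₀ i ≤ Finset.univ.sup l₀ := Finset.le_sup (Finset.mem_univ i)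
      omega
    · rw [smul_smul]
      exact hred i
  choose f₁ hf₁ f₂ hf₂ hf using hdec
  have hlpos : 0 < l := by omega
  obtain ⟨a₁, ha₁, hw₁, hr₁⟩ := hx.onto l hlpos f₁ (fun i => by rw [← smul_smul]; exact hf₁ i)
  obtain ⟨a₂, ha₂, hw₂, hr₂⟩ := hx.onto l hlpos f₂ (fun i => by rw [← smul_smul]; exact hf₂ i)
  refine ⟨a₁, a₂, ha₁, ha₂, C.connB_nrm_le.2 hw₁, C.connB_nrm_le.2 hw₂, ?_⟩
  rw [C.connB_nrm_lt zero_lt_one]
  intro i
  have hxa : C.w i (x * a₂) ≤ 1 := by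
    rw [map_mul, hx.unit, one_mul]; exact hw₂ i
  have hs : C.w i (a₁ + x * a₂) ≤ 1 := ((C.w i).map_add _ _).trans (max_le (hw₁ i) hxa)
  refine (C.r i).lt_one_of_res_eq (hw i) hs ?_
  rw [connB_res_add _ (hw₁ i) hxa, connB_res_mul _ (hx.unit i).le (hw₂ i), hr₁, hr₂, hf]

/-- `V_l + x V_l ⊆ V_{l+1}` -/
theorem mem_next {j : ℕ} {x : C.YY} (hx : C.IsGood j x) (l : ℕ) {a₁ a₂ : C.YY} (h₁ : a₁ ∈ LSp ((l * j) • C.DY))
    (h₂ : a₂ ∈ LSp ((l * j) • C.DY)) : a₁ + x * a₂ ∈ LSp (((l + 1) * j) • C.DY) := by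
  refine Submodule.add_mem _ (LSp_mono (fun Q => ?_) h₁) ?_
  · simp only [Finsupp.smul_apply, nsmul_eq_mul]
    have := C.DY_nonneg Q
    push_cast
    nlinarith [this, Nat.zero_le j]
  · have h := mul_mem_LSp (C.good_mem hx) h₂
    have e : j • C.DY + (l * j) • C.DY = ((l + 1) * j) • C.DY := by
      rw [← add_smul]; congr 1; ring
    rwa [e] at h

/-- K3: `A_{l+1} = A_l + x A_l` for large `l` -/
theorem pencil [Nonempty C.W] {j : ℕ} {x : C.YY} (hx : C.IsGood j x) : ∃ l₀ : ℕ, ∀ l : ℕ, l₀ ≤ l → ∀ a : C.YY,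
    a ∈ LSp (((l + 1) * j) • C.DY) → C.nrm a ≤ 1 →
    ∃ a₁ a₂ : C.YY, a₁ ∈ LSp ((l * j) • C.DY) ∧ a₂ ∈ LSp ((l * j) • C.DY) ∧ C.nrm a₁ ≤ 1 ∧ C.nrm a₂ ≤ 1 ∧
      a = a₁ + x * a₂ := by
  obtain ⟨l₀, h₀⟩ := C.pencil_mod hx
  refine ⟨l₀, fun l hl a ha hN => ?_⟩
  have hV := C.isVNorm_nrm
  have : Module.Finite C.L (LSp (((l + 1) * j) • C.DY)) := finite_LSp _
  let N : LSp (((l + 1) * j) • C.DY) → ℚᵐ⁰ := fun u => C.nrm u.1
  have hNn : IsVNorm C.vL N :=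
    { eq_zero := fun u => by
        show C.nrm u.1 = 0 ↔ u = 0
        rw [hV.eq_zero, Submodule.coe_eq_zero]
      add_le := fun u u' => hV.add_le u.1 u'.1
      smul := fun c u => hV.smul c u.1 }
  let S : Set (LSp (((l + 1) * j) • C.DY)) := {u | ∃ a₁ a₂ : C.YY, a₁ ∈ LSp ((l * j) • C.DY) ∧
    a₂ ∈ LSp ((l * j) • C.DY) ∧ C.nrm a₁ ≤ 1 ∧ C.nrm a₂ ≤ 1 ∧ u.1 = a₁ + x * a₂}
  have key := ball_le_of_dense C.vL_surj C.sph hNn S
    ⟨0, 0, Submodule.zero_mem _, Submodule.zero_mem _, by rw [(hV.eq_zero 0).2 rfl]; exact zero_le,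
      by rw [(hV.eq_zero 0).2 rfl]; exact zero_le, by simp⟩
    (by
      rintro u ⟨a₁, a₂, h1, h2, h3, h4, h5⟩ u' ⟨a₁', a₂', h1', h2', h3', h4', h5'⟩
      refine ⟨a₁ + a₁', a₂ + a₂', Submodule.add_mem _ h1 h1', Submodule.add_mem _ h2 h2',
        (hV.add_le _ _).trans (max_le h3 h3'), (hV.add_le _ _).trans (max_le h4 h4'), ?_⟩
      rw [Submodule.coe_add, h5, h5']; ring)
    (by
      rintro c hc u ⟨a₁, a₂, h1, h2, h3, h4, h5⟩
      refine ⟨c • a₁, c • a₂, Submodule.smul_mem _ _ h1, Submodule.smul_mem _ _ h2, ?_, ?_, ?_⟩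
      · rw [hV.smul]; exact mul_le_one' hc h3
      · rw [hV.smul]; exact mul_le_one' hc h4
      · rw [Submodule.coe_smul, h5, smul_add, mul_smul_comm])
    (by
      intro u hu
      obtain ⟨a₁, a₂, h1, h2, h3, h4, h5⟩ := h₀ l hl u.1 u.2 hu
      exact ⟨⟨a₁ + x * a₂, C.mem_next hx l h1 h2⟩, ⟨a₁, a₂, h1, h2, h3, h4, rfl⟩, h5⟩)
  exact key ⟨a, ha⟩ hN

/-! ### S6b -/

/-! auxiliary lemmas (prefix `cnb_`) -/

theorem cnb_V_mono (j : ℕ) {l l' : ℕ} (h : l ≤ l') : LSp ((l * j) • C.DY) ≤ LSp ((l' * j) • C.DY) := by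
  refine LSp_mono fun Q => ?_
  simp only [Finsupp.smul_apply, nsmul_eq_mul]
  have h2 : ((l * j : ℕ) : ℤ) ≤ ((l' * j : ℕ) : ℤ) := by exact_mod_cast Nat.mul_le_mul_right j h
  exact mul_le_mul_of_nonneg_right h2 (C.DY_nonneg Q)

theorem cnb_pow_mul_mem {j : ℕ} {x : C.YY} (hx : C.IsGood j x) (m : ℕ) {l : ℕ} {a : C.YY}
    (ha : a ∈ LSp ((l * j) • C.DY)) : x ^ m * a ∈ LSp (((m + l) * j) • C.DY) := by
  induction m with
  | zero => simpa using ha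
  | succ m ih =>
    have h := mul_mem_LSp (C.good_mem hx) ih
    have e : j • C.DY + ((m + l) * j) • C.DY = ((m + 1 + l) * j) • C.DY := by
      rw [← add_smul]; congr 1; ring
    rw [e] at h
    rw [pow_succ', mul_assoc]
    exact h

theorem cnb_nrm_pow_mul {j : ℕ} {x : C.YY} (hx : C.IsGood j x) (m : ℕ) (a : C.YY) :
    C.nrm (x ^ m * a) = C.nrm a := by
  induction m with
  | zero => simp
  | succ m ih => rw [pow_succ', mul_assoc, C.nrm_mul_good hx, ih]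

theorem cnb_ne_zero [Nonempty C.W] {j : ℕ} {x : C.YY} (hx : C.IsGood j x) : x ≠ 0 := by
  rintro rfl
  obtain ⟨i⟩ := ‹Nonempty C.W›
  have := hx.unit i
  rw [map_zero] at this
  exact zero_ne_one this

theorem cnb_nrm_inv_pow_mul [Nonempty C.W] {j : ℕ} {x : C.YY} (hx : C.IsGood j x) (m : ℕ) (a : C.YY) :
    C.nrm ((x ^ m)⁻¹ * a) = C.nrm a := by
  have h := C.cnb_nrm_pow_mul hx m ((x ^ m)⁻¹ * a)
  rw [← mul_assoc, mul_inv_cancel₀ (pow_ne_zero _ (C.cnb_ne_zero hx)), one_mul] at h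
  exact h.symm

theorem cnb_nrm_sum_le [Nonempty C.W] {ι : Type} (s : Finset ι) (f : ι → C.YY) (h : ∀ i ∈ s, C.nrm (f i) ≤ 1) :
    C.nrm (∑ i ∈ s, f i) ≤ 1 :=
  (rdc_N_sum_le C.isVNorm_nrm s f).trans (Finset.sup_le h)

/-- the value of `x ^ m` at a pole -/
theorem cnb_v_pow {j : ℕ} {x : C.YY} (hx : C.IsGood j x) (Q : Place C.L C.YY) (hQ : 0 < C.DY Q) (m : ℕ) :
    Q.v (x ^ m) = exp (((m * j) • C.DY) Q) := by
  rw [map_pow, hx.pole Q hQ, Finsupp.smul_apply, exp_nsmul, ← nsmul_eq_mul, exp_nsmul, ← pow_mul, mul_comm]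

theorem cnb_one_le_v {j : ℕ} {x : C.YY} (hx : C.IsGood j x) (Q : Place C.L C.YY) (hQ : 0 < C.DY Q) :
    1 ≤ Q.v x := by
  rw [hx.pole Q hQ, ← exp_zero, exp_le_exp]
  exact mul_nonneg (Int.natCast_nonneg j) hQ.le

/-- membership in `V_l` in terms of `x` -/
theorem cnb_mem_iff {j : ℕ} {x : C.YY} (hx : C.IsGood j x) (l : ℕ) (f : C.YY) :
    f ∈ LSp ((l * j) • C.DY) ↔ (∀ Q : Place C.L C.YY, C.DY Q = 0 → Q.v f ≤ 1) ∧
      ∀ Q : Place C.L C.YY, 0 < C.DY Q → Q.v f ≤ Q.v (x ^ l) := by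
  constructor
  · intro h
    refine ⟨fun Q hQ => ?_, fun Q hQ => ?_⟩
    · have := h Q
      rwa [Finsupp.smul_apply, hQ, smul_zero, exp_zero] at this
    · rw [C.cnb_v_pow hx Q hQ]
      exact h Q
  · rintro ⟨h1, h2⟩ Q
    rcases (C.DY_nonneg Q).eq_or_lt with hQ | hQ
    · rw [Finsupp.smul_apply, ← hQ, smul_zero, exp_zero]
      exact h1 Q hQ.symm
    · rw [← C.cnb_v_pow hx Q hQ]
      exact h2 Q hQ

/-- `x ^ m f ∈ V_m`: `f` is regular at the poles of `x` -/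
theorem cnb_reg_at_pole {j : ℕ} {x : C.YY} (hx : C.IsGood j x) {m : ℕ} {f : C.YY}
    (h : x ^ m * f ∈ LSp ((m * j) • C.DY)) (Q : Place C.L C.YY) (hQ : 0 < C.DY Q) : Q.v f ≤ 1 := by
  have h1 := ((C.cnb_mem_iff hx m _).1 h).2 Q hQ
  rw [map_mul] at h1
  have hpos : 0 < Q.v (x ^ m) := by
    rw [C.cnb_v_pow hx Q hQ]; exact exp_pos
  by_contra hcon
  rw [not_le] at hcon
  have : Q.v (x ^ m) * 1 < Q.v (x ^ m) * Q.v f := mul_lt_mul_of_pos_left hcon hpos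
  rw [mul_one] at this
  exact absurd h1 (not_le.2 this)

/-- `x ^ l a ∈ V_l` implies `x ^ m a ∈ V_m` for `m ≥ l` -/
theorem cnb_low_mono {j : ℕ} {x : C.YY} (hx : C.IsGood j x) {l m : ℕ} (hlm : l ≤ m) {a : C.YY}
    (h : x ^ l * a ∈ LSp ((l * j) • C.DY)) : x ^ m * a ∈ LSp ((m * j) • C.DY) := by
  have h1 := C.cnb_pow_mul_mem hx (m - l) h
  have e1 : m - l + l = m := by omega
  rw [e1, ← mul_assoc, ← pow_add, e1] at h1
  exact h1

/-- splitting a sum over `0 .. 2l + l₀` at `l` and `l + l₀` -/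
theorem cnb_sum_split {A : Type} [AddCommMonoid A] (f : ℕ → A) (l l₀ : ℕ) (hl₀ : 0 < l₀) :
    ∑ k ∈ Finset.range (2 * l + l₀ + 1), f k = (∑ m ∈ Finset.Ioo 0 l₀, f (l + l₀ - m))
      + (∑ k ∈ (Finset.range (2 * l + l₀ + 1)).filter (fun k => l + l₀ ≤ k), f k)
      + ∑ k ∈ (Finset.range (2 * l + l₀ + 1)).filter (fun k => k ≤ l), f k := by
  rw [← Finset.sum_filter_add_sum_filter_not (Finset.range (2 * l + l₀ + 1)) (fun k => l + l₀ ≤ k),
    ← Finset.sum_filter_add_sum_filter_not ((Finset.range (2 * l + l₀ + 1)).filter fun k => ¬ l + l₀ ≤ k)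
      (fun k => k ≤ l), Finset.filter_filter, Finset.filter_filter]
  have e1 : (Finset.range (2 * l + l₀ + 1)).filter (fun k => ¬ l + l₀ ≤ k ∧ k ≤ l) =
      (Finset.range (2 * l + l₀ + 1)).filter (fun k => k ≤ l) := by
    refine Finset.filter_congr fun k _ => ?_
    constructor
    · exact fun h => h.2
    · exact fun h => ⟨by omega, h⟩
  have e2 : ∑ k ∈ (Finset.range (2 * l + l₀ + 1)).filter (fun k => ¬ l + l₀ ≤ k ∧ ¬ k ≤ l), f k =
      ∑ m ∈ Finset.Ioo 0 l₀, f (l + l₀ - m) := by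
    refine Finset.sum_nbij' (fun k => l + l₀ - k) (fun m => l + l₀ - m) ?_ ?_ ?_ ?_ ?_
    · intro k hk
      simp only [Finset.mem_filter, Finset.mem_range, Finset.mem_Ioo] at hk ⊢
      omega
    · intro m hm
      simp only [Finset.mem_filter, Finset.mem_range, Finset.mem_Ioo] at hm ⊢
      omega
    · intro k hk
      simp only [Finset.mem_filter, Finset.mem_range] at hk
      omega
    · intro m hm
      simp only [Finset.mem_Ioo] at hm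
      omega
    · intro k hk
      simp only [Finset.mem_filter, Finset.mem_range] at hk
      congr 1
      omega
  rw [e1, e2]
  abel

/-- iteration of `pencil` -/
theorem pencil_iter [Nonempty C.W] {j : ℕ} {x : C.YY} (hx : C.IsGood j x) {l₀ : ℕ}
    (h₀ : ∀ l : ℕ, l₀ ≤ l → ∀ a : C.YY, a ∈ LSp (((l + 1) * j) • C.DY) → C.nrm a ≤ 1 →
      ∃ a₁ a₂ : C.YY, a₁ ∈ LSp ((l * j) • C.DY) ∧ a₂ ∈ LSp ((l * j) • C.DY) ∧ C.nrm a₁ ≤ 1 ∧ C.nrm a₂ ≤ 1 ∧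
        a = a₁ + x * a₂) (n : ℕ) (a : C.YY) (ha : a ∈ LSp (((l₀ + n) * j) • C.DY)) (hN : C.nrm a ≤ 1) :
    ∃ c : ℕ → C.YY, (∀ k, c k ∈ LSp ((l₀ * j) • C.DY) ∧ C.nrm (c k) ≤ 1) ∧
      a = ∑ k ∈ Finset.range (n + 1), x ^ k * c k := by
  have hV := C.isVNorm_nrm
  induction n generalizing a with
  | zero => exact ⟨fun _ => a, fun _ => ⟨by simpa using ha, hN⟩, by simp⟩
  | succ n ih =>
    obtain ⟨a₁, a₂, h1, h2, h3, h4, rfl⟩ := h₀ (l₀ + n) (Nat.le_add_right _ _) a ha hN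
    obtain ⟨c, hc, e1⟩ := ih a₁ h1 h3
    obtain ⟨c', hc', e2⟩ := ih a₂ h2 h4
    refine ⟨fun k => (if k ≤ n then c k else 0) + (if 1 ≤ k then c' (k - 1) else 0), fun k => ⟨?_, ?_⟩, ?_⟩
    · refine Submodule.add_mem _ ?_ ?_
      · split_ifs
        · exact (hc _).1
        · exact Submodule.zero_mem _
      · split_ifs
        · exact (hc' _).1
        · exact Submodule.zero_mem _
    · refine (hV.add_le _ _).trans (max_le ?_ ?_)
      · split_ifs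
        · exact (hc _).2
        · rw [rdc_N_zero hV]; exact zero_le
      · split_ifs
        · exact (hc' _).2
        · rw [rdc_N_zero hV]; exact zero_le
    · simp only [mul_add, Finset.sum_add_distrib]
      congr 1
      · rw [Finset.sum_range_succ, if_neg (by omega), mul_zero, add_zero, e1]
        exact Finset.sum_congr rfl fun k hk => by
          rw [if_pos (by have := Finset.mem_range.1 hk; omega)]
      · rw [Finset.sum_range_succ', if_neg (by omega), mul_zero, add_zero, e2, Finset.mul_sum]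
        refine Finset.sum_congr rfl fun k _ => ?_
        rw [if_pos (by omega), Nat.add_sub_cancel, pow_succ', mul_assoc]

/-- every integral function with poles on `(x)_∞ ∪ (x)_0` is `λ + b + b'` -/
theorem split3 [Nonempty C.W] {j : ℕ} {x : C.YY} (hx : C.IsGood j x) : ∃ l₀ : ℕ, 0 < l₀ ∧
    ∀ (l : ℕ) (y : C.YY), x ^ l * y ∈ LSp (((2 * l) * j) • C.DY) → C.nrm y ≤ 1 →
    ∃ (l' : ℕ) (b b' : C.YY) (c : ℕ → C.YY), b ∈ LSp ((l' * j) • C.DY) ∧ C.nrm b ≤ 1 ∧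
      x ^ l' * b' ∈ LSp ((l' * j) • C.DY) ∧ C.nrm b' ≤ 1 ∧ (∀ k, c k ∈ LSp ((l₀ * j) • C.DY) ∧ C.nrm (c k) ≤ 1) ∧
      y = (∑ k ∈ Finset.Ioo 0 l₀, (x ^ k)⁻¹ * c k) + b + b' := by
  have hx0 := C.cnb_ne_zero hx
  obtain ⟨l₁, h₁⟩ := C.pencil hx
  obtain ⟨l₀, hl₀⟩ : ∃ l₀ : ℕ, l₀ = l₁ + 1 := ⟨_, rfl⟩
  have hl₀pos : 0 < l₀ := by omega
  refine ⟨l₀, hl₀pos, fun l y hy hN => ?_⟩
  have ha : x ^ (l + l₀) * y ∈ LSp (((l₀ + (2 * l + l₀)) * j) • C.DY) := by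
    have h2 := C.cnb_pow_mul_mem hx l₀ hy
    have e : x ^ (l + l₀) * y = x ^ l₀ * (x ^ l * y) := by rw [pow_add]; ring
    rw [e]
    exact C.cnb_V_mono j (by omega) h2
  obtain ⟨c, hc, e⟩ := C.pencil_iter hx (fun l hl => h₁ l (by omega)) (2 * l + l₀) _ ha
    (by rw [C.cnb_nrm_pow_mul hx]; exact hN)
  have hL0 : x ^ (l + l₀) ≠ 0 := pow_ne_zero _ hx0
  have ey : y = ∑ k ∈ Finset.range (2 * l + l₀ + 1), (x ^ (l + l₀))⁻¹ * (x ^ k * c k) := by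
    rw [← Finset.mul_sum, ← e, ← mul_assoc, inv_mul_cancel₀ hL0, one_mul]
  have hterm : ∀ k, C.nrm ((x ^ (l + l₀))⁻¹ * (x ^ k * c k)) ≤ 1 := fun k => by
    rw [C.cnb_nrm_inv_pow_mul hx, C.cnb_nrm_pow_mul hx]; exact (hc k).2
  refine ⟨l + l₀,
    ∑ k ∈ (Finset.range (2 * l + l₀ + 1)).filter (fun k => l + l₀ ≤ k), (x ^ (l + l₀))⁻¹ * (x ^ k * c k),
    ∑ k ∈ (Finset.range (2 * l + l₀ + 1)).filter (fun k => k ≤ l), (x ^ (l + l₀))⁻¹ * (x ^ k * c k),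
    fun m => c (l + l₀ - m), ?_, C.cnb_nrm_sum_le _ _ fun k _ => hterm k, ?_,
    C.cnb_nrm_sum_le _ _ fun k _ => hterm k, fun k => hc _, ?_⟩
  · refine Submodule.sum_mem _ fun k hk => ?_
    obtain ⟨hk1, hk2⟩ := Finset.mem_filter.1 hk
    have hk1' := Finset.mem_range.1 hk1
    have e1 : (x ^ (l + l₀))⁻¹ * (x ^ k * c k) = x ^ (k - (l + l₀)) * c k := by
      have : x ^ k = x ^ (l + l₀) * x ^ (k - (l + l₀)) := by rw [← pow_add]; congr 1; omega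
      rw [this, ← mul_assoc, ← mul_assoc, inv_mul_cancel₀ hL0, one_mul]
    rw [e1]
    exact C.cnb_V_mono j (by omega) (C.cnb_pow_mul_mem hx (k - (l + l₀)) (hc k).1)
  · rw [Finset.mul_sum]
    refine Submodule.sum_mem _ fun k hk => ?_
    obtain ⟨-, hk2⟩ := Finset.mem_filter.1 hk
    rw [← mul_assoc, mul_inv_cancel₀ hL0, one_mul]
    exact C.cnb_V_mono j (by omega) (C.cnb_pow_mul_mem hx k (hc k).1)
  · rw [ey, cnb_sum_split _ l l₀ hl₀pos]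
    congr 2
    refine Finset.sum_congr rfl fun m hm => ?_
    obtain ⟨hm1, hm2⟩ := Finset.mem_Ioo.1 hm
    have : x ^ (l + l₀) = x ^ m * x ^ (l + l₀ - m) := by rw [← pow_add]; congr 1; omega
    rw [this, mul_inv, mul_assoc, ← mul_assoc (x ^ (l + l₀ - m))⁻¹,
      inv_mul_cancel₀ (pow_ne_zero _ hx0), one_mul]

theorem pole_orders {j : ℕ} {x : C.YY} (hx : C.IsGood j x) (l₀ l : ℕ) (c : ℕ → C.YY)
    (hc : ∀ k, c k ∈ LSp ((l₀ * j) • C.DY)) (f₁ f₂ : C.YY) (h₁ : f₁ ∈ LSp ((l * j) • C.DY))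
    (h₂ : x ^ l * f₂ ∈ LSp ((l * j) • C.DY)) (h : ∑ k ∈ Finset.Ioo 0 l₀, (x ^ k)⁻¹ * c k = f₁ + f₂) :
    f₁ ∈ LSp ((l₀ * j) • C.DY) ∧ x ^ l₀ * f₂ ∈ LSp ((l₀ * j) • C.DY) := by
  have hf2 : ∀ Q : Place C.L C.YY, 0 < C.DY Q → Q.v f₂ ≤ 1 := fun Q hQ => C.cnb_reg_at_pole hx h₂ Q hQ
  have hpow1 : ∀ (Q : Place C.L C.YY), 0 < C.DY Q → ∀ m : ℕ, 1 ≤ Q.v (x ^ m) := fun Q hQ m => by
    rw [map_pow]; exact one_le_pow₀ (C.cnb_one_le_v hx Q hQ)
  constructor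
  · rw [C.cnb_mem_iff hx]
    refine ⟨((C.cnb_mem_iff hx l f₁).1 h₁).1, fun Q hQ => ?_⟩
    have e : f₁ = (∑ k ∈ Finset.Ioo 0 l₀, (x ^ k)⁻¹ * c k) - f₂ := by rw [h]; ring
    rw [e]
    refine (Valuation.map_sub _ _ _).trans (max_le ?_ ((hf2 Q hQ).trans (hpow1 Q hQ l₀)))
    refine Valuation.map_sum_le _ fun k _ => ?_
    rw [map_mul, map_inv₀]
    have h3 := ((C.cnb_mem_iff hx l₀ (c k)).1 (hc k)).2 Q hQ
    have h4 : (Q.v (x ^ k))⁻¹ ≤ 1 := inv_le_one_of_one_le₀ (hpow1 Q hQ k)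
    calc (Q.v (x ^ k))⁻¹ * Q.v (c k) ≤ 1 * Q.v (x ^ l₀) := mul_le_mul' h4 h3
      _ = Q.v (x ^ l₀) := one_mul _
  · rw [C.cnb_mem_iff hx]
    refine ⟨fun Q hQ => ?_, fun Q hQ => ?_⟩
    · have e : x ^ l₀ * f₂ = (∑ k ∈ Finset.Ioo 0 l₀, x ^ l₀ * ((x ^ k)⁻¹ * c k)) - x ^ l₀ * f₁ := by
        rw [← Finset.mul_sum, h]; ring
      have hxQ : Q.v x ≤ 1 := hx.reg Q hQ
      have hpowQ : ∀ m : ℕ, Q.v (x ^ m) ≤ 1 := fun m => by rw [map_pow]; exact pow_le_one₀ zero_le hxQ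
      rw [e]
      refine (Valuation.map_sub _ _ _).trans (max_le ?_ ?_)
      · refine Valuation.map_sum_le _ fun k hk => ?_
        obtain ⟨hk1, hk2⟩ := Finset.mem_Ioo.1 hk
        have hck : Q.v (c k) ≤ 1 := ((C.cnb_mem_iff hx l₀ (c k)).1 (hc k)).1 Q hQ
        by_cases hx0 : x = 0
        · rw [hx0, zero_pow (by omega : l₀ ≠ 0), zero_mul, map_zero]; exact zero_le
        · have e2 : x ^ l₀ * ((x ^ k)⁻¹ * c k) = x ^ (l₀ - k) * c k := by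
            have : x ^ l₀ = x ^ (l₀ - k) * x ^ k := by rw [← pow_add]; congr 1; omega
            rw [this, mul_assoc, ← mul_assoc (x ^ k), mul_inv_cancel₀ (pow_ne_zero _ hx0), one_mul]
          rw [e2, map_mul]
          exact mul_le_one' (hpowQ _) hck
      · rw [map_mul]
        exact mul_le_one' (hpowQ _) (((C.cnb_mem_iff hx l f₁).1 h₁).1 Q hQ)
    · rw [map_mul]
      calc Q.v (x ^ l₀) * Q.v f₂ ≤ Q.v (x ^ l₀) * 1 := mul_le_mul' le_rfl (hf2 Q hQ)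
        _ = Q.v (x ^ l₀) := mul_one _

theorem exists_c0 [Nonempty C.W] {j : ℕ} {x : C.YY} (hx : C.IsGood j x) (l₀ : ℕ) : ∃ c₀ : C.L, c₀ ≠ 0 ∧ C.vL c₀ ≤ 1 ∧
    ∀ f₁ f₂ : C.YY, f₁ ∈ LSp ((l₀ * j) • C.DY) → x ^ l₀ * f₂ ∈ LSp ((l₀ * j) • C.DY) → C.nrm (f₁ + f₂) ≤ 1 →
    ∃ b₁ b₂ : C.YY, b₁ ∈ LSp ((l₀ * j) • C.DY) ∧ C.nrm b₁ ≤ 1 ∧ x ^ l₀ * b₂ ∈ LSp ((l₀ * j) • C.DY) ∧ C.nrm b₂ ≤ 1 ∧
      c₀ • (f₁ + f₂) = b₁ + b₂ := by
  classical
  have hV := C.isVNorm_nrm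
  have hx0 : x ^ l₀ ≠ 0 := pow_ne_zero _ (C.cnb_ne_zero hx)
  obtain ⟨U₁, hU₁⟩ : ∃ U₁ : Submodule C.L C.YY, U₁ = LSp ((l₀ * j) • C.DY) := ⟨_, rfl⟩
  obtain ⟨U₂, hU₂def⟩ : ∃ U₂ : Submodule C.L C.YY, U₂ = U₁.map (LinearMap.mulLeft C.L ((x ^ l₀)⁻¹)) := ⟨_, rfl⟩
  have hU₂ : ∀ f : C.YY, f ∈ U₂ ↔ x ^ l₀ * f ∈ U₁ := by
    intro f
    rw [hU₂def, Submodule.mem_map]
    constructor
    · rintro ⟨g, hg, rfl⟩
      rw [LinearMap.mulLeft_apply, ← mul_assoc, mul_inv_cancel₀ hx0, one_mul]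
      exact hg
    · intro hf
      exact ⟨x ^ l₀ * f, hf, by rw [LinearMap.mulLeft_apply, ← mul_assoc, inv_mul_cancel₀ hx0, one_mul]⟩
  have : Module.Finite C.L U₁ := by rw [hU₁]; exact finite_LSp _
  have : Module.Finite C.L U₂ := by rw [hU₂def]; exact Module.Finite.map U₁ _
  have : Module.Finite C.L (U₁ ⊔ U₂ : Submodule C.L C.YY) := Submodule.finite_sup U₁ U₂
  have hN : IsVNorm C.vL (fun u : (U₁ ⊔ U₂ : Submodule C.L C.YY) => C.nrm u.1) :=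
    { eq_zero := fun u => by
        show C.nrm u.1 = 0 ↔ u = 0
        rw [hV.eq_zero, Submodule.coe_eq_zero]
      add_le := fun u u' => hV.add_le u.1 u'.1
      smul := fun c u => hV.smul c u.1 }
  obtain ⟨e, he⟩ := exists_orthonormal_basis C.vL C.vL_surj C.sph _ hN
  have hdec : ∀ i, ∃ p ∈ U₁, ∃ q ∈ U₂, p + q = ((e i : (U₁ ⊔ U₂ : Submodule C.L C.YY)) : C.YY) :=
    fun i => Submodule.mem_sup.1 (e i).2
  choose p hp q hq hpq using hdec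
  obtain ⟨γ, hγ⟩ : ∃ γ : ℚᵐ⁰, γ = max 1 (max (Finset.univ.sup fun i => C.nrm (p i))
      (Finset.univ.sup fun i => C.nrm (q i))) := ⟨_, rfl⟩
  have hγ1 : 1 ≤ γ := by rw [hγ]; exact le_max_left _ _
  have hγ0 : γ ≠ 0 := (zero_lt_one.trans_le hγ1).ne'
  have hγp : ∀ i, C.nrm (p i) ≤ γ := fun i => by
    rw [hγ]
    exact (Finset.le_sup (f := fun i => C.nrm (p i)) (Finset.mem_univ i)).trans
      ((le_max_left _ _).trans (le_max_right _ _))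
  have hγq : ∀ i, C.nrm (q i) ≤ γ := fun i => by
    rw [hγ]
    exact (Finset.le_sup (f := fun i => C.nrm (q i)) (Finset.mem_univ i)).trans
      ((le_max_right _ _).trans (le_max_right _ _))
  obtain ⟨c₀, hc₀⟩ := C.vL_surj γ⁻¹
  have hc₀1 : C.vL c₀ ≤ 1 := by rw [hc₀]; exact inv_le_one_of_one_le₀ hγ1
  have hsm : ∀ (a : C.L) (z : C.YY), C.vL a ≤ 1 → C.nrm z ≤ γ → C.nrm ((c₀ * a) • z) ≤ 1 := by
    intro a z ha hz
    rw [hV.smul, map_mul, hc₀]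
    calc γ⁻¹ * C.vL a * C.nrm z ≤ γ⁻¹ * 1 * γ := mul_le_mul' (mul_le_mul' le_rfl ha) hz
      _ = 1 := by rw [mul_one, inv_mul_cancel₀ hγ0]
  refine ⟨c₀, ?_, hc₀1, fun f₁ f₂ h1 h2 hn => ?_⟩
  · rintro rfl
    rw [map_zero] at hc₀
    exact inv_ne_zero hγ0 hc₀.symm
  · rw [← hU₁] at h1 h2 ⊢
    have hmem : f₁ + f₂ ∈ U₁ ⊔ U₂ := Submodule.add_mem_sup h1 ((hU₂ f₂).2 h2)
    have hsum := e.sum_repr ⟨f₁ + f₂, hmem⟩
    have hnorm := he fun i => e.repr ⟨f₁ + f₂, hmem⟩ i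
    rw [hsum] at hnorm
    have ha : ∀ i, C.vL (e.repr ⟨f₁ + f₂, hmem⟩ i) ≤ 1 := fun i =>
      (Finset.le_sup (f := fun i => C.vL (e.repr ⟨f₁ + f₂, hmem⟩ i)) (Finset.mem_univ i)).trans
        (hnorm ▸ hn)
    have hsum' : f₁ + f₂ = ∑ i, e.repr ⟨f₁ + f₂, hmem⟩ i • (p i + q i) := by
      have := congrArg (Subtype.val) hsum
      rw [Submodule.coe_sum] at this
      exact this.symm.trans (Finset.sum_congr rfl fun i _ => by rw [Submodule.coe_smul, hpq])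
    refine ⟨∑ i, (c₀ * e.repr ⟨f₁ + f₂, hmem⟩ i) • p i, ∑ i, (c₀ * e.repr ⟨f₁ + f₂, hmem⟩ i) • q i,
      Submodule.sum_mem _ fun i _ => Submodule.smul_mem _ _ (hp i),
      C.cnb_nrm_sum_le _ _ fun i _ => hsm _ _ (ha i) (hγp i),
      (hU₂ _).1 (Submodule.sum_mem _ fun i _ => Submodule.smul_mem _ _ (hq i)),
      C.cnb_nrm_sum_le _ _ fun i _ => hsm _ _ (ha i) (hγq i), ?_⟩
    conv_lhs => rw [hsum']
    rw [Finset.smul_sum, ← Finset.sum_add_distrib]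
    exact Finset.sum_congr rfl fun i _ => by rw [smul_smul, smul_add]

theorem const_of_both {j : ℕ} {x : C.YY} (hx : C.IsGood j x) (l l' : ℕ) (f : C.YY) (h₁ : f ∈ LSp ((l * j) • C.DY))
    (h₂ : x ^ l' * f ∈ LSp ((l' * j) • C.DY)) : f ∈ Set.range (algebraMap C.L C.YY) := by
  refine C.algClosed f (isAlgebraic_of_forall_le_one fun Q => ?_)
  rcases (C.DY_nonneg Q).eq_or_lt with hQ | hQ
  · exact ((C.cnb_mem_iff hx l f).1 h₁).1 Q hQ.symm
  · exact C.cnb_reg_at_pole hx h₂ Q hQ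

/-- K4: the obstruction to gluing is bounded -/
theorem bounded [Nonempty C.W] {j : ℕ} {x : C.YY} (hx : C.IsGood j x) : ∃ γ₀ : ℚᵐ⁰, γ₀ ≠ 0 ∧
    ∀ (l : ℕ) (a a' : C.YY), a ∈ LSp ((l * j) • C.DY) → x ^ l * a' ∈ LSp ((l * j) • C.DY) →
      C.nrm a ≤ 1 → C.nrm a' ≤ 1 → ∀ γ : ℚᵐ⁰, C.nrm (a - a') ≤ γ * γ₀ →
      ∃ c : C.L, C.nrm (a - algebraMap C.L C.YY c) ≤ γ := by
  have hV := C.isVNorm_nrm
  obtain ⟨l₀, hl₀, hsplit⟩ := C.split3 hx
  obtain ⟨c₀, hc₀0, hc₀1, hc₀⟩ := C.exists_c0 hx l₀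
  have hγ₀ : C.vL c₀ ≠ 0 := (Valuation.ne_zero_iff _).2 hc₀0
  refine ⟨C.vL c₀, hγ₀, fun l a a' ha ha' _ _ γ hγ => ?_⟩
  by_cases hγ0 : γ = 0
  · rw [hγ0, zero_mul, le_zero_iff, hV.eq_zero, sub_eq_zero] at hγ
    rw [← hγ] at ha'
    obtain ⟨c, hc⟩ := C.const_of_both hx l l a ha ha'
    exact ⟨c, by rw [hc, sub_self, rdc_N_zero hV]; exact zero_le⟩
  obtain ⟨c₁, hc₁⟩ := C.vL_surj γ
  have hc₁0 : c₁ ≠ 0 := by
    rintro rfl
    rw [map_zero] at hc₁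
    exact hγ0 hc₁.symm
  obtain ⟨s, hs⟩ : ∃ s : C.L, s = (c₁ * c₀)⁻¹ := ⟨_, rfl⟩
  -- `y = s (a - a')`
  have hy1 : C.nrm (s • (a - a')) ≤ 1 := by
    rw [hV.smul, hs, map_inv₀, map_mul, hc₁]
    calc (γ * C.vL c₀)⁻¹ * C.nrm (a - a') ≤ (γ * C.vL c₀)⁻¹ * (γ * C.vL c₀) := mul_le_mul' le_rfl hγ
      _ = 1 := inv_mul_cancel₀ (mul_ne_zero hγ0 hγ₀)
  have hy2 : x ^ l * (s • (a - a')) ∈ LSp (((2 * l) * j) • C.DY) := by
    rw [mul_smul_comm, mul_sub]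
    refine Submodule.smul_mem _ _ (Submodule.sub_mem _ ?_ (C.cnb_V_mono j (by omega) ha'))
    have := C.cnb_pow_mul_mem hx l ha
    rwa [← two_mul] at this
  obtain ⟨l', b, b', c, hb, hbn, hb', hb'n, hc, ey⟩ := hsplit l _ hy2 hy1
  -- the middle part
  obtain ⟨m, hm⟩ : ∃ m : ℕ, m = max l l' := ⟨_, rfl⟩
  have hlm : l ≤ m := by rw [hm]; exact le_max_left _ _
  have hl'm : l' ≤ m := by rw [hm]; exact le_max_right _ _
  have hf₁ : s • a - b ∈ LSp ((m * j) • C.DY) :=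
    Submodule.sub_mem _ (Submodule.smul_mem _ _ (C.cnb_V_mono j hlm ha)) (C.cnb_V_mono j hl'm hb)
  have hf₂ : x ^ m * (-(s • a' + b')) ∈ LSp ((m * j) • C.DY) := by
    rw [mul_neg, mul_add, mul_smul_comm]
    exact Submodule.neg_mem _ (Submodule.add_mem _ (Submodule.smul_mem _ _ (C.cnb_low_mono hx hlm ha'))
      (C.cnb_low_mono hx hl'm hb'))
  have elam : ∑ k ∈ Finset.Ioo 0 l₀, (x ^ k)⁻¹ * c k = (s • a - b) + (-(s • a' + b')) := by
    have : ∑ k ∈ Finset.Ioo 0 l₀, (x ^ k)⁻¹ * c k = s • (a - a') - b - b' := by rw [ey]; ring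
    rw [this, smul_sub]; ring
  obtain ⟨hg₁, hg₂⟩ := C.pole_orders hx l₀ m c (fun k => (hc k).1) _ _ hf₁ hf₂ elam
  have hlamn : C.nrm ((s • a - b) + (-(s • a' + b'))) ≤ 1 := by
    rw [← elam]
    exact C.cnb_nrm_sum_le _ _ fun k _ => by rw [C.cnb_nrm_inv_pow_mul hx]; exact (hc k).2
  obtain ⟨b₁, b₂, hb₁, hb₁n, hb₂, hb₂n, eb⟩ := hc₀ _ _ hg₁ hg₂ hlamn
  -- `c₀ y = B₁ + B₂`
  obtain ⟨M, hM⟩ : ∃ M : ℕ, M = max l (max l₀ l') := ⟨_, rfl⟩
  have hlM : l ≤ M := by rw [hM]; exact le_max_left _ _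
  have hl₀M : l₀ ≤ M := by rw [hM]; exact (le_max_left _ _).trans (le_max_right _ _)
  have hl'M : l' ≤ M := by rw [hM]; exact (le_max_right _ _).trans (le_max_right _ _)
  have hsc : c₁ * (c₀ * s) = 1 := by
    rw [hs, ← mul_assoc, mul_inv_cancel₀ (mul_ne_zero hc₁0 hc₀0)]
  have ekey : a - a' = c₁ • (b₁ + c₀ • b) + c₁ • (b₂ + c₀ • b') := by
    have e1 : c₀ • (s • (a - a')) = (b₁ + c₀ • b) + (b₂ + c₀ • b') := by
      rw [ey, smul_add, smul_add, elam, eb]; abel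
    have e2 : c₁ • (c₀ • (s • (a - a'))) = a - a' := by
      rw [smul_smul, smul_smul, mul_assoc, hsc, one_smul]
    rw [← e2, e1, smul_add]
  have hB₁n : C.nrm (b₁ + c₀ • b) ≤ 1 := by
    refine (hV.add_le _ _).trans (max_le hb₁n ?_)
    rw [hV.smul]
    exact mul_le_one' hc₀1 hbn
  have hg : a - c₁ • (b₁ + c₀ • b) = a' + c₁ • (b₂ + c₀ • b') := by
    rw [sub_eq_iff_eq_add] at ekey ⊢
    rw [ekey]
    abel
  have hgm₁ : a - c₁ • (b₁ + c₀ • b) ∈ LSp ((M * j) • C.DY) :=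
    Submodule.sub_mem _ (C.cnb_V_mono j hlM ha) (Submodule.smul_mem _ _ (Submodule.add_mem _
      (C.cnb_V_mono j hl₀M hb₁) (Submodule.smul_mem _ _ (C.cnb_V_mono j hl'M hb))))
  have hgm₂ : x ^ M * (a - c₁ • (b₁ + c₀ • b)) ∈ LSp ((M * j) • C.DY) := by
    rw [hg, mul_add, mul_smul_comm, mul_add, mul_smul_comm]
    exact Submodule.add_mem _ (C.cnb_low_mono hx hlM ha') (Submodule.smul_mem _ _ (Submodule.add_mem _
      (C.cnb_low_mono hx hl₀M hb₂) (Submodule.smul_mem _ _ (C.cnb_low_mono hx hl'M hb'))))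
  obtain ⟨cc, hcc⟩ := C.const_of_both hx M M _ hgm₁ hgm₂
  refine ⟨cc, ?_⟩
  rw [hcc, sub_sub_cancel, hV.smul, hc₁]
  calc γ * C.nrm (b₁ + c₀ • b) ≤ γ * 1 := mul_le_mul' le_rfl hB₁n
    _ = γ := mul_one _

end ConnData

end Claimed.Agent.R280
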