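import Claimed.Agent.R280.Spec.ConnA
import Claimed.Agent.R280.Spec.ConnB

/-!
# Row 280, Spec package S7 `ConnC`: lifting the idempotent, conclusion

PLAN.  `lift_idem`: `ε = (1 at i₁, 0 elsewhere) ∈ B_1` (constants are sections).  `a₀ ∈ A_1` a lift of `ε`, `a₀' = x^{-1} a₁` with
`a₁ ∈ A_1` a lift of `β ε` (`IsGood.onto`).  `μ := max (nrm (a₀² - a₀)) (nrm (a₀'² - a₀')) (nrm (a₀ - a₀')) < 1`.
Newton: `N(e) = 3e² - 2e³`; `N(e)² - N(e) = (e² - e)² (4e² - 4e - 3)`, `N(e) - e = -(e² - e)(2e - 1)`: after `k` steps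
`nrm (e_k² - e_k) ≤ μ^(2^k)`, residues unchanged, `e_k ∈ A_{3^k}`, `x^{3^k} e_k' ∈ A_{3^k}`.
Gluing: `δ = e - e'`: `δ³ - δ = (e² - e)(e + 1 - 3e') - (e'² - e')(e' + 1 - 3e)` and `w i (δ³ - δ) = w i δ` because `w i δ < 1`.
`conn_main`: `γ := exp (-1)`; `lift_idem` with `γ γ₀`, `bounded` gives `c ∈ L` with `w i₁ (c - 1) < 1` and `w i₂ c < 1`: `vL 1 < 1`.
~700 lines.
-/

set_option autoImplicit false

namespace Claimed.Agent.R280

open WithZero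

section Newton

variable {K : Type*} [Field K] {Γ : Type*} [LinearOrderedCommGroupWithZero Γ] (v : Valuation K Γ)

/-- the Newton step for idempotents -/
def cnNewt (e : K) : K := 3 * e ^ 2 - 2 * e ^ 3

theorem cn_ofNat_le (n : ℕ) [n.AtLeastTwo] : v (OfNat.ofNat n : K) ≤ 1 :=
  (Valuation.mem_integer_iff v _).1 (ofNat_mem v.integer n)

theorem cn_newt_le {e : K} {T : Γ} (hT : 1 ≤ T) (he : v e ≤ T) : v (cnNewt e) ≤ T ^ 3 := by
  unfold cnNewt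
  refine (v.map_sub _ _).trans (max_le ?_ ?_)
  · rw [map_mul, map_pow]
    calc v 3 * v e ^ 2 ≤ 1 * T ^ 2 := mul_le_mul' (cn_ofNat_le v 3) (pow_le_pow_left' he 2)
      _ = T ^ 2 := one_mul _
      _ ≤ T ^ 3 := pow_le_pow_right' hT (by norm_num)
  · rw [map_mul, map_pow]
    calc v 2 * v e ^ 3 ≤ 1 * T ^ 3 := mul_le_mul' (cn_ofNat_le v 2) (pow_le_pow_left' he 3)
      _ = T ^ 3 := one_mul _

theorem cn_newt_le_one {e : K} (he : v e ≤ 1) : v (cnNewt e) ≤ 1 := by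
  have := cn_newt_le v le_rfl he
  rwa [one_pow] at this

theorem cn_newt_sq {e : K} {t : Γ} (he : v e ≤ 1) (h : v (e ^ 2 - e) ≤ t) :
    v (cnNewt e ^ 2 - cnNewt e) ≤ t ^ 2 := by
  have e1 : cnNewt e ^ 2 - cnNewt e = (e ^ 2 - e) ^ 2 * (4 * e ^ 2 - 4 * e - 3) := by
    unfold cnNewt
    ring
  have he' : e ∈ v.integer := (Valuation.mem_integer_iff v _).2 he
  have h2 : v (4 * e ^ 2 - 4 * e - 3) ≤ 1 :=
    (Valuation.mem_integer_iff v _).1 (sub_mem (sub_mem (mul_mem (ofNat_mem _ 4) (pow_mem he' 2))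
      (mul_mem (ofNat_mem _ 4) he')) (ofNat_mem _ 3))
  rw [e1, map_mul, map_pow]
  calc v (e ^ 2 - e) ^ 2 * v (4 * e ^ 2 - 4 * e - 3) ≤ t ^ 2 * 1 :=
        mul_le_mul' (pow_le_pow_left' h 2) h2
    _ = t ^ 2 := mul_one _

theorem cn_newt_sub {e : K} (he : v e ≤ 1) (h : v (e ^ 2 - e) < 1) : v (cnNewt e - e) < 1 := by
  have e1 : cnNewt e - e = (e ^ 2 - e) * (1 - 2 * e) := by
    unfold cnNewt
    ring
  have he' : e ∈ v.integer := (Valuation.mem_integer_iff v _).2 he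
  have h2 : v (1 - 2 * e) ≤ 1 :=
    (Valuation.mem_integer_iff v _).1 (sub_mem (one_mem _) (mul_mem (ofNat_mem _ 2) he'))
  rw [e1, map_mul]
  calc v (e ^ 2 - e) * v (1 - 2 * e) ≤ v (e ^ 2 - e) * 1 := mul_le_mul' le_rfl h2
    _ = v (e ^ 2 - e) := mul_one _
    _ < 1 := h

theorem cn_newt_iter {a : K} {μ : Γ} (hμ : μ < 1) (ha : v a ≤ 1) (h : v (a ^ 2 - a) ≤ μ) (k : ℕ) :
    v (cnNewt^[k] a) ≤ 1 ∧ v ((cnNewt^[k] a) ^ 2 - cnNewt^[k] a) ≤ μ ^ 2 ^ k ∧ v (cnNewt^[k] a - a) < 1 := by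
  induction k with
  | zero =>
    refine ⟨ha, by simpa using h, ?_⟩
    simp
  | succ k ih =>
    obtain ⟨h1, h2, h3⟩ := ih
    rw [Function.iterate_succ_apply']
    refine ⟨cn_newt_le_one v h1, ?_, ?_⟩
    · rw [pow_succ 2 k, pow_mul]
      exact cn_newt_sq v h1 h2
    · have h4 : v ((cnNewt^[k] a) ^ 2 - cnNewt^[k] a) < 1 :=
        lt_of_le_of_lt h2 (pow_lt_one₀ zero_le hμ (by positivity))
      have e1 : cnNewt (cnNewt^[k] a) - a = (cnNewt (cnNewt^[k] a) - cnNewt^[k] a) + (cnNewt^[k] a - a) := by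
        ring
      rw [e1]
      exact lt_of_le_of_lt (v.map_add _ _) (max_lt (cn_newt_sub v h1 h4) h3)

/-- gluing: two approximate idempotents which are congruent are close -/
theorem cn_glue {e e' : K} {t : Γ} (he : v e ≤ 1) (he' : v e' ≤ 1) (h : v (e ^ 2 - e) ≤ t)
    (h' : v (e' ^ 2 - e') ≤ t) (hd : v (e - e') < 1) : v (e - e') ≤ t := by
  have e1 : (e - e') ^ 3 - (e - e') = (e ^ 2 - e) * (e + 1 - 3 * e') - (e' ^ 2 - e') * (e' + 1 - 3 * e) := by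
    ring
  have hi : e ∈ v.integer := (Valuation.mem_integer_iff v _).2 he
  have hi' : e' ∈ v.integer := (Valuation.mem_integer_iff v _).2 he'
  have h2 : v (e + 1 - 3 * e') ≤ 1 :=
    (Valuation.mem_integer_iff v _).1 (sub_mem (add_mem hi (one_mem _)) (mul_mem (ofNat_mem _ 3) hi'))
  have h3 : v (e' + 1 - 3 * e) ≤ 1 :=
    (Valuation.mem_integer_iff v _).1 (sub_mem (add_mem hi' (one_mem _)) (mul_mem (ofNat_mem _ 3) hi))
  have h4 : v ((e - e') ^ 3 - (e - e')) ≤ t := by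
    rw [e1]
    refine (v.map_sub _ _).trans (max_le ?_ ?_)
    · rw [map_mul]
      calc v (e ^ 2 - e) * v (e + 1 - 3 * e') ≤ t * 1 := mul_le_mul' h h2
        _ = t := mul_one _
    · rw [map_mul]
      calc v (e' ^ 2 - e') * v (e' + 1 - 3 * e) ≤ t * 1 := mul_le_mul' h' h3
        _ = t := mul_one _
  by_cases h0 : e - e' = 0
  · rw [h0, map_zero]
    exact zero_le
  have hpos : 0 < v (e - e') := by
    rw [Valuation.pos_iff]
    exact h0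
  have h5 : v ((e - e') ^ 3) < v (e - e') := by
    rw [map_pow]
    calc v (e - e') ^ 3 = v (e - e') ^ 2 * v (e - e') := pow_succ _ _
      _ < 1 * v (e - e') := by
        refine mul_lt_mul_of_pos_right (pow_lt_one₀ zero_le hd (by norm_num)) hpos
      _ = v (e - e') := one_mul _
  have h6 : v ((e - e') ^ 3 - (e - e')) = v (e - e') := by
    rw [← Valuation.map_neg, neg_sub]
    exact Valuation.map_sub_eq_of_lt_left v h5
  rw [← h6]
  exact h4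

/-- one step for the second chart -/
theorem cn_newt_chart {X e : K} {T : Γ} (hX : v X ≤ T) (he : v (X * e) ≤ T) :
    v (X ^ 3 * cnNewt e) ≤ T ^ 3 := by
  have e1 : X ^ 3 * cnNewt e = 3 * (X * (X * e) ^ 2) - 2 * (X * e) ^ 3 := by
    unfold cnNewt
    ring
  rw [e1]
  refine (v.map_sub _ _).trans (max_le ?_ ?_)
  · rw [map_mul, map_mul, map_pow]
    calc v 3 * (v X * v (X * e) ^ 2) ≤ 1 * (T * T ^ 2) :=
          mul_le_mul' (cn_ofNat_le v 3) (mul_le_mul' hX (pow_le_pow_left' he 2))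
      _ = T ^ 3 := by rw [one_mul, ← pow_succ']
  · rw [map_mul, map_pow]
    calc v 2 * v (X * e) ^ 3 ≤ 1 * T ^ 3 := mul_le_mul' (cn_ofNat_le v 2) (pow_le_pow_left' he 3)
      _ = T ^ 3 := one_mul _

end Newton

/-- powers of an element `< 1` of `ℚᵐ⁰` become small -/
theorem cn_exists_pow_le {μ γ : ℚᵐ⁰} (hμ : μ < 1) (hγ : γ ≠ 0) : ∃ k : ℕ, μ ^ 2 ^ k ≤ γ := by
  by_cases h0 : μ = 0
  · exact ⟨0, by rw [h0]; simp⟩
  have hs : log μ < 0 := by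
    rw [log_lt_iff_lt_exp h0, exp_zero]
    exact hμ
  obtain ⟨n, hn⟩ := exists_nat_gt (log γ / log μ)
  refine ⟨n, ?_⟩
  rw [← log_le_log (pow_ne_zero _ h0) hγ, log_pow, nsmul_eq_mul]
  have h1 : (n : ℚ) < ((2 ^ n : ℕ) : ℚ) := by exact_mod_cast Nat.lt_two_pow_self
  have h2 : log γ / log μ < ((2 ^ n : ℕ) : ℚ) := hn.trans h1
  rw [div_lt_iff_of_neg hs] at h2
  exact h2.le

theorem cn_res_one {K : Type} [Field K] {v : Valuation K ℚᵐ⁰} {k : Type} [Field k] (r : ResMap v k) :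
    r.res 1 = 1 := by
  rw [r.res_eq (by rw [map_one] : v 1 ≤ 1)]
  exact map_one r.toHom

theorem cn_res_zero {K : Type} [Field K] {v : Valuation K ℚᵐ⁰} {k : Type} [Field k] (r : ResMap v k) :
    r.res 0 = 0 := by
  rw [r.res_eq (by rw [map_zero]; exact zero_le : v 0 ≤ 1)]
  exact map_zero r.toHom

namespace ConnData

variable (C : ConnData)

theorem cn_mem_iff (l j : ℕ) (a : C.YY) :
    a ∈ LSp ((l * j) • C.DY) ↔ ∀ P : Place C.L C.YY, P.v a ≤ (exp ((j : ℤ) * C.DY P)) ^ l := by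
  rw [mem_LSp]
  refine forall_congr' fun P => ?_
  have : exp (((l * j) • C.DY) P) = (exp ((j : ℤ) * C.DY P)) ^ l := by
    rw [← exp_nsmul, Finsupp.smul_apply]
    congr 1
    simp only [nsmul_eq_mul, Nat.cast_mul, mul_assoc]
  rw [this]

theorem cn_one_le (j : ℕ) (P : Place C.L C.YY) : (1 : ℤᵐ⁰) ≤ exp ((j : ℤ) * C.DY P) := by
  rw [← exp_zero, exp_le_exp]
  exact mul_nonneg (Int.natCast_nonneg j) (C.DY_nonneg P)

theorem cn_nrm_le {a : C.YY} {c : ℚᵐ⁰} : C.nrm a ≤ c ↔ ∀ i, C.w i a ≤ c := by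
  unfold nrm
  rw [Finset.sup_le_iff]
  exact ⟨fun h i => h i (Finset.mem_univ i), fun h i _ => h i⟩

theorem cn_nrm_lt {a : C.YY} (h : ∀ i, C.w i a < 1) : C.nrm a < 1 := by
  unfold nrm
  rw [Finset.sup_lt_iff (by exact zero_lt_one)]
  exact fun i _ => h i

theorem cn_mem_iter {j : ℕ} (a : C.YY) (h : a ∈ LSp ((1 * j) • C.DY)) (k : ℕ) :
    cnNewt^[k] a ∈ LSp ((3 ^ k * j) • C.DY) := by
  rw [cn_mem_iff] at h ⊢
  intro P
  induction k with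
  | zero => simpa using h P
  | succ k ih =>
    rw [Function.iterate_succ_apply', pow_succ 3 k, pow_mul]
    exact cn_newt_le P.v (one_le_pow_of_one_le' (C.cn_one_le j P) _) ih

theorem cn_mem_iter' {j : ℕ} (x b : C.YY) (hx : ∀ P : Place C.L C.YY, P.v x ≤ exp ((j : ℤ) * C.DY P))
    (h : x * b ∈ LSp ((1 * j) • C.DY)) (k : ℕ) :
    x ^ 3 ^ k * cnNewt^[k] b ∈ LSp ((3 ^ k * j) • C.DY) := by
  rw [cn_mem_iff] at h ⊢
  intro P
  induction k with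
  | zero => simpa using h P
  | succ k ih =>
    rw [Function.iterate_succ_apply', pow_succ 3 k, pow_mul, pow_mul]
    refine cn_newt_chart P.v ?_ ih
    rw [map_pow]
    exact pow_le_pow_left' (hx P) _

theorem cn_init {j : ℕ} {x : C.YY} (hx : C.IsGood j x) (i₁ : C.W) :
    ∃ a₀ a₁ : C.YY, a₀ ∈ LSp ((1 * j) • C.DY) ∧ a₁ ∈ LSp ((1 * j) • C.DY) ∧ (∀ i, C.w i a₀ ≤ 1) ∧
      (∀ i, C.w i a₁ ≤ 1) ∧ C.w i₁ (a₀ - 1) < 1 ∧ C.w i₁ (a₁ - x) < 1 ∧
      ∀ i, i ≠ i₁ → C.w i a₀ < 1 ∧ C.w i a₁ < 1 := by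
  classical
  have hnn : ∀ (i : C.W) (Q : Place C.F (C.K i)), (1 : ℤᵐ⁰) ≤ exp (((1 * j) • C.D i) Q) := by
    intro i Q
    rw [← exp_zero, exp_le_exp, Finsupp.smul_apply]
    exact nsmul_nonneg (C.D_nonneg i Q) _
  obtain ⟨a₀, hA0, hw0, hr0⟩ := hx.onto 1 one_pos (fun i => if i = i₁ then 1 else 0) (by
    intro i
    show (if i = i₁ then (1 : C.K i) else 0) ∈ _
    split_ifs
    · intro Q
      rw [map_one]
      exact hnn i Q
    · exact zero_mem _)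
  obtain ⟨a₁, hA1, hw1, hr1⟩ := hx.onto 1 one_pos (fun i => if i = i₁ then (C.r i).res x else 0) (by
    intro i
    show (if i = i₁ then (C.r i).res x else 0) ∈ _
    split_ifs
    · intro Q
      rcases (C.D_nonneg i Q).lt_or_eq with h | h
      · rw [hx.pole' i Q h, exp_le_exp, Finsupp.smul_apply]
        simp
      · exact (hx.reg' i Q h.symm).trans (hnn i Q)
    · exact zero_mem _)
  refine ⟨a₀, a₁, hA0, hA1, hw0, hw1, ?_, ?_, fun i hi => ⟨?_, ?_⟩⟩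
  · refine (C.r i₁).lt_one_of_res_eq (hw0 i₁) (by rw [map_one]) ?_
    rw [hr0 i₁, if_pos rfl, cn_res_one]
  · refine (C.r i₁).lt_one_of_res_eq (hw1 i₁) (hx.unit i₁).le ?_
    rw [hr1 i₁, if_pos rfl]
  · have := (C.r i).lt_one_of_res_eq (hw0 i) (by rw [map_zero]; exact zero_le : C.w i 0 ≤ 1) (by
      rw [hr0 i, if_neg hi, cn_res_zero])
    rwa [sub_zero] at this
  · have := (C.r i).lt_one_of_res_eq (hw1 i) (by rw [map_zero]; exact zero_le : C.w i 0 ≤ 1) (by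
      rw [hr1 i, if_neg hi, cn_res_zero])
    rwa [sub_zero] at this

theorem cn_idem_lt (i : C.W) (a : C.YY) (ha : C.w i a ≤ 1) (h : C.w i (a - 1) < 1 ∨ C.w i a < 1) :
    C.w i (a ^ 2 - a) < 1 := by
  have e1 : a ^ 2 - a = a * (a - 1) := by ring
  rw [e1, map_mul]
  rcases h with h | h
  · calc C.w i a * C.w i (a - 1) ≤ 1 * C.w i (a - 1) := mul_le_mul' ha le_rfl
      _ = C.w i (a - 1) := one_mul _
      _ < 1 := h
  · have h1 : C.w i (a - 1) ≤ 1 := by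
      refine ((C.w i).map_sub _ _).trans (max_le ha ?_)
      rw [map_one]
    calc C.w i a * C.w i (a - 1) ≤ C.w i a * 1 := mul_le_mul' le_rfl h1
      _ = C.w i a := mul_one _
      _ < 1 := h

/-- K5: approximate idempotents on the two charts -/
theorem lift_idem {j : ℕ} {x : C.YY} (hx : C.IsGood j x) {i₁ i₂ : C.W} (h : i₁ ≠ i₂) (γ : ℚᵐ⁰) (hγ : γ ≠ 0) :
    ∃ (l : ℕ) (a a' : C.YY), a ∈ LSp ((l * j) • C.DY) ∧ x ^ l * a' ∈ LSp ((l * j) • C.DY) ∧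
      C.nrm a ≤ 1 ∧ C.nrm a' ≤ 1 ∧ C.nrm (a - a') ≤ γ ∧ C.w i₁ (a - 1) < 1 ∧ C.w i₂ a < 1 := by
  obtain ⟨a₀, a₁, hA0, hA1, hw0, hw1, h10, h11, hne⟩ := C.cn_init hx i₁
  have hx0 : x ≠ 0 := by
    intro h0
    have := hx.unit i₁
    rw [h0, map_zero] at this
    exact zero_ne_one this
  obtain ⟨b₀, hb₀⟩ : ∃ b₀, b₀ = x⁻¹ * a₁ := ⟨_, rfl⟩
  have hxb : x * b₀ = a₁ := by
    rw [hb₀, mul_inv_cancel_left₀ hx0]
  have hwb : ∀ i, C.w i b₀ = C.w i a₁ := fun i => by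
    rw [hb₀, map_mul, map_inv₀, hx.unit i, inv_one, one_mul]
  have hb1 : C.w i₁ (b₀ - 1) < 1 := by
    have e1 : b₀ - 1 = x⁻¹ * (a₁ - x) := by
      rw [hb₀, mul_sub, inv_mul_cancel₀ hx0]
    rw [e1, map_mul, map_inv₀, hx.unit, inv_one, one_mul]
    exact h11
  have hwb1 : ∀ i, C.w i b₀ ≤ 1 := fun i => by rw [hwb]; exact hw1 i
  have hcase : ∀ i, (C.w i (a₀ - 1) < 1 ∧ C.w i (b₀ - 1) < 1) ∨ (C.w i a₀ < 1 ∧ C.w i b₀ < 1) := by
    intro i
    by_cases hi : i = i₁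
    · subst hi
      exact Or.inl ⟨h10, hb1⟩
    · exact Or.inr ⟨(hne i hi).1, by rw [hwb]; exact (hne i hi).2⟩
  have hd0 : ∀ i, C.w i (a₀ - b₀) < 1 := by
    intro i
    rcases hcase i with ⟨h1, h2⟩ | ⟨h1, h2⟩
    · have e1 : a₀ - b₀ = (a₀ - 1) - (b₀ - 1) := by ring
      rw [e1]
      exact lt_of_le_of_lt ((C.w i).map_sub _ _) (max_lt h1 h2)
    · exact lt_of_le_of_lt ((C.w i).map_sub _ _) (max_lt h1 h2)
  have hqa : ∀ i, C.w i (a₀ ^ 2 - a₀) < 1 := fun i =>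
    C.cn_idem_lt i a₀ (hw0 i) ((hcase i).imp And.left And.left)
  have hqb : ∀ i, C.w i (b₀ ^ 2 - b₀) < 1 := fun i =>
    C.cn_idem_lt i b₀ (hwb1 i) ((hcase i).imp And.right And.right)
  obtain ⟨μ, hμdef⟩ : ∃ μ, μ = max (C.nrm (a₀ ^ 2 - a₀)) (C.nrm (b₀ ^ 2 - b₀)) := ⟨_, rfl⟩
  have hμ : μ < 1 := by
    rw [hμdef]
    exact max_lt (C.cn_nrm_lt hqa) (C.cn_nrm_lt hqb)
  have hμa : ∀ i, C.w i (a₀ ^ 2 - a₀) ≤ μ := fun i => by
    rw [hμdef]
    exact (C.cn_nrm_le.1 le_rfl i).trans (le_max_left _ _)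
  have hμb : ∀ i, C.w i (b₀ ^ 2 - b₀) ≤ μ := fun i => by
    rw [hμdef]
    exact (C.cn_nrm_le.1 le_rfl i).trans (le_max_right _ _)
  obtain ⟨k, hk⟩ := cn_exists_pow_le hμ hγ
  have hIa := fun i => cn_newt_iter (C.w i) hμ (hw0 i) (hμa i) k
  have hIb := fun i => cn_newt_iter (C.w i) hμ (hwb1 i) (hμb i) k
  have hxP : ∀ P : Place C.L C.YY, P.v x ≤ exp ((j : ℤ) * C.DY P) := by
    intro P
    rcases (C.DY_nonneg P).lt_or_eq with h | h
    · rw [hx.pole P h]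
    · exact (hx.reg P h.symm).trans (C.cn_one_le j P)
  refine ⟨3 ^ k, cnNewt^[k] a₀, cnNewt^[k] b₀, C.cn_mem_iter a₀ hA0 k,
    C.cn_mem_iter' x b₀ hxP (by rw [hxb]; exact hA1) k, C.cn_nrm_le.2 fun i => (hIa i).1,
    C.cn_nrm_le.2 fun i => (hIb i).1, C.cn_nrm_le.2 fun i => ?_, ?_, ?_⟩
  · refine (cn_glue (C.w i) (hIa i).1 (hIb i).1 (hIa i).2.1 (hIb i).2.1 ?_).trans hk
    have e1 : cnNewt^[k] a₀ - cnNewt^[k] b₀
        = (cnNewt^[k] a₀ - a₀) + ((a₀ - b₀) - (cnNewt^[k] b₀ - b₀)) := by ring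
    rw [e1]
    refine lt_of_le_of_lt ((C.w i).map_add _ _) (max_lt (hIa i).2.2 ?_)
    exact lt_of_le_of_lt ((C.w i).map_sub _ _) (max_lt (hd0 i) (hIb i).2.2)
  · have e1 : cnNewt^[k] a₀ - 1 = (cnNewt^[k] a₀ - a₀) + (a₀ - 1) := by ring
    rw [e1]
    exact lt_of_le_of_lt ((C.w i₁).map_add _ _) (max_lt (hIa i₁).2.2 h10)
  · have e1 : cnNewt^[k] a₀ = (cnNewt^[k] a₀ - a₀) + a₀ := by ring
    rw [e1]
    exact lt_of_le_of_lt ((C.w i₂).map_add _ _) (max_lt (hIa i₂).2.2 (hne i₂ h.symm).1)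

theorem le_nrm (i : C.W) (a : C.YY) : C.w i a ≤ C.nrm a :=
  Finset.le_sup (f := fun i => C.w i a) (Finset.mem_univ i)

/-- **Connectedness.** -/
theorem conn_main : Subsingleton C.W := by
  refine ⟨fun i₁ i₂ => ?_⟩
  by_contra h
  have : Nonempty C.W := ⟨i₁⟩
  obtain ⟨j, x, hx⟩ := C.exists_good
  obtain ⟨γ₀, hγ₀, hb⟩ := C.bounded hx
  have hγ : (exp (-1 : ℚ) : ℚᵐ⁰) ≠ 0 := exp_ne_zero
  obtain ⟨l, a, a', ha, ha', hN, hN', hd, h1, h2⟩ := C.lift_idem hx h (exp (-1 : ℚ) * γ₀) (mul_ne_zero hγ hγ₀)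
  obtain ⟨c, hc⟩ := hb l a a' ha ha' hN hN' _ hd
  have hlt : (exp (-1 : ℚ) : ℚᵐ⁰) < 1 := by
    rw [← exp_zero, exp_lt_exp]
    norm_num
  have e1 : C.w i₁ (algebraMap C.L C.YY c - 1) < 1 := by
    have : algebraMap C.L C.YY c - 1 = -(a - algebraMap C.L C.YY c) + (a - 1) := by ring
    rw [this]
    refine lt_of_le_of_lt ((C.w i₁).map_add _ _) (max_lt ?_ h1)
    rw [Valuation.map_neg]
    exact lt_of_le_of_lt ((C.le_nrm i₁ _).trans hc) hlt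
  have e2 : C.w i₂ (algebraMap C.L C.YY c) < 1 := by
    have : algebraMap C.L C.YY c = -(a - algebraMap C.L C.YY c) + a := by ring
    rw [this]
    refine lt_of_le_of_lt ((C.w i₂).map_add _ _) (max_lt ?_ h2)
    rw [Valuation.map_neg]
    exact lt_of_le_of_lt ((C.le_nrm i₂ _).trans hc) hlt
  have f1 : C.vL (c - 1) < 1 := by
    rw [← C.w_ext i₁, map_sub, map_one]; exact e1
  have f2 : C.vL c < 1 := by
    rw [← C.w_ext i₂]; exact e2
  have : C.vL 1 < 1 := by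
    have h3 : (1 : C.L) = -(c - 1) + c := by ring
    rw [h3]
    refine lt_of_le_of_lt (C.vL.map_add _ _) (max_lt ?_ f2)
    rw [Valuation.map_neg]; exact f1
  rw [map_one] at this
  exact lt_irrefl _ this

end ConnData

end Claimed.Agent.R280
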