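import Claimed.Agent.R280.Spec.ValIface

/-!
# Row 280, Spec package `Conn` (connectedness, replaces [S] Prop. 7.5 + Lemma 7.6): definitions

`ConnData`: `L` spherically complete, value group `ℚ`, residue field `F` infinite; `YY/L` a function field in which `L`
is algebraically closed; finitely many distinct prolongations `w i` of `vL` to `YY` whose residue fields `K i` are
function fields over `F`; effective divisors `DY`, `D i` with `deg DY = ∑ deg (D i)`, `χ(YY) = ∑ χ(K i)`, and integral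
sections of `j DY` reduce to sections of `j D i`.   CONCLUSION (`conn_main`): there is at most one `w i`.

No schemes: the "model" is the pair of rings  `AA = {poles on DY, integral}`, `AA' = {poles on the zeros of x, integral}`.
Owner: helper66.
-/

set_option autoImplicit false

namespace Claimed.Agent.R280

open WithZero

structure ConnData where
  L : Type
  YY : Type
  F : Type
  [fL : Field L]
  [fYY : Field YY]
  [fF : Field F]
  [aLYY : Algebra L YY]
  [infF : Infinite F]
  [ffY : IsFF L YY]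
  vL : Valuation L ℚᵐ⁰
  vL_surj : Function.Surjective vL
  sph : IsSphComplete vL
  rL : ResMap vL F
  algClosed : ∀ y : YY, IsAlgebraic L y → y ∈ Set.range (algebraMap L YY)
  W : Type
  [ftW : Fintype W]
  w : W → Valuation YY ℚᵐ⁰
  w_inj : Function.Injective w
  w_ext : ∀ i, Prolongs vL (w i)
  K : W → Type
  [fK : ∀ i, Field (K i)]
  [aFK : ∀ i, Algebra F (K i)]
  [ffK : ∀ i, IsFF F (K i)]
  r : ∀ i, ResMap (w i) (K i)
  r_ext : ∀ i, algebraMap F (K i) = rL.map (r i) (w_ext i)
  DY : Dvsr L YY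
  D : ∀ i, Dvsr F (K i)
  DY_nonneg : ∀ Q, 0 ≤ DY Q
  D_nonneg : ∀ i Q, 0 ≤ D i Q
  deg_pos : ∀ i, 0 < (D i).deg
  deg_eq : DY.deg = ∑ i, (D i).deg
  chi_eq : chi L YY = ∑ i, chi F (K i)
  red : ∀ (j : ℕ) (a : YY), a ∈ LSp (j • DY) → (∀ i, w i a ≤ 1) → ∀ i, (r i).res a ∈ LSp (j • D i)

attribute [instance] ConnData.fL ConnData.fYY ConnData.fF ConnData.aLYY ConnData.infF ConnData.ffY
  ConnData.ftW ConnData.fK ConnData.aFK ConnData.ffK

namespace ConnData

variable (C : ConnData)

/-- the norm `max_i w i` -/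
noncomputable def nrm (a : C.YY) : ℚᵐ⁰ := Finset.univ.sup fun i => C.w i a

/-- `x` is a good function of level `j`: a unit for all `w i`, polar divisor exactly `j DY`, and the polar divisor of
its residue at `w i` is exactly `j D i`. -/
structure IsGood (j : ℕ) (x : C.YY) : Prop where
  pos : 0 < j
  unit : ∀ i, C.w i x = 1
  pole : ∀ Q : Place C.L C.YY, 0 < C.DY Q → Q.v x = exp (j * C.DY Q)
  reg : ∀ Q : Place C.L C.YY, C.DY Q = 0 → Q.v x ≤ 1
  pole' : ∀ (i : C.W) (Q : Place C.F (C.K i)), 0 < C.D i Q → Q.v ((C.r i).res x) = exp (j * C.D i Q)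
  reg' : ∀ (i : C.W) (Q : Place C.F (C.K i)), C.D i Q = 0 → Q.v ((C.r i).res x) ≤ 1
  /-- integral sections of `l j DY` reduce ONTO `⊕ L(l j D i)` for every `l ≥ 1` -/
  onto : ∀ l : ℕ, 0 < l → ∀ β : ∀ i, C.K i, (∀ i, β i ∈ LSp ((l * j) • C.D i)) →
    ∃ a ∈ LSp ((l * j) • C.DY), (∀ i, C.w i a ≤ 1) ∧ ∀ i, (C.r i).res a = β i

end ConnData

end Claimed.Agent.R280
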