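import Claimed.Agent.R280.Spec.ValIface

/-!
# Row 280, package Spec: the objects attached to a `SpecData`

`C.J` Galois group, `C.Prol` prolongations of the Gauss valuation to `YY` with the action of `C.J`,
`C.Kw w` residue field of `w` (an `EE`- and `F`-algebra), `C.rw w` its residue map, `C.Orb w₀` the orbit,
`C.nrm w₀` the norm `max_{w ∈ orbit} w`, divisors `C.DY`, `C.Dw w`, reduced fibres `C.TY A`, `C.Tw w A`,
decomposition and inertia groups `C.Dec w`, `C.Ine w`.

All definitions are real (no sorry).  Owner: helper66.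
-/

set_option autoImplicit false

namespace Claimed.Agent.R280

open WithZero

open Classical in
/-- the reduced inverse image of a place -/
noncomputable def redFib {k M : Type} [Field k] [Field M] [Algebra k M] (k' M' : Type) [Field k'] [Field M']
    [Algebra k' M'] [Algebra M M'] (P : Place k M) : Dvsr k' M' :=
  ∑ᶠ Q : Place k' M', if Q.Over P then Finsupp.single Q 1 else 0

namespace SpecData

variable {p : ℕ} (C : SpecData p)

/-- the Galois group of the cover -/
abbrev J : Type := C.YY ≃ₐ[C.XX] C.YY

/-- the degree of the cover -/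
noncomputable def m : ℕ := Module.finrank C.XX C.YY

/-- prolongations of the Gauss valuation to `YY` -/
def Prol : Type := {w : Valuation C.YY ℚᵐ⁰ // Prolongs C.vX w}

instance : MulAction C.J C.Prol where
  smul g w := ⟨w.1.comap (g.symm : C.YY ≃ₐ[C.XX] C.YY).toAlgHom.toRingHom, fun a => by
    show w.1 (g.symm (algebraMap C.XX C.YY a)) = C.vX a
    rw [AlgEquiv.commutes]
    exact w.2 a⟩
  one_smul w := Subtype.ext (Valuation.ext fun _ => rfl)
  mul_smul g h w := Subtype.ext (Valuation.ext fun _ => rfl)

theorem smul_apply (g : C.J) (w : C.Prol) (y : C.YY) : (g • w).1 y = w.1 (g.symm y) := rfl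

/-- the residue field of a prolongation -/
def Kw (w : C.Prol) : Type := IsLocalRing.ResidueField w.1.valuationSubring

noncomputable instance (w : C.Prol) : Field (C.Kw w) :=
  inferInstanceAs (Field (IsLocalRing.ResidueField w.1.valuationSubring))

/-- the residue map of a prolongation -/
noncomputable def rw (w : C.Prol) : ResMap w.1 (C.Kw w) := ResMap.canon w.1

noncomputable instance algEEKw (w : C.Prol) : Algebra C.EE (C.Kw w) := (C.rX.map (C.rw w) w.2).toAlgebra

noncomputable instance algFKw (w : C.Prol) : Algebra C.F (C.Kw w) :=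
  ((algebraMap C.EE (C.Kw w)).comp (algebraMap C.F C.EE)).toAlgebra

instance (w : C.Prol) : IsScalarTower C.F C.EE (C.Kw w) := IsScalarTower.of_algebraMap_eq fun _ => rfl

/-- the orbit of `w₀` -/
abbrev Orb (w₀ : C.Prol) : Type := ↥(MulAction.orbit C.J w₀)

noncomputable instance (w₀ : C.Prol) : Fintype (C.Orb w₀) :=
  @Fintype.ofFinite _ (Set.finite_range fun g : C.J => g • w₀).to_subtype

/-- the norm `max_{w ∈ orbit of w₀} w` -/
noncomputable def nrm (w₀ : C.Prol) (a : C.YY) : ℚᵐ⁰ := Finset.univ.sup fun g : C.J => (g • w₀).1 a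

/-- `D_Y = f^* D_X` -/
noncomputable def DY : Dvsr C.L C.YY := conorm C.L C.YY C.DX

/-- `D_w`, the pull-back of `D_F` to the residue curve -/
noncomputable def Dw (w : C.Prol) : Dvsr C.F (C.Kw w) := conorm C.F (C.Kw w) C.DF

/-- the reduced inverse image in `YY` of the marked places in `A` -/
noncomputable def TY (A : Finset C.Lam) : Dvsr C.L C.YY := ∑ l ∈ A, redFib C.L C.YY (C.P l)

/-- the reduced inverse image in `K(w)` of the marked places in `A` -/
noncomputable def Tw (w : C.Prol) (A : Finset C.Lam) : Dvsr C.F (C.Kw w) :=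
  ∑ l ∈ A, redFib C.F (C.Kw w) (C.t l)

/-- the decomposition group -/
abbrev Dec (w : C.Prol) : Subgroup C.J := MulAction.stabilizer C.J w

/-- the inertia group: the elements of the decomposition group acting trivially on the residue field -/
def Ine (w : C.Prol) : Subgroup C.J where
  carrier := {g | g • w = w ∧ ∀ y : C.YY, w.1 y ≤ 1 → w.1 (g y - y) < 1}
  one_mem' := ⟨one_smul _ _, fun y _ => by simp⟩
  mul_mem' := by
    rintro g h ⟨hg, hg'⟩ ⟨hh, hh'⟩
    refine ⟨by rw [mul_smul, hh, hg], fun y hy => ?_⟩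
    have h1 : w.1 (h y) ≤ 1 := by
      have : (h⁻¹ • w).1 y = w.1 y := by rw [inv_smul_eq_iff.2 hh.symm]
      rw [smul_apply] at this
      have h3 : (h⁻¹ : C.J).symm y = h y := rfl
      rw [h3] at this
      rw [this]; exact hy
    have h2 : (g * h) y - y = (g (h y) - h y) + (h y - y) := by
      rw [AlgEquiv.mul_apply]; ring
    rw [h2]
    exact lt_of_le_of_lt (w.1.map_add _ _) (max_lt (hg' _ h1) (hh' y hy))
  inv_mem' := by
    rintro g ⟨hg, hg'⟩
    have hginv : g⁻¹ • w = w := inv_smul_eq_iff.2 hg.symm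
    refine ⟨hginv, fun y hy => ?_⟩
    have h1 : w.1 (g⁻¹ y) ≤ 1 := by
      have : (g • w).1 y = w.1 y := by rw [hg]
      rw [smul_apply] at this
      show w.1 (g.symm y) ≤ 1
      rw [this]; exact hy
    have h2 := hg' _ h1
    have h3 : g (g⁻¹ y) = y := by
      show g (g.symm y) = y
      simp
    rw [h3, ← Valuation.map_neg, neg_sub] at h2
    exact h2

/-- the numerical shape of the tower `K(w) / M_w / EE`: `p^u = [M_w : EE]`, `r l`, `a l` the ramification indices
of `M_w/EE` and of `K(w)/M_w` over the marked place `t l` -/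
def ResShape (w : C.Prol) (u : ℕ) (r a : C.Lam → ℕ) : Prop :=
  Module.finrank C.EE (C.Kw w) * Nat.card (C.Ine w) = p ^ u * Nat.card (C.Dec w) ∧
  (∀ l, r l ∣ p ^ u) ∧
  ∀ (l : C.Lam) (P' : Place C.F (C.Kw w)), P'.Over (C.t l) → P'.ramIdx (C.t l) = r l * a l

end SpecData

end Claimed.Agent.R280
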