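import Claimed.Agent.R280.FF.Main

/-!
# Row 280, package Spec ([S] specialisation): definitions and the TOP interface

Everything is place-based and lives over the ground fields `L` (valued, characteristic `0`) and `F` (its residue
field, characteristic `p`): NO splitting fields `L' = L K_b'`, `S = F F'` occur in [S].  A Galois orbit of marked
points `ξ_i` is ONE place `P l` of `XX/L` of degree `= ` orbit length, and the corresponding orbit of the `t_i` is
ONE place `t l` of `EE/F` of the same degree.

* `ResMap v k`     : a residue map of the valuation `v` onto the field `k`; `ResMap.res : K → k` (junk `0`).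
* `IsSphComplete v`: spherical completeness.
* `InsepGenus F EE t m` : the conclusion of [D] Theorem 5.1, in the form `∑_l (d deg t_l - deg z_l) ≤ ν(MM)`.
* `SpecData p`     : the input of the abstract specialisation theorem `spec_main` (file Spec/Top.lean).

Owner: helper66.
-/

set_option autoImplicit false

namespace Claimed.Agent.R280

open WithZero

/-- A residue map of `v`: a surjective ring homomorphism from the valuation ring onto the field `k` whose kernel
is the maximal ideal. -/
structure ResMap {K : Type} [Field K] (v : Valuation K ℚᵐ⁰) (k : Type) [Field k] where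
  toHom : v.valuationSubring →+* k
  surj : Function.Surjective toHom
  ker : ∀ x : v.valuationSubring, toHom x = 0 ↔ v (x : K) < 1

open Classical in
/-- the residue of `x`; junk value `0` if `x` is not integral -/
noncomputable def ResMap.res {K : Type} [Field K] {v : Valuation K ℚᵐ⁰} {k : Type} [Field k]
    (r : ResMap v k) (x : K) : k :=
  if h : v x ≤ 1 then r.toHom ⟨x, (Valuation.mem_valuationSubring_iff v x).2 h⟩ else 0

/-- spherical completeness: every family of pairwise meeting closed balls has a common point -/
def IsSphComplete {K : Type} [Field K] (v : Valuation K ℚᵐ⁰) : Prop :=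
  ∀ B : Set (K × ℚᵐ⁰), (∀ b ∈ B, b.2 ≠ 0) → (∀ b ∈ B, ∀ b' ∈ B, v (b.1 - b'.1) ≤ max b.2 b'.2) →
    ∃ x : K, ∀ b ∈ B, v (x - b.1) ≤ b.2

/-- **Exact purely inseparable genus estimate** ([D] Theorem 5.1), over `F`, in terms of places:
for every purely inseparable `MM/EE` of degree `d ≤ m`, with `z l` the place of `MM` over the marked place `t l`,
`∑_l (d · deg (t l) - deg (z l)) ≤ ν(MM/F)`.
(`deg (z l) = d · deg (t l) / r_l`, so the left side is `d ∑_i (1 - 1/r_i)`.) -/
def InsepGenus (F EE : Type) [Field F] [Field EE] [Algebra F EE] {Lam : Type} [Fintype Lam]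
    (t : Lam → Place F EE) (m : ℕ) : Prop :=
  ∀ (MM : Type) [Field MM] [Algebra F MM] [Algebra EE MM] [IsScalarTower F EE MM] [Module.Finite EE MM]
    [IsPurelyInseparable EE MM], Module.finrank EE MM ≤ m →
    ∀ z : Lam → Place F MM, (∀ l, (z l).Over (t l)) →
      ∑ l, ((Module.finrank EE MM : ℤ) * ((t l).deg : ℤ) - ((z l).deg : ℤ)) ≤ nu F MM

/-- The input of the abstract specialisation theorem.
`L` spherically complete with value group `ℚ` and residue field `F`; `XX/L` of genus one with the Gauss valuation
`vX`, residue field `EE`; `DX`, `DF` effective divisors of the same positive degree; marked places `P l`, `t l`;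
reduction of sections (`red`); `YY/XX` Galois, `L` algebraically closed in `YY`, ramified exactly over the `P l`
with indices divisible by `p`; the genus estimate for `EE`. -/
structure SpecData (p : ℕ) where
  L : Type
  XX : Type
  YY : Type
  F : Type
  EE : Type
  [fL : Field L]
  [fXX : Field XX]
  [fYY : Field YY]
  [fF : Field F]
  [fEE : Field EE]
  [aLXX : Algebra L XX]
  [aLYY : Algebra L YY]
  [aXXYY : Algebra XX YY]
  [tw : IsScalarTower L XX YY]
  [aFEE : Algebra F EE]
  [cz : CharZero L]
  [cp : CharP F p]
  [infF : Infinite F]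
  [ffX : IsFF L XX]
  [ffE : IsFF F EE]
  [finY : FiniteDimensional XX YY]
  [galY : IsGalois XX YY]
  /-- the valuation of `L` -/
  vL : Valuation L ℚᵐ⁰
  vL_surj : Function.Surjective vL
  sph : IsSphComplete vL
  rL : ResMap vL F
  /-- the Gauss valuation -/
  vX : Valuation XX ℚᵐ⁰
  vX_ext : ∀ a : L, vX (algebraMap L XX a) = vL a
  rX : ResMap vX EE
  rX_ext : ∀ a : L, vL a ≤ 1 → rX.res (algebraMap L XX a) = algebraMap F EE (rL.res a)
  chiX : chi L XX = 0
  /-- the polarisations -/
  DX : Dvsr L XX
  DF : Dvsr F EE
  DX_nonneg : ∀ P, 0 ≤ DX P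
  DF_nonneg : ∀ P, 0 ≤ DF P
  deg_pos : 0 < DX.deg
  deg_eq : DX.deg = DF.deg
  /-- the marked places (= Galois orbits of marked points) -/
  Lam : Type
  [ftLam : Fintype Lam]
  [neLam : Nonempty Lam]
  P : Lam → Place L XX
  t : Lam → Place F EE
  P_inj : Function.Injective P
  t_inj : Function.Injective t
  deg_P : ∀ l, (P l).deg = (t l).deg
  DX_P : ∀ l, DX (P l) = 0
  DF_t : ∀ l, DF (t l) = 0
  /-- reduction of integral sections, with vanishing at a set of marked places -/
  red : ∀ (j : ℕ) (A : Finset Lam) (b : XX), b ∈ LSp (j • DX - ∑ l ∈ A, Finsupp.single (P l) 1) → vX b ≤ 1 →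
    rX.res b ∈ LSp (j • DF - ∑ l ∈ A, Finsupp.single (t l) 1)
  /-- the cover -/
  algClosed : ∀ y : YY, IsAlgebraic L y → y ∈ Set.range (algebraMap L YY)
  unram : ∀ (P' : Place L XX) (Q : Place L YY), Q.Over P' → P' ∉ Set.range P → Q.ramIdx P' = 1
  ram : ∀ (l : Lam) (Q : Place L YY), Q.Over (P l) → p ∣ Q.ramIdx (P l)
  /-- [D] -/
  insep : InsepGenus F EE t (Module.finrank XX YY)

attribute [instance] SpecData.fL SpecData.fXX SpecData.fYY SpecData.fF SpecData.fEE SpecData.aLXX
  SpecData.aLYY SpecData.aXXYY SpecData.tw SpecData.aFEE SpecData.cz SpecData.cp SpecData.infF SpecData.ffX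
  SpecData.ffE SpecData.finY SpecData.galY SpecData.ftLam SpecData.neLam

end Claimed.Agent.R280
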