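import Claimed.Agent.R280.Spec.SecSpec

/-!
# Row 280, Spec package S2 `DimIneq`: comparison of section spaces  ([S] (7.6), (7.8), (7.9), (7.15))

PLAN.  `ell_le`: `V = L(j DY - TY A)` with the norm `nrm w₀`; V2 gives an orthonormal basis `e_i`; the vectors
`(res_w e_i)_w ∈ ⊕_w L(j Dw - Tw A)` (`sec_spec`) are `F`-linearly independent: lift a relation to `R`, the norm of
`∑ c_i e_i` is `max v(c_i)`, and it is `< 1` iff all residues vanish.
`sum_mw`: Riemann (`hasChi_chi`) for large `j`, `deg_conorm`: `j m n_D + χ(Y) ≤ j n_D ∑ m_w + ∑ χ(C_w)` for all large `j`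
gives `m ≤ ∑ m_w`; `≥` is V4.   `chi_le`: the same with `A`, the `j`-terms cancel by `sum_mw`.
~700 lines.
-/

set_option autoImplicit false
set_option linter.unusedSectionVars false

namespace Claimed.Agent.R280

open WithZero

/-! ### residue maps: additivity and multiplicativity on integral elements -/

section Res

variable {K : Type} [Field K] {v : Valuation K ℚᵐ⁰} {k : Type} [Field k] (r : ResMap v k)

theorem dimIneq_res_add {a b : K} (ha : v a ≤ 1) (hb : v b ≤ 1) : r.res (a + b) = r.res a + r.res b := by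
  have hab : v (a + b) ≤ 1 := (v.map_add a b).trans (max_le ha hb)
  rw [r.res_eq ha, r.res_eq hb, r.res_eq hab, ← map_add]
  rfl

theorem dimIneq_res_mul {a b : K} (ha : v a ≤ 1) (hb : v b ≤ 1) : r.res (a * b) = r.res a * r.res b := by
  have hab : v (a * b) ≤ 1 := by
    rw [map_mul]
    exact mul_le_one' ha hb
  rw [r.res_eq ha, r.res_eq hb, r.res_eq hab, ← map_mul]
  rfl

theorem dimIneq_res_zero : r.res 0 = 0 := by
  have h0 : v (0 : K) ≤ 1 := by simp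
  rw [r.res_eq h0]
  exact map_zero r.toHom

theorem dimIneq_res_eq_zero_iff {a : K} (ha : v a ≤ 1) : r.res a = 0 ↔ v a < 1 := by
  rw [r.res_eq ha, r.ker]

theorem dimIneq_res_sum {ι : Type} (s : Finset ι) (f : ι → K) (hf : ∀ i ∈ s, v (f i) ≤ 1) :
    v (∑ i ∈ s, f i) ≤ 1 ∧ r.res (∑ i ∈ s, f i) = ∑ i ∈ s, r.res (f i) := by
  classical
  induction s using Finset.induction_on with
  | empty => simp [dimIneq_res_zero]
  | insert a s ha ih =>
    obtain ⟨h1, h2⟩ := ih fun i hi => hf i (Finset.mem_insert_of_mem hi)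
    have h3 := hf a (Finset.mem_insert_self a s)
    rw [Finset.sum_insert ha, Finset.sum_insert ha]
    exact ⟨(v.map_add _ _).trans (max_le h3 h1), by rw [dimIneq_res_add r h3 h1, h2]⟩

theorem dimIneq_exists_lift (x : k) : ∃ c : K, v c ≤ 1 ∧ r.res c = x := by
  obtain ⟨y, hy⟩ := r.surj x
  have h1 : v (y : K) ≤ 1 := (Valuation.mem_valuationSubring_iff v _).1 y.2
  exact ⟨y, h1, by rw [r.res_eq h1]; exact hy⟩

end Res

namespace SpecData

variable {p : ℕ} [Fact p.Prime] (C : SpecData p)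

omit [Fact p.Prime] in
theorem dimIneq_val_L (w : C.Prol) (c : C.L) : w.1 (algebraMap C.L C.YY c) = C.vL c := by
  rw [IsScalarTower.algebraMap_apply C.L C.XX C.YY, w.2, C.vX_ext]

theorem dimIneq_res_L (w : C.Prol) (c : C.L) (hc : C.vL c ≤ 1) :
    (C.rw w).res (algebraMap C.L C.YY c) = algebraMap C.F (C.Kw w) (C.rL.res c) := by
  rw [IsScalarTower.algebraMap_apply C.L C.XX C.YY,
    C.rw_algebraMap w _ (by rw [C.vX_ext]; exact hc), C.rX_ext c hc]
  rfl

omit [Fact p.Prime] in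
theorem dimIneq_nrm_lt_one (w₀ : C.Prol) (a : C.YY) (h : ∀ w : C.Orb w₀, w.1.1 a < 1) : C.nrm w₀ a < 1 := by
  unfold nrm
  rw [Finset.sup_lt_iff (by exact zero_lt_one)]
  intro g _
  exact h ⟨g • w₀, MulAction.mem_orbit _ _⟩

theorem ell_le (w₀ : C.Prol) (j : ℕ) (A : Finset C.Lam) :
    ell (j • C.DY - C.TY A) ≤ ∑ w : C.Orb w₀, ell (j • C.Dw w.1 - C.Tw w.1 A) := by
  classical
  have hfinV : Module.Finite C.L (LSp (j • C.DY - C.TY A)) := finite_LSp _
  have hfin : ∀ w : C.Orb w₀, Module.Finite C.F (LSp (j • C.Dw w.1 - C.Tw w.1 A)) := fun w => finite_LSp _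
  have hNY := C.isVNorm_nrm w₀
  let N : LSp (j • C.DY - C.TY A) → ℚᵐ⁰ := fun a => C.nrm w₀ (a : C.YY)
  have hN : IsVNorm C.vL N :=
    { eq_zero := fun x => by
        show C.nrm w₀ (x : C.YY) = 0 ↔ x = 0
        rw [hNY.eq_zero, Submodule.coe_eq_zero]
      add_le := fun x y => hNY.add_le x y
      smul := fun a x => hNY.smul a x }
  obtain ⟨e, he⟩ := exists_orthonormal_basis C.vL C.vL_surj C.sph N hN
  have he1 : ∀ i, C.nrm w₀ (e i : C.YY) ≤ 1 := by
    intro i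
    have h1 := he (fun k => if k = i then 1 else 0)
    have h2 : ∑ k, (if k = i then (1 : C.L) else 0) • e k = e i := by
      simp
    rw [h2] at h1
    have h3 : C.nrm w₀ (e i : C.YY) = Finset.univ.sup fun k => C.vL (if k = i then (1 : C.L) else 0) := h1
    rw [h3]
    refine Finset.sup_le fun k _ => ?_
    split_ifs <;> simp
  have hew : ∀ i (w : C.Orb w₀), w.1.1 (e i : C.YY) ≤ 1 := fun i w => (C.nrm_le_iff w₀ _ 1).1 (he1 i) w
  let u : Fin (Module.finrank C.L (LSp (j • C.DY - C.TY A))) →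
      (∀ w : C.Orb w₀, LSp (j • C.Dw w.1 - C.Tw w.1 A)) :=
    fun i w => ⟨(C.rw w.1).res (e i : C.YY), C.sec_spec w₀ j A _ (e i).2 (he1 i) w⟩
  have hli : LinearIndependent C.F u := by
    rw [Fintype.linearIndependent_iff]
    intro g hg i
    choose c hc1 hc2 using fun i => dimIneq_exists_lift C.rL (g i)
    have hNa := he c
    have hlt : C.nrm w₀ ((∑ i, c i • e i : LSp (j • C.DY - C.TY A)) : C.YY) < 1 := by
      apply C.dimIneq_nrm_lt_one
      intro w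
      have hcoe : ((∑ i, c i • e i : LSp (j • C.DY - C.TY A)) : C.YY) =
          ∑ i, algebraMap C.L C.YY (c i) * (e i : C.YY) := by
        rw [Submodule.coe_sum]
        exact Finset.sum_congr rfl fun i _ => by rw [Submodule.coe_smul, Algebra.smul_def]
      rw [hcoe]
      have hcw : ∀ i, w.1.1 (algebraMap C.L C.YY (c i)) ≤ 1 := fun i => by
        rw [C.dimIneq_val_L]
        exact hc1 i
      have hterm : ∀ i ∈ (Finset.univ : Finset (Fin (Module.finrank C.L (LSp (j • C.DY - C.TY A))))),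
          w.1.1 (algebraMap C.L C.YY (c i) * (e i : C.YY)) ≤ 1 := fun i _ => by
        rw [map_mul]
        exact mul_le_one' (hcw i) (hew i w)
      obtain ⟨s1, s2⟩ := dimIneq_res_sum (C.rw w.1) Finset.univ _ hterm
      rw [← dimIneq_res_eq_zero_iff (C.rw w.1) s1, s2]
      have hgw := congrArg (fun f : (∀ w : C.Orb w₀, LSp (j • C.Dw w.1 - C.Tw w.1 A)) => ((f w : LSp _) : C.Kw w.1)) hg
      simp only [Finset.sum_apply, Pi.smul_apply, Pi.zero_apply, Submodule.coe_sum, Submodule.coe_smul,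
        Submodule.coe_zero] at hgw
      rw [← hgw]
      refine Finset.sum_congr rfl fun i _ => ?_
      rw [dimIneq_res_mul (C.rw w.1) (hcw i) (hew i w), C.dimIneq_res_L w.1 (c i) (hc1 i), hc2 i,
        Algebra.smul_def]
    have hsup : (Finset.univ.sup fun i => C.vL (c i)) < 1 := by
      rw [← hNa]
      exact hlt
    have hci : C.vL (c i) < 1 :=
      lt_of_le_of_lt (Finset.le_sup (f := fun i => C.vL (c i)) (Finset.mem_univ i)) hsup
    rw [← hc2 i]
    exact (dimIneq_res_eq_zero_iff C.rL (hc1 i)).2 hci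
  have hcard := hli.fintype_card_le_finrank
  rw [Fintype.card_fin, Module.finrank_pi_fintype] at hcard
  exact hcard

theorem dimIneq_deg_Y (j : ℕ) (A : Finset C.Lam) :
    (j • C.DY - C.TY A).deg = (j : ℤ) * ((C.m : ℤ) * C.DX.deg) - (C.TY A).deg := by
  rw [Dvsr.deg_sub, ← natCast_zsmul, Dvsr.deg_smul]
  unfold DY m
  rw [deg_conorm]

theorem dimIneq_deg_w (w : C.Prol) (j : ℕ) (A : Finset C.Lam) :
    (j • C.Dw w - C.Tw w A).deg =
      (j : ℤ) * ((Module.finrank C.EE (C.Kw w) : ℤ) * C.DX.deg) - (C.Tw w A).deg := by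
  rw [Dvsr.deg_sub, ← natCast_zsmul, Dvsr.deg_smul]
  unfold Dw
  rw [deg_conorm, C.deg_eq]

theorem dimIneq_m_pos : 0 < C.m := Module.finrank_pos

theorem dimIneq_mw_pos (w : C.Prol) : 0 < Module.finrank C.EE (C.Kw w) := Module.finrank_pos

/-- Riemann's theorem on both sides of `ell_le`, for all large `j` -/
theorem dimIneq_key (w₀ : C.Prol) (A : Finset C.Lam) : ∃ j0 : ℕ, ∀ j : ℕ, j0 ≤ j →
    (j : ℤ) * ((C.m : ℤ) * C.DX.deg) - (C.TY A).deg + chi C.L C.YY ≤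
      ∑ w : C.Orb w₀, ((j : ℤ) * ((Module.finrank C.EE (C.Kw w.1) : ℤ) * C.DX.deg) - (C.Tw w.1 A).deg +
        chi C.F (C.Kw w.1)) := by
  obtain ⟨cY, hcY⟩ := hasChi_chi (k := C.L) (M := C.YY)
  choose cw hcw using fun w : C.Orb w₀ => hasChi_chi (k := C.F) (M := C.Kw w.1)
  have hn : 1 ≤ C.DX.deg := C.deg_pos
  refine ⟨(|cY + (C.TY A).deg| + ∑ w : C.Orb w₀, |cw w + (C.Tw w.1 A).deg|).toNat, fun j hj => ?_⟩
  have hj' : |cY + (C.TY A).deg| + ∑ w : C.Orb w₀, |cw w + (C.Tw w.1 A).deg| ≤ (j : ℤ) :=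
    Int.toNat_le.1 hj
  have hsum0 : 0 ≤ ∑ w : C.Orb w₀, |cw w + (C.Tw w.1 A).deg| := Finset.sum_nonneg fun w _ => abs_nonneg _
  have hj0 : (0 : ℤ) ≤ (j : ℤ) := Int.natCast_nonneg j
  have hY : cY ≤ (j • C.DY - C.TY A).deg := by
    rw [C.dimIneq_deg_Y]
    have h1 : (1 : ℤ) ≤ (C.m : ℤ) := by exact_mod_cast C.dimIneq_m_pos
    have h2 : (1 : ℤ) ≤ (C.m : ℤ) * C.DX.deg := by nlinarith
    have h3 : (j : ℤ) ≤ (j : ℤ) * ((C.m : ℤ) * C.DX.deg) := by nlinarith
    have h4 := le_abs_self (cY + (C.TY A).deg)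
    linarith
  have hW : ∀ w : C.Orb w₀, cw w ≤ (j • C.Dw w.1 - C.Tw w.1 A).deg := by
    intro w
    rw [C.dimIneq_deg_w]
    have h1 : (1 : ℤ) ≤ (Module.finrank C.EE (C.Kw w.1) : ℤ) := by exact_mod_cast C.dimIneq_mw_pos w.1
    have h2 : (1 : ℤ) ≤ (Module.finrank C.EE (C.Kw w.1) : ℤ) * C.DX.deg := by nlinarith
    have h3 : (j : ℤ) ≤ (j : ℤ) * ((Module.finrank C.EE (C.Kw w.1) : ℤ) * C.DX.deg) := by nlinarith
    have h4 := le_abs_self (cw w + (C.Tw w.1 A).deg)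
    have h5 : |cw w + (C.Tw w.1 A).deg| ≤ ∑ w : C.Orb w₀, |cw w + (C.Tw w.1 A).deg| :=
      Finset.single_le_sum (f := fun w : C.Orb w₀ => |cw w + (C.Tw w.1 A).deg|)
        (fun w _ => abs_nonneg _) (Finset.mem_univ w)
    have h6 := abs_nonneg (cY + (C.TY A).deg)
    linarith
  have e1 := hcY _ hY
  have e2 : ∀ w : C.Orb w₀, (ell (j • C.Dw w.1 - C.Tw w.1 A) : ℤ) =
      (j • C.Dw w.1 - C.Tw w.1 A).deg + chi C.F (C.Kw w.1) := fun w => hcw w _ (hW w)
  have h := C.ell_le w₀ j A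
  have h' : (ell (j • C.DY - C.TY A) : ℤ) ≤ ∑ w : C.Orb w₀, (ell (j • C.Dw w.1 - C.Tw w.1 A) : ℤ) := by
    exact_mod_cast h
  rw [e1, C.dimIneq_deg_Y, Finset.sum_congr rfl fun w _ => e2 w] at h'
  refine h'.trans (le_of_eq (Finset.sum_congr rfl fun w _ => ?_))
  rw [C.dimIneq_deg_w]

theorem dimIneq_sum_split (w₀ : C.Prol) (A : Finset C.Lam) (j : ℕ) :
    ∑ w : C.Orb w₀, ((j : ℤ) * ((Module.finrank C.EE (C.Kw w.1) : ℤ) * C.DX.deg) - (C.Tw w.1 A).deg +
        chi C.F (C.Kw w.1)) =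
      (j : ℤ) * (((∑ w : C.Orb w₀, Module.finrank C.EE (C.Kw w.1) : ℕ) : ℤ) * C.DX.deg) +
        ∑ w : C.Orb w₀, (chi C.F (C.Kw w.1) - (C.Tw w.1 A).deg) := by
  push_cast
  rw [Finset.sum_mul, Finset.mul_sum, ← Finset.sum_add_distrib]
  exact Finset.sum_congr rfl fun w _ => by ring

/-- **[S] (7.9)** -/
theorem sum_mw (w₀ : C.Prol) : ∑ w : C.Orb w₀, Module.finrank C.EE (C.Kw w.1) = C.m := by
  have hle : ∑ w : C.Orb w₀, Module.finrank C.EE (C.Kw w.1) ≤ C.m := by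
    have hinf : Infinite C.EE := Infinite.of_injective (algebraMap C.F C.EE) (algebraMap C.F C.EE).injective
    have hsurj : Function.Surjective C.vX := fun γ => by
      obtain ⟨a, ha⟩ := C.vL_surj γ
      exact ⟨algebraMap C.L C.XX a, by rw [C.vX_ext, ha]⟩
    exact (sum_resDeg_le C.vX hsurj C.rX (fun w : C.Orb w₀ => w.1.1)
      (fun a b h => Subtype.ext (Subtype.ext h)) (fun w => w.1.2) (fun w => C.Kw w.1)
      (fun w => C.rw w.1) (fun w => rfl)).2
  refine le_antisymm hle ?_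
  by_contra hlt
  rw [not_le] at hlt
  obtain ⟨j0, hj0⟩ := C.dimIneq_key w₀ ∅
  set s : ℕ := ∑ w : C.Orb w₀, Module.finrank C.EE (C.Kw w.1) with hs
  set K0 : ℤ := ∑ w : C.Orb w₀, (chi C.F (C.Kw w.1) - (C.Tw w.1 ∅).deg) -
    (chi C.L C.YY - (C.TY ∅).deg) with hK0
  have hn : 1 ≤ C.DX.deg := C.deg_pos
  have h := hj0 (max j0 (K0.toNat + 1)) (le_max_left _ _)
  rw [C.dimIneq_sum_split w₀ ∅, ← hs] at h
  set j : ℕ := max j0 (K0.toNat + 1) with hj
  have hjK : K0 < (j : ℤ) := by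
    have h1 : K0.toNat + 1 ≤ j := le_max_right _ _
    have h2 : K0 ≤ (K0.toNat : ℤ) := Int.self_le_toNat K0
    have h3 : ((K0.toNat + 1 : ℕ) : ℤ) ≤ (j : ℤ) := by exact_mod_cast h1
    push_cast at h3
    linarith
  have hms : (s : ℤ) + 1 ≤ (C.m : ℤ) := by exact_mod_cast hlt
  have hj0' : (0 : ℤ) ≤ (j : ℤ) := Int.natCast_nonneg j
  have h5 : (j : ℤ) * (((s : ℤ) + 1) * C.DX.deg) ≤ (j : ℤ) * ((C.m : ℤ) * C.DX.deg) :=
    mul_le_mul_of_nonneg_left (mul_le_mul_of_nonneg_right hms (by linarith)) hj0'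
  have h6 : (j : ℤ) ≤ (j : ℤ) * C.DX.deg := by nlinarith
  have h7 : (j : ℤ) * (((s : ℤ) + 1) * C.DX.deg) = (j : ℤ) * ((s : ℤ) * C.DX.deg) + (j : ℤ) * C.DX.deg := by
    ring
  linarith

/-- **[S] (7.15)** in the form `χ(Y) - deg T_Y ≤ ∑_w (χ(C_w) - deg T_w)` -/
theorem chi_le (w₀ : C.Prol) (A : Finset C.Lam) :
    chi C.L C.YY - (C.TY A).deg ≤ ∑ w : C.Orb w₀, (chi C.F (C.Kw w.1) - (C.Tw w.1 A).deg) := by
  obtain ⟨j0, hj0⟩ := C.dimIneq_key w₀ A
  have h := hj0 j0 le_rfl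
  rw [C.dimIneq_sum_split w₀ A, C.sum_mw w₀] at h
  linarith

end SpecData

end Claimed.Agent.R280
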