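import Claimed.Agent.R280.Spec.SecSpec

/-!
# Row 280, Spec packages S3a `ResAct` (action of the decomposition group on the residue field) and S3b (`M_w/EE` is purely inseparable)  ([S] Lemma 7.4)

PLAN S3a (~700 lines).
* `dec_val`: `g • w = w` means `w (g⁻¹ y) = w y`.
* `exists_decAct`: `g` restricts to a ring automorphism of `O_w` preserving the maximal ideal, hence induces an automorphism of `K(w)` (`ResMap.lift` of `(C.rw w).toHom ∘ g|O_w`; inverse from `g⁻¹`);
  it fixes `EE` because `g` fixes `XX` (`rw_algebraMap`, surjectivity of `C.rX`).  Uniqueness: `(C.rw w).surj`.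
* `decAct_one/mul`: uniqueness.   `decHom_eq_one_iff`: `res (g y) = res y ↔ w (g y - y) < 1` (`ResMap.lt_one_of_res_eq` and converse).
* `finrank_Mw`: Artin `IntermediateField.finrank_fixedField_eq_card`, `|range| · |ker| = |Dec|` (`Subgroup.card_range…` / `QuotientGroup.quotientKerEquivRange`, `Subgroup.card_eq_card_quotient_mul_card_subgroup`),
  `ker ≃ Ine` (`decHom_eq_one_iff`, `ine_le_dec`).   `isGalois_Mw`: `IsGalois.of_fixedField`-instance.
* `ine_normal`: kernel of a homomorphism.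
PLAN S3b (~600 lines).  `Mw_pow_mem`: let `x ∈ M_w`.  V3 (`simult_approx` for the finitely many valuations of the orbit of `w`) gives `a ∈ YY` with `w (a - a₀) < 1` (`a₀` a lift of `x`) and `w' a < 1` for the other `w'` in
  the orbit.  `P_a = ∏_{g ∈ J} (T - g a) ∈ XX[T]` (Galois invariants), integral coefficients, and its reduction, mapped to `K(w)[T]`, is `∏_g (T - res_w (g a)) = T^{|J| - |Dec|} (T - x)^{|Dec|}`
  (`g ∈ Dec`: `res (g a) = decAct g x = x`; `g ∉ Dec`: `w (g a) = (g⁻¹ • w) a < 1`).  With `|Dec| = p^v q`, `p ∤ q`: the coefficient of `T^{|J| - p^v}` is `- q x^{p^v}`, and it lies in `EE`.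
  `isPurelyInseparable_Mw`: `isPurelyInseparable_iff_pow_mem`.
Owner of the statements: helper66.
-/

set_option autoImplicit false

namespace Claimed.Agent.R280

open WithZero

/-- converse of `ResMap.lt_one_of_res_eq` -/
theorem ResMap.res_eq_of_lt_one {K : Type} [Field K] {v : Valuation K ℚᵐ⁰} {k : Type} [Field k] (r : ResMap v k)
    {x y : K} (hx : v x ≤ 1) (hy : v y ≤ 1) (h : v (x - y) < 1) : r.res x = r.res y := by
  rw [r.res_eq hx, r.res_eq hy, ← sub_eq_zero, ← map_sub, r.ker]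
  exact h

/-- S3b, pure algebra: if all coefficients of `X^n₀ (X - x)^n₁`, `n₁ ≠ 0`, lie in the subfield, then so does a `p`-power power of `x` -/
theorem s3b_pow_mem_of_coeff {E K : Type} [Field E] [Field K] [Algebra E K] (p : ℕ) [Fact p.Prime] [CharP E p]
    (x : K) (n₀ n₁ : ℕ) (hn : n₁ ≠ 0)
    (h : ∀ i, (Polynomial.X ^ n₀ * (Polynomial.X - Polynomial.C x) ^ n₁ : Polynomial K).coeff i ∈
      Set.range (algebraMap E K)) :
    ∃ v : ℕ, x ^ p ^ v ∈ Set.range (algebraMap E K) := by
  have hp : p.Prime := Fact.out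
  obtain ⟨v, q, hq, rfl⟩ := Nat.exists_eq_pow_mul_and_not_dvd hn p hp.ne_one
  have : CharP K p := charP_of_injective_algebraMap (algebraMap E K).injective p
  obtain ⟨q', rfl⟩ : ∃ q', q = q' + 1 := by
    refine ⟨q - 1, ?_⟩
    have : q ≠ 0 := by
      rintro rfl
      exact hq (dvd_zero p)
    omega
  have h1 : ((Polynomial.X - Polynomial.C x) ^ (p ^ v * (q' + 1)) : Polynomial K) =
      Polynomial.expand K (p ^ v) ((Polynomial.X - Polynomial.C (x ^ p ^ v)) ^ (q' + 1)) := by
    rw [pow_mul, sub_pow_char_pow, map_pow, map_sub, Polynomial.expand_X, Polynomial.expand_C, map_pow]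
  obtain ⟨e, he⟩ := h (q' * p ^ v + n₀)
  rw [Polynomial.coeff_X_pow_mul, h1, Polynomial.coeff_expand_mul (pow_pos hp.pos v),
    sub_eq_add_neg, ← Polynomial.C_neg,
    Polynomial.coeff_X_add_C_pow, Nat.choose_succ_self_right, Nat.add_sub_cancel_left, pow_one] at he
  have hq0 : ((q' + 1 : ℕ) : E) ≠ 0 := by
    rw [Ne, CharP.cast_eq_zero_iff E p]
    exact hq
  refine ⟨v, -(e / ((q' + 1 : ℕ) : E)), ?_⟩
  have hq1 : ((q' + 1 : ℕ) : K) ≠ 0 := by
    rw [← map_natCast (algebraMap E K)]
    exact (map_ne_zero _).2 hq0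
  rw [map_neg, map_div₀, he, map_natCast]
  field_simp

namespace SpecData

variable {p : ℕ} [Fact p.Prime] (C : SpecData p)

theorem dec_val (w : C.Prol) {g : C.J} (hg : g ∈ C.Dec w) (y : C.YY) : w.1 (g y) = w.1 y := by
  have hg' : g • w = w := hg
  have h1 : (g⁻¹ • w).1 y = w.1 y := by rw [inv_smul_eq_iff.2 hg'.symm]
  rw [smul_apply] at h1
  exact h1

/-- `g ∈ Dec w` restricted to the valuation ring, followed by the residue map -/
noncomputable def decPre (w : C.Prol) (g : C.Dec w) : w.1.valuationSubring →+* C.Kw w :=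
  (C.rw w).toHom.comp
    (((g.1 : C.YY ≃ₐ[C.XX] C.YY).toAlgHom.toRingHom.comp w.1.valuationSubring.subtype).codRestrict
      w.1.valuationSubring.toSubring fun x => by
        have hx : w.1 (x : C.YY) ≤ 1 := (Valuation.mem_valuationSubring_iff w.1 _).1 x.2
        show g.1 (x : C.YY) ∈ w.1.valuationSubring
        rw [Valuation.mem_valuationSubring_iff, C.dec_val w g.2]
        exact hx)

theorem decPre_apply (w : C.Prol) (g : C.Dec w) (x : w.1.valuationSubring) :
    C.decPre w g x = (C.rw w).res (g.1 (x : C.YY)) := by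
  have hx : w.1 (x : C.YY) ≤ 1 := (Valuation.mem_valuationSubring_iff w.1 _).1 x.2
  have h1 : w.1 (g.1 (x : C.YY)) ≤ 1 := by rw [C.dec_val w g.2]; exact hx
  rw [(C.rw w).res_eq h1]
  rfl

/-- the ring endomorphism of the residue field induced by `g ∈ Dec w` -/
noncomputable def decRing (w : C.Prol) (g : C.Dec w) : C.Kw w →+* C.Kw w :=
  (C.rw w).lift (C.decPre w g) fun x hx => by
    have hx1 : w.1 (x : C.YY) ≤ 1 := (Valuation.mem_valuationSubring_iff w.1 _).1 x.2
    have h1 : w.1 (g.1 (x : C.YY)) ≤ 1 := by rw [C.dec_val w g.2]; exact hx1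
    rw [C.decPre_apply, (C.rw w).res_eq h1, (C.rw w).ker]
    show w.1 (g.1 (x : C.YY)) < 1
    rw [C.dec_val w g.2]
    exact hx

theorem decRing_res (w : C.Prol) (g : C.Dec w) (y : C.YY) (hy : w.1 y ≤ 1) :
    C.decRing w g ((C.rw w).res y) = (C.rw w).res (g.1 y) := by
  rw [(C.rw w).res_eq hy, decRing, ResMap.lift_toHom, C.decPre_apply]

theorem exists_rw_res_eq (w : C.Prol) (x : C.Kw w) : ∃ y : C.YY, w.1 y ≤ 1 ∧ (C.rw w).res y = x := by
  obtain ⟨y, rfl⟩ := (C.rw w).surj x
  have hy : w.1 (y : C.YY) ≤ 1 := (Valuation.mem_valuationSubring_iff w.1 _).1 y.2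
  exact ⟨y, hy, (C.rw w).res_eq hy⟩

theorem decRing_algebraMap (w : C.Prol) (g : C.Dec w) (e : C.EE) :
    C.decRing w g (algebraMap C.EE (C.Kw w) e) = algebraMap C.EE (C.Kw w) e := by
  obtain ⟨b, rfl⟩ := C.rX.surj e
  have hb : C.vX (b : C.XX) ≤ 1 := (Valuation.mem_valuationSubring_iff C.vX _).1 b.2
  have h1 : w.1 (algebraMap C.XX C.YY (b : C.XX)) ≤ 1 := by rw [w.2]; exact hb
  have h2 : C.rX.toHom b = C.rX.res (b : C.XX) := (C.rX.res_eq hb).symm
  rw [h2, ← C.rw_algebraMap w _ hb, C.decRing_res w g _ h1, AlgEquiv.commutes]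

theorem decRing_comp (w : C.Prol) (g h : C.Dec w) (x : C.Kw w) :
    C.decRing w g (C.decRing w h x) = C.decRing w (g * h) x := by
  obtain ⟨y, hy, rfl⟩ := C.exists_rw_res_eq w x
  rw [C.decRing_res w h y hy, C.decRing_res w g _ (by rw [C.dec_val w h.2]; exact hy),
    C.decRing_res w (g * h) y hy]
  rfl

theorem decRing_one (w : C.Prol) (x : C.Kw w) : C.decRing w 1 x = x := by
  obtain ⟨y, hy, rfl⟩ := C.exists_rw_res_eq w x
  rw [C.decRing_res w 1 y hy]
  rfl

theorem exists_decAct (w : C.Prol) (g : C.Dec w) : ∃! φ : C.Kw w ≃ₐ[C.EE] C.Kw w,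
    ∀ y : C.YY, w.1 y ≤ 1 → φ ((C.rw w).res y) = (C.rw w).res (g.1 y) := by
  refine ⟨AlgEquiv.ofAlgHom ⟨C.decRing w g, C.decRing_algebraMap w g⟩
    ⟨C.decRing w g⁻¹, C.decRing_algebraMap w g⁻¹⟩ ?_ ?_, ?_, ?_⟩
  · ext x
    show C.decRing w g (C.decRing w g⁻¹ x) = x
    rw [C.decRing_comp, mul_inv_cancel, C.decRing_one]
  · ext x
    show C.decRing w g⁻¹ (C.decRing w g x) = x
    rw [C.decRing_comp, inv_mul_cancel, C.decRing_one]
  · intro y hy
    exact C.decRing_res w g y hy
  · intro φ hφ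
    ext x
    obtain ⟨y, hy, rfl⟩ := C.exists_rw_res_eq w x
    rw [hφ y hy]
    exact (C.decRing_res w g y hy).symm

/-- the automorphism of the residue field induced by `g ∈ Dec w` -/
noncomputable def decAct (w : C.Prol) (g : C.Dec w) : C.Kw w ≃ₐ[C.EE] C.Kw w := (C.exists_decAct w g).choose

theorem decAct_res (w : C.Prol) (g : C.Dec w) (y : C.YY) (hy : w.1 y ≤ 1) :
    C.decAct w g ((C.rw w).res y) = (C.rw w).res (g.1 y) := (C.exists_decAct w g).choose_spec.1 y hy

theorem decAct_unique (w : C.Prol) (g : C.Dec w) (φ : C.Kw w ≃ₐ[C.EE] C.Kw w)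
    (h : ∀ y : C.YY, w.1 y ≤ 1 → φ ((C.rw w).res y) = (C.rw w).res (g.1 y)) : C.decAct w g = φ :=
  ((C.exists_decAct w g).choose_spec.2 φ h).symm

/-- `Dec w → Aut (K(w)/EE)` -/
noncomputable def decHom (w : C.Prol) : C.Dec w →* (C.Kw w ≃ₐ[C.EE] C.Kw w) where
  toFun := C.decAct w
  map_one' := C.decAct_unique w 1 1 fun _ _ => rfl
  map_mul' g h := C.decAct_unique w (g * h) _ fun y hy => by
    rw [AlgEquiv.mul_apply, C.decAct_res w h y hy, C.decAct_res w g _ (by rw [C.dec_val w h.2]; exact hy)]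
    rfl

theorem decHom_eq_one_iff (w : C.Prol) (g : C.Dec w) : C.decHom w g = 1 ↔ g.1 ∈ C.Ine w := by
  constructor
  · intro h
    refine ⟨g.2, fun y hy => ?_⟩
    have h1 : w.1 (g.1 y) ≤ 1 := by rw [C.dec_val w g.2]; exact hy
    refine (C.rw w).lt_one_of_res_eq h1 hy ?_
    rw [← C.decAct_res w g y hy]
    have h2 : C.decAct w g = 1 := h
    rw [h2]
    rfl
  · rintro ⟨_, h⟩
    refine C.decAct_unique w g 1 fun y hy => ?_
    have h1 : w.1 (g.1 y) ≤ 1 := by rw [C.dec_val w g.2]; exact hy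
    exact ((C.rw w).res_eq_of_lt_one h1 hy (h y hy)).symm

/-- `M_w`, the fixed field of the decomposition group in the residue field -/
noncomputable def Mw (w : C.Prol) : IntermediateField C.EE (C.Kw w) :=
  IntermediateField.fixedField (C.decHom w).range

theorem ine_le_dec_aux (w : C.Prol) : C.Ine w ≤ C.Dec w := fun _ hg => hg.1

theorem decHom_ker (w : C.Prol) : (C.decHom w).ker = (C.Ine w).subgroupOf (C.Dec w) := by
  ext g
  rw [MonoidHom.mem_ker, C.decHom_eq_one_iff, Subgroup.mem_subgroupOf]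

theorem finrank_Mw (w : C.Prol) :
    Module.finrank (C.Mw w) (C.Kw w) * Nat.card (C.Ine w) = Nat.card (C.Dec w) := by
  have h1 : Module.finrank (C.Mw w) (C.Kw w) = Nat.card (C.decHom w).range :=
    IntermediateField.finrank_fixedField_eq_card _
  have h2 : Nat.card (C.Ine w) = Nat.card (C.decHom w).ker := by
    rw [C.decHom_ker]
    exact (Nat.card_congr (Subgroup.subgroupOfEquivOfLe (C.ine_le_dec_aux w)).toEquiv).symm
  rw [h1, h2, ← Subgroup.index_ker, mul_comm]
  exact Subgroup.card_mul_index _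

instance isGalois_Mw (w : C.Prol) : IsGalois (C.Mw w) (C.Kw w) :=
  IsGalois.of_fixed_field (C.Kw w) (C.decHom w).range

/-- S3b -/
theorem Mw_pow_mem (w : C.Prol) (x : C.Kw w) (hx : x ∈ C.Mw w) :
    ∃ v : ℕ, x ^ p ^ v ∈ Set.range (algebraMap C.EE (C.Kw w)) := by
  classical
  -- a lift of `x`
  obtain ⟨a₀, ha₀⟩ := (C.rw w).surj x
  have ha₀1 : w.1 (a₀ : C.YY) ≤ 1 := (Valuation.mem_valuationSubring_iff _ _).1 a₀.2
  -- the approximating element
  have : Infinite C.EE := Infinite.of_injective _ (algebraMap C.F C.EE).injective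
  have hsurj : Function.Surjective C.vX := fun γ => by
    obtain ⟨a, ha⟩ := C.vL_surj γ
    exact ⟨algebraMap C.L C.XX a, by rw [C.vX_ext, ha]⟩
  obtain ⟨a, ha⟩ := simult_approx C.vX hsurj C.rX (Finset.univ.image fun g : C.J => (g • w).1)
    (by
      intro w' hw'
      obtain ⟨g, -, rfl⟩ := Finset.mem_image.1 hw'
      exact (g • w).2)
    (fun w' => if w' = w.1 then (a₀ : C.YY) else 0)
    (by
      intro w' _
      split_ifs with h
      · rw [h]; exact ha₀1
      · simp)
  have haw : w.1 (a - a₀) < 1 := by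
    have := ha w.1 (Finset.mem_image.2 ⟨1, Finset.mem_univ _, by rw [one_smul]⟩)
    rwa [if_pos rfl] at this
  have ha1 : w.1 a ≤ 1 := by
    have h : a = (a - a₀) + a₀ := by ring
    rw [h]
    exact (w.1.map_add _ _).trans (max_le haw.le ha₀1)
  have hres : (C.rw w).res a = x := by
    rw [(C.rw w).res_eq ha1, ← ha₀, ← sub_eq_zero, ← map_sub, (C.rw w).ker]
    exact haw
  have hdec : ∀ g : C.J, g ∈ C.Dec w → w.1 (g a) ≤ 1 ∧ (C.rw w).res (g a) = x := by
    intro g hg
    refine ⟨by rw [C.dec_val w hg]; exact ha1, ?_⟩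
    have h1 := C.decAct_res w ⟨g, hg⟩ a ha1
    rw [hres] at h1
    rw [← h1]
    exact (IntermediateField.mem_fixedField_iff _ _).1 hx _ ⟨⟨g, hg⟩, rfl⟩
  have hndec : ∀ g : C.J, g ∉ C.Dec w → w.1 (g a) < 1 := by
    intro g hg
    have hne : (g⁻¹ • w).1 ≠ w.1 := by
      intro h
      apply hg
      have h2 : g⁻¹ • w = w := Subtype.ext h
      exact (inv_smul_eq_iff.1 h2).symm
    have := ha (g⁻¹ • w).1 (Finset.mem_image.2 ⟨g⁻¹, Finset.mem_univ _, rfl⟩)
    rw [if_neg hne, sub_zero] at this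
    exact this
  have hall : ∀ g : C.J, g a ∈ w.1.valuationSubring := by
    intro g
    rw [Valuation.mem_valuationSubring_iff]
    by_cases hg : g ∈ C.Dec w
    · exact (hdec g hg).1
    · exact (hndec g hg).le
  -- the characteristic polynomial over the valuation ring
  obtain ⟨Q, hQ⟩ : ∃ Q : Polynomial w.1.valuationSubring,
      Q = ∏ g : C.J, (Polynomial.X - Polynomial.C (⟨g a, hall g⟩ : w.1.valuationSubring)) := ⟨_, rfl⟩
  have hQ1 : Q.map w.1.valuationSubring.subtype = MulSemiringAction.charpoly C.J a := by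
    rw [hQ, Polynomial.map_prod]
    refine Finset.prod_congr rfl fun g _ => ?_
    rw [Polynomial.map_sub, Polynomial.map_X, Polynomial.map_C]
    rfl
  have hQ2 : Q.map (C.rw w).toHom =
      Polynomial.X ^ (Finset.univ.filter fun g : C.J => g ∉ C.Dec w).card *
        (Polynomial.X - Polynomial.C x) ^ (Finset.univ.filter fun g : C.J => g ∈ C.Dec w).card := by
    rw [hQ, Polynomial.map_prod, ← Finset.prod_filter_mul_prod_filter_not Finset.univ (fun g : C.J => g ∈ C.Dec w),
      mul_comm]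
    congr 1
    · rw [← Finset.prod_const]
      refine Finset.prod_congr rfl fun g hg => ?_
      have hg' := (Finset.mem_filter.1 hg).2
      rw [Polynomial.map_sub, Polynomial.map_X, Polynomial.map_C, ((C.rw w).ker _).2 (hndec g hg'), map_zero,
        sub_zero]
    · rw [← Finset.prod_const]
      refine Finset.prod_congr rfl fun g hg => ?_
      have hg' := (Finset.mem_filter.1 hg).2
      rw [Polynomial.map_sub, Polynomial.map_X, Polynomial.map_C, ← (hdec g hg').2, (C.rw w).res_eq (hdec g hg').1]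
  have : CharP C.EE p := charP_of_injective_algebraMap (algebraMap C.F C.EE).injective p
  have hne : (Finset.univ.filter fun g : C.J => g ∈ C.Dec w).card ≠ 0 :=
    Finset.card_ne_zero.2 ⟨1, Finset.mem_filter.2 ⟨Finset.mem_univ _, one_mem _⟩⟩
  refine s3b_pow_mem_of_coeff p x (Finset.univ.filter fun g : C.J => g ∉ C.Dec w).card _ hne fun i => ?_
  rw [← hQ2, Polynomial.coeff_map]
  obtain ⟨d, hd⟩ : ((Q.coeff i : w.1.valuationSubring) : C.YY) ∈ Set.range (algebraMap C.XX C.YY) := by
    rw [IsGalois.mem_range_algebraMap_iff_fixed]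
    intro g
    have h1 : ((Q.coeff i : w.1.valuationSubring) : C.YY) = (MulSemiringAction.charpoly C.J a).coeff i := by
      rw [← hQ1, Polynomial.coeff_map]
      rfl
    rw [h1]
    exact MulSemiringAction.smul_coeff_charpoly a i g
  have hd1 : C.vX d ≤ 1 := by
    rw [← w.2 d, hd]
    exact (Valuation.mem_valuationSubring_iff _ _).1 (Q.coeff i).2
  refine ⟨C.rX.res d, ?_⟩
  rw [← C.rw_algebraMap w d hd1, (C.rw w).res_eq (by rw [w.2 d]; exact hd1)]
  congr 1
  exact Subtype.ext hd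

instance isPurelyInseparable_Mw (w : C.Prol) : IsPurelyInseparable C.EE (C.Mw w) := by
  have hp : p.Prime := Fact.out
  have : CharP C.EE p := charP_of_injective_algebraMap (algebraMap C.F C.EE).injective p
  have : ExpChar C.EE p := ExpChar.prime hp
  rw [isPurelyInseparable_iff_pow_mem C.EE p]
  intro x
  obtain ⟨v, e, he⟩ := C.Mw_pow_mem w x.1 x.2
  exact ⟨v, e, Subtype.ext he⟩

/-- `[K(w) : EE] ≤ [YY : XX]` (V4 for the single prolongation `w`) -/
theorem finrank_Kw_le (w : C.Prol) : Module.finrank C.EE (C.Kw w) ≤ Module.finrank C.XX C.YY := by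
  have h := (sum_resDeg_le C.vX C.vX_surj C.rX (W := Unit) (fun _ => w.1) (fun _ _ _ => rfl) (fun _ => w.2)
    (fun _ => C.Kw w) (fun _ => C.rw w) (fun _ => rfl)).2
  simpa using h

/-- the degree of a finite purely inseparable extension is a power of `p` -/
theorem finrank_Mw_pow (w : C.Prol) : ∃ u : ℕ, Module.finrank C.EE (C.Mw w) = p ^ u := by
  have : CharP C.EE p := charP_of_injective_algebraMap (algebraMap C.F C.EE).injective p
  have : ExpChar C.EE p := ExpChar.prime (Fact.out : p.Prime)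
  exact IsPurelyInseparable.finrank_eq_pow C.EE (C.Mw w) p

end SpecData

end Claimed.Agent.R280
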