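import Claimed.Agent.R280.Spec.Ctx

/-!
# Row 280, Spec package S1 `SecSpec`: residue curves and specialisation of sections  ([S] Lemma 7.3)

PROVED (helper87): the whole file, from the statements of FF (`conorm_apply`, `exists_over`, `finite_over`, `existsUnique_below`, `smulAut_over`) and V4.
Extra exports: `redFib_apply`, `sum_redFib_apply`, `sum_single_apply_inj`, `le_exp_neg_one_of_lt_one`, `SpecData.vX_surj`, `SpecData.infinite_EE`, `SpecData.prol_algebraMap_L`.
(`conj_mem_LSp` now stands after `DY_TY_apply`.)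

PLAN.  `finite_Kw`: V4 (`sum_resDeg_le`) for the single prolongation `w` (residue field `EE` of `vX` is infinite).
`sec_spec`: `P_a(T) = ∏_{g ∈ J} (T - g a) = T^m + c_1 T^{m-1} + …`, `c_k ∈ XX` (Galois invariants),
`vX c_k ≤ 1` (every `g a` is integral at `w` because `nrm w₀ a ≤ 1`), `c_k ∈ L(k j DX - ∑_{l ∈ A} P l)` for `k ≥ 1`
(orders at `Q | P'`, `conorm_apply`), so by `C.red` the residues `c̄_k ∈ L(k j DF - ∑_A t l)`.
`ā = res_w a` is a root of the reduced polynomial.  At a place `P'` of `K(w)` over `P₀` of `EE`, with `e = e(P'|P₀)`: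
if `ord_{P'} ā < - j e DF(P₀)` the term `ā^m` strictly dominates (ultrametric): contradiction; if `P₀ = t l`, `l ∈ A`,
and `ord_{P'} ā ≤ 0` then `ā^m` is a unit but all other terms lie in the maximal ideal: contradiction.
~900 lines.   SECOND LEVEL: S1a = `val_le_of_monic_root`, `val_lt_one_of_monic_root`, `exists_charCoeff` (pure algebra, ~400 lines);
S1b = the rest: `conj_mem_LSp`, `DY_TY_apply`, `Dw_Tw_apply`, `charCoeff_mem` (apply `hc` to `ν = Q.v`, `γ = exp (…)`; `Q.v (alg c) = P'.v c ^ e`; at a marked place `DX = 0`, `γ = exp (-1)`, and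
`P'.v c ^ e ≤ exp (-k) < 1` forces `P'.v c ≤ exp (-1)`), then `sec_spec`: `hc` with `ν = w`, `γ = 1` gives `vX (c_k) ≤ 1`; `C.red`; reduce the relation (`rw_algebraMap`); `val_le_of_monic_root` with `γ = exp (j e DF P₀)`,
`val_lt_one_of_monic_root` at the marked places.
-/

set_option autoImplicit false

namespace Claimed.Agent.R280

open WithZero

/-! ### S1a: pure algebra -/

/-- integrality estimate: a root of `T^m + ∑ c_k T^{m-k}` with `ν (c_k) ≤ γ^k` has `ν ≤ γ`
(if `ν a > γ` the term `a^m` strictly dominates) -/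
theorem val_le_of_monic_root {K Γ : Type} [Field K] [LinearOrderedCommGroupWithZero Γ] (ν : Valuation K Γ) {m : ℕ}
    (c : ℕ → K) (a : K) (γ : Γ) (hroot : a ^ m + ∑ k ∈ Finset.Icc 1 m, c k * a ^ (m - k) = 0)
    (hc : ∀ k ∈ Finset.Icc 1 m, ν (c k) ≤ γ ^ k) : ν a ≤ γ := by
  by_contra hlt
  rw [not_le] at hlt
  have ha0 : ν a ≠ 0 := (lt_of_le_of_lt zero_le hlt).ne'
  have hsum : ν (∑ k ∈ Finset.Icc 1 m, c k * a ^ (m - k)) < ν a ^ m := by
    apply Valuation.map_sum_lt ν (pow_ne_zero _ ha0)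
    intro k hk
    obtain ⟨h1, h2⟩ := Finset.mem_Icc.1 hk
    rw [map_mul, map_pow]
    calc ν (c k) * ν a ^ (m - k) ≤ γ ^ k * ν a ^ (m - k) := mul_le_mul_left (hc k hk) _
      _ < ν a ^ k * ν a ^ (m - k) :=
          mul_lt_mul_of_pos_right (pow_lt_pow_left₀ hlt zero_le (by omega))
            (pow_pos (zero_lt_iff.2 ha0) _)
      _ = ν a ^ m := by
          rw [← pow_add]
          congr 1
          omega
  have h1 : a ^ m = -∑ k ∈ Finset.Icc 1 m, c k * a ^ (m - k) := eq_neg_of_add_eq_zero_left hroot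
  have h2 : ν (a ^ m) = ν (∑ k ∈ Finset.Icc 1 m, c k * a ^ (m - k)) := by
    rw [h1, Valuation.map_neg]
  rw [map_pow] at h2
  exact absurd h2 hsum.ne'

theorem val_lt_one_of_monic_root {K Γ : Type} [Field K] [LinearOrderedCommGroupWithZero Γ] (ν : Valuation K Γ) {m : ℕ}
    (c : ℕ → K) (a : K) (hroot : a ^ m + ∑ k ∈ Finset.Icc 1 m, c k * a ^ (m - k) = 0)
    (hc : ∀ k ∈ Finset.Icc 1 m, ν (c k) < 1) : ν a < 1 := by
  by_contra hlt
  rw [not_lt] at hlt
  have ha0 : ν a ≠ 0 := (lt_of_lt_of_le zero_lt_one hlt).ne'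
  have hsum : ν (∑ k ∈ Finset.Icc 1 m, c k * a ^ (m - k)) < ν a ^ m := by
    apply Valuation.map_sum_lt ν (pow_ne_zero _ ha0)
    intro k hk
    obtain ⟨h1, h2⟩ := Finset.mem_Icc.1 hk
    rw [map_mul, map_pow]
    calc ν (c k) * ν a ^ (m - k) < 1 * ν a ^ (m - k) :=
          mul_lt_mul_of_pos_right (hc k hk) (pow_pos (zero_lt_iff.2 ha0) _)
      _ = ν a ^ (m - k) := one_mul _
      _ ≤ ν a ^ m := pow_le_pow_right₀ hlt (by omega)
  have h1 : a ^ m = -∑ k ∈ Finset.Icc 1 m, c k * a ^ (m - k) := eq_neg_of_add_eq_zero_left hroot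
  have h2 : ν (a ^ m) = ν (∑ k ∈ Finset.Icc 1 m, c k * a ^ (m - k)) := by
    rw [h1, Valuation.map_neg]
  rw [map_pow] at h2
  exact absurd h2 hsum.ne'

/-- ultrametric bound for the coefficients of a product of linear factors -/
lemma val_coeff_prod_X_sub_C_le {Y Γ ι : Type} [Field Y] [LinearOrderedCommGroupWithZero Γ] (ν : Valuation Y Γ)
    (γ : Γ) (s : Finset ι) (f : ι → Y) (hf : ∀ i ∈ s, ν (f i) ≤ γ) {k : ℕ} (hk : k ≤ s.card) :
    ν ((∏ i ∈ s, (Polynomial.X - Polynomial.C (f i))).coeff (s.card - k)) ≤ γ ^ k := by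
  have e : ∏ i ∈ s, (Polynomial.X - Polynomial.C (f i))
      = ∏ i ∈ s, (Polynomial.X + Polynomial.C (-(f i))) :=
    Finset.prod_congr rfl fun i _ => by rw [map_neg, sub_eq_add_neg]
  rw [e, Finset.prod_X_add_C_coeff s _ (Nat.sub_le _ _)]
  apply Valuation.map_sum_le
  intro t ht
  obtain ⟨h1, h2⟩ := Finset.mem_powersetCard.1 ht
  have h3 : t.card = k := by omega
  rw [map_prod, ← h3, ← Finset.prod_const]
  refine Finset.prod_le_prod' fun i hi => ?_
  rw [Valuation.map_neg]
  exact hf i (h1 hi)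

/-- the coefficients of `∏_{g} (T - g a)` lie in the base field of a Galois extension and are bounded by the conjugates
(`Multiset.prod_X_sub_C_coeff`, `esymm`; invariance under the group; ultrametric inequality) -/
theorem exists_charCoeff {X Y : Type} [Field X] [Field Y] [Algebra X Y] [FiniteDimensional X Y] [IsGalois X Y] (a : Y) :
    ∃ c : ℕ → X, (a ^ Module.finrank X Y +
        ∑ k ∈ Finset.Icc 1 (Module.finrank X Y), algebraMap X Y (c k) * a ^ (Module.finrank X Y - k) = 0) ∧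
      ∀ (Γ : Type) [LinearOrderedCommGroupWithZero Γ] (ν : Valuation Y Γ) (γ : Γ), (∀ g : Y ≃ₐ[X] Y, ν (g a) ≤ γ) →
        ∀ k ∈ Finset.Icc 1 (Module.finrank X Y), ν (algebraMap X Y (c k)) ≤ γ ^ k := by
  classical
  obtain ⟨n, hn⟩ : ∃ n, n = Module.finrank X Y := ⟨_, rfl⟩
  rw [← hn]
  have hcard : (Finset.univ : Finset (Y ≃ₐ[X] Y)).card = n := by
    rw [Finset.card_univ, hn, ← Nat.card_eq_fintype_card]
    exact IsGalois.card_aut_eq_finrank X Y
  obtain ⟨P, hP⟩ : ∃ P : Polynomial Y, P = ∏ g : Y ≃ₐ[X] Y, (Polynomial.X - Polynomial.C (g a)) :=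
    ⟨_, rfl⟩
  have hPc : P = MulSemiringAction.charpoly (Y ≃ₐ[X] Y) a := hP
  have hmonic : P.Monic := by
    rw [hPc]
    exact MulSemiringAction.monic_charpoly _ _
  have hdeg : P.natDegree = n := by
    rw [hP, Polynomial.natDegree_prod_of_monic _ _ (fun g _ => Polynomial.monic_X_sub_C _)]
    simp [hcard]
  have hfix : ∀ i : ℕ, ∃ x : X, algebraMap X Y x = P.coeff i := by
    intro i
    have : P.coeff i ∈ Set.range (algebraMap X Y) := by
      rw [IsGalois.mem_range_algebraMap_iff_fixed]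
      intro g
      rw [hPc]
      exact MulSemiringAction.smul_coeff_charpoly a i g
    exact this
  choose d hd using hfix
  refine ⟨fun k => d (n - k), ?_, ?_⟩
  · have h0 : P.eval a = 0 := by
      rw [hPc]
      exact MulSemiringAction.eval_charpoly _ _
    rw [Polynomial.eval_eq_sum_range, hdeg, Finset.sum_range_succ, ← hdeg, hmonic.coeff_natDegree,
      hdeg, one_mul, add_comm] at h0
    rw [← h0]
    congr 1
    have : ∑ k ∈ Finset.Icc 1 n, algebraMap X Y (d (n - k)) * a ^ (n - k)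
        = ∑ k ∈ Finset.range n, P.coeff (n - 1 - k) * a ^ (n - 1 - k) := by
      rw [Finset.range_eq_Ico, Finset.sum_Ico_eq_sum_range]
      have e : Finset.Icc 1 n = Finset.Ico 1 (n + 1) := by
        ext k
        simp
      rw [e, Finset.sum_Ico_eq_sum_range]
      refine Finset.sum_congr (by simp) fun k _ => ?_
      rw [hd]
      have : n - (1 + k) = n - 1 - (0 + k) := by omega
      rw [this]
    rw [this]
    exact Finset.sum_range_reflect (fun i => P.coeff i * a ^ i) n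
  · intro Γ _ ν γ hg k hk
    obtain ⟨h1, h2⟩ := Finset.mem_Icc.1 hk
    beta_reduce
    rw [hd, hP, ← hcard]
    exact val_coeff_prod_X_sub_C_le ν γ Finset.univ (fun g : Y ≃ₐ[X] Y => g a) (fun g _ => hg g)
      (by rw [hcard]; exact h2)

/-! ### S1b: general lemmas -/

open Classical in
/-- the value of the reduced fibre at a place -/
theorem redFib_apply {k M M' : Type} [Field k] [Field M] [Field M'] [Algebra k M] [Algebra k M'] [Algebra M M']
    [IsScalarTower k M M'] [IsFF k M] [Module.Finite M M'] (P : Place k M) (Q : Place k M') :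
    redFib k M' P Q = if Q.Over P then 1 else 0 := by
  have hfin : (Function.support fun Q : Place k M' =>
      if Q.Over P then Finsupp.single Q (1 : ℤ) else 0).Finite := by
    refine (Place.finite_over (M' := M') P).subset fun Q' hQ' => ?_
    by_contra hn
    exact hQ' (if_neg hn)
  unfold redFib
  rw [finsum_eq_sum_of_support_subset _ (s := hfin.toFinset) (by simp), Finsupp.finsetSum_apply]
  by_cases hQ : Q.Over P
  · rw [if_pos hQ, Finset.sum_eq_single Q]
    · rw [if_pos hQ, Finsupp.single_eq_same]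
    · intro Q' _ hne
      by_cases hQ' : Q'.Over P
      · rw [if_pos hQ', Finsupp.single_eq_of_ne hne.symm]
      · rw [if_neg hQ', Finsupp.zero_apply]
    · intro hn
      exfalso
      apply hn
      rw [Set.Finite.mem_toFinset, Function.mem_support, if_pos hQ]
      intro h0
      have := congrArg (fun f : Dvsr k M' => f Q) h0
      simp at this
  · rw [if_neg hQ]
    refine Finset.sum_eq_zero fun Q' _ => ?_
    by_cases hQ' : Q'.Over P
    · rw [if_pos hQ', Finsupp.single_eq_of_ne]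
      rintro rfl
      exact hQ hQ'
    · rw [if_neg hQ', Finsupp.zero_apply]

open Classical in
/-- sum of the reduced fibres of an injective family of places -/
theorem sum_redFib_apply {k M M' Lam : Type} [Field k] [Field M] [Field M'] [Algebra k M] [Algebra k M']
    [Algebra M M'] [IsScalarTower k M M'] [IsFF k M] [Module.Finite M M'] (P : Lam → Place k M)
    (hP : Function.Injective P) (A : Finset Lam) {Q : Place k M'} {P' : Place k M} (hQ : Q.Over P') :
    (∑ l ∈ A, redFib k M' (P l)) Q = if ∃ l ∈ A, P' = P l then 1 else 0 := by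
  rw [Finsupp.finsetSum_apply]
  simp only [redFib_apply]
  have hiff : ∀ l, Q.Over (P l) ↔ P' = P l := fun l =>
    ⟨fun h => hQ.unique h, fun h => h ▸ hQ⟩
  by_cases hex : ∃ l ∈ A, P' = P l
  · obtain ⟨l, hl, hPl⟩ := hex
    rw [if_pos ⟨l, hl, hPl⟩, Finset.sum_eq_single l, if_pos ((hiff l).2 hPl)]
    · intro l' _ hne
      rw [if_neg]
      intro h
      exact hne (hP (((hiff l').1 h).symm.trans hPl))
    · intro h
      exact absurd hl h
  · rw [if_neg hex]
    refine Finset.sum_eq_zero fun l hl => ?_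
    rw [if_neg]
    intro h
    exact hex ⟨l, hl, (hiff l).1 h⟩

open Classical in
/-- sum of the marked places of an injective family -/
theorem sum_single_apply_inj {k M Lam : Type} [Field k] [Field M] [Algebra k M] (P : Lam → Place k M)
    (hP : Function.Injective P) (A : Finset Lam) (P' : Place k M) :
    (∑ l ∈ A, Finsupp.single (P l) (1 : ℤ)) P' = if ∃ l ∈ A, P' = P l then 1 else 0 := by
  rw [Finsupp.finsetSum_apply]
  by_cases hex : ∃ l ∈ A, P' = P l
  · obtain ⟨l, hl, hPl⟩ := hex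
    rw [if_pos ⟨l, hl, hPl⟩, Finset.sum_eq_single l, hPl, Finsupp.single_eq_same]
    · intro l' _ hne
      rw [Finsupp.single_eq_of_ne]
      intro h
      exact hne (hP (h.symm.trans hPl).symm).symm
    · intro h
      exact absurd hl h
  · rw [if_neg hex]
    refine Finset.sum_eq_zero fun l hl => ?_
    rw [Finsupp.single_eq_of_ne]
    intro h
    exact hex ⟨l, hl, h⟩

/-- in `ℤᵐ⁰`: `x < 1` means `x ≤ exp (-1)` -/
theorem le_exp_neg_one_of_lt_one {x : ℤᵐ⁰} (h : x < 1) : x ≤ exp (-1 : ℤ) := by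
  by_cases h0 : x = 0
  · rw [h0]
    exact zero_le
  · rw [← exp_log h0] at h ⊢
    rw [← exp_zero, exp_lt_exp] at h
    rw [exp_le_exp]
    omega

namespace SpecData

variable {p : ℕ} [Fact p.Prime] (C : SpecData p)

theorem vX_surj : Function.Surjective C.vX := fun γ => by
  obtain ⟨a, ha⟩ := C.vL_surj γ
  exact ⟨algebraMap C.L C.XX a, by rw [C.vX_ext, ha]⟩

instance infinite_EE : Infinite C.EE := Infinite.of_injective _ (algebraMap C.F C.EE).injective

instance finite_Kw (w : C.Prol) : Module.Finite C.EE (C.Kw w) :=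
  (sum_resDeg_le C.vX C.vX_surj C.rX (W := Unit) (fun _ => w.1) (fun _ _ _ => rfl) (fun _ => w.2)
    (fun _ => C.Kw w) (fun _ => C.rw w) (fun _ => rfl)).1 ()

instance isFF_Kw (w : C.Prol) : IsFF C.F (C.Kw w) := by
  exact isFF_of_finite C.F C.EE (C.Kw w)

instance isFF_YY : IsFF C.L C.YY := by
  exact isFF_of_finite C.L C.XX C.YY

/-- compatibility of the residue maps -/
theorem rw_algebraMap (w : C.Prol) (b : C.XX) (hb : C.vX b ≤ 1) :
    (C.rw w).res (algebraMap C.XX C.YY b) = algebraMap C.EE (C.Kw w) (C.rX.res b) := by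
  have h1 : w.1 (algebraMap C.XX C.YY b) ≤ 1 := by
    rw [w.2]
    exact hb
  have hc : algebraMap C.EE (C.Kw w) = C.rX.map (C.rw w) w.2 := rfl
  rw [hc, C.rX.res_eq hb, (C.rw w).res_eq h1, ResMap.map, ResMap.lift_toHom]
  rfl

/-- a prolongation restricted to `L` -/
theorem prol_algebraMap_L (w : C.Prol) (c : C.L) : w.1 (algebraMap C.L C.YY c) = C.vL c := by
  rw [IsScalarTower.algebraMap_apply C.L C.XX C.YY, w.2, C.vX_ext]

/-- `nrm` is a valuation norm on `YY` over `L` -/
theorem isVNorm_nrm (w₀ : C.Prol) : IsVNorm C.vL (C.nrm w₀) := by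
  refine ⟨fun x => ?_, fun x y => ?_, fun c x => ?_⟩
  · unfold nrm
    constructor
    · intro h
      have h1 : ((1 : C.J) • w₀).1 x ≤ 0 := by
        rw [← h]
        exact Finset.le_sup (f := fun g : C.J => (g • w₀).1 x) (Finset.mem_univ 1)
      have h2 : ((1 : C.J) • w₀).1 x = 0 := le_antisymm h1 zero_le
      exact (Valuation.zero_iff _).1 h2
    · rintro rfl
      simp
  · unfold nrm
    refine Finset.sup_le fun g _ => ?_
    refine ((g • w₀).1.map_add x y).trans (max_le_max ?_ ?_)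
    · exact Finset.le_sup (f := fun g : C.J => (g • w₀).1 x) (Finset.mem_univ g)
    · exact Finset.le_sup (f := fun g : C.J => (g • w₀).1 y) (Finset.mem_univ g)
  · unfold nrm
    have h1 : ∀ g : C.J, (g • w₀).1 (c • x) = C.vL c * (g • w₀).1 x := fun g => by
      rw [Algebra.smul_def, map_mul, prol_algebraMap_L]
    simp only [h1]
    exact (Finset.apply_sup_eq_sup_comp_of_linearOrder (fun y : ℚᵐ⁰ => C.vL c * y)
      (fun a b hab => mul_le_mul_right hab _) (mul_zero _)).symm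

theorem nrm_le_iff (w₀ : C.Prol) (a : C.YY) (γ : ℚᵐ⁰) : C.nrm w₀ a ≤ γ ↔ ∀ w : C.Orb w₀, w.1.1 a ≤ γ := by
  unfold nrm
  rw [Finset.sup_le_iff]
  constructor
  · rintro h ⟨w, g, rfl⟩
    exact h g (Finset.mem_univ g)
  · intro h g _
    exact h ⟨g • w₀, g, rfl⟩

open Classical in
/-- the values of the divisors at a place over `P'` -/
theorem DY_TY_apply (j : ℕ) (A : Finset C.Lam) {Q : Place C.L C.YY} {P' : Place C.L C.XX} (hQ : Q.Over P') :
    (j • C.DY - C.TY A) Q = j * (Q.ramIdx P' * C.DX P') - if ∃ l ∈ A, P' = C.P l then 1 else 0 := by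
  rw [Finsupp.sub_apply, Finsupp.smul_apply, TY, sum_redFib_apply C.P C.P_inj A hQ, DY,
    conorm_apply C.DX hQ, nsmul_eq_mul]

/-- the divisor `j DY - TY A` is Galois invariant -/
theorem conj_mem_LSp (j : ℕ) (A : Finset C.Lam) (a : C.YY) (ha : a ∈ LSp (j • C.DY - C.TY A)) (g : C.J) :
    g a ∈ LSp (j • C.DY - C.TY A) := by
  intro Q
  obtain ⟨P', hP', -⟩ := Place.existsUnique_below (M := C.XX) Q
  have h1 := ha (Q.smulAut g.symm)
  obtain ⟨h2, h3, -⟩ := Place.smulAut_over g.symm hP'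
  rw [Place.smulAut_v_apply, C.DY_TY_apply j A h2, h3] at h1
  rw [C.DY_TY_apply j A hP']
  exact h1

open Classical in
theorem Dw_Tw_apply (w : C.Prol) (j : ℕ) (A : Finset C.Lam) {Q : Place C.F (C.Kw w)} {P' : Place C.F C.EE}
    (hQ : Q.Over P') :
    (j • C.Dw w - C.Tw w A) Q = j * (Q.ramIdx P' * C.DF P') - if ∃ l ∈ A, P' = C.t l then 1 else 0 := by
  rw [Finsupp.sub_apply, Finsupp.smul_apply, Tw, sum_redFib_apply C.t C.t_inj A hQ, Dw,
    conorm_apply C.DF hQ, nsmul_eq_mul]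

/-- the coefficients `c_k` (`k ≥ 1`) are sections of `k j DX - ∑_A P l` -/
theorem charCoeff_mem (j : ℕ) (A : Finset C.Lam) (a : C.YY) (ha : a ∈ LSp (j • C.DY - C.TY A)) (c : ℕ → C.XX)
    (hc : ∀ (Γ : Type) [LinearOrderedCommGroupWithZero Γ] (ν : Valuation C.YY Γ) (γ : Γ), (∀ g : C.J, ν (g a) ≤ γ) →
      ∀ k ∈ Finset.Icc 1 (Module.finrank C.XX C.YY), ν (algebraMap C.XX C.YY (c k)) ≤ γ ^ k)
    (k : ℕ) (hk : k ∈ Finset.Icc 1 (Module.finrank C.XX C.YY)) :
    c k ∈ LSp ((k * j) • C.DX - ∑ l ∈ A, Finsupp.single (C.P l) 1) := by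
  classical
  intro P'
  obtain ⟨Q, hQ⟩ := Place.exists_over (M' := C.YY) P'
  have he := Place.overE_ramIdx hQ
  have hconj : ∀ g : C.J, Q.v (g a) ≤ exp ((j • C.DY - C.TY A) Q) :=
    fun g => C.conj_mem_LSp j A a ha g Q
  have h1 := hc ℤᵐ⁰ Q.v _ hconj k hk
  have hk1 : 1 ≤ k := (Finset.mem_Icc.1 hk).1
  rw [he.2, C.DY_TY_apply j A hQ] at h1
  rw [Finsupp.sub_apply, Finsupp.smul_apply, sum_single_apply_inj C.P C.P_inj A P']
  by_cases hex : ∃ l ∈ A, P' = C.P l
  · rw [if_pos hex] at h1 ⊢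
    obtain ⟨l, hl, rfl⟩ := hex
    rw [C.DX_P] at h1 ⊢
    have h2 : (C.P l).v (c k) ^ Q.ramIdx (C.P l) < 1 := by
      refine lt_of_le_of_lt h1 ?_
      rw [← exp_nsmul, ← exp_zero, exp_lt_exp]
      simp only [mul_zero, zero_sub, smul_neg, nsmul_eq_mul, mul_one, Left.neg_neg_iff]
      exact_mod_cast hk1
    have h3 : (C.P l).v (c k) < 1 := (pow_lt_one_iff he.1.ne').1 h2
    simpa using le_exp_neg_one_of_lt_one h3
  · rw [if_neg hex] at h1 ⊢
    have h2 : exp ((j : ℤ) * ((Q.ramIdx P' : ℤ) * C.DX P') - 0) ^ k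
        = exp ((k * j) • C.DX P' - 0) ^ Q.ramIdx P' := by
      rw [← exp_nsmul, ← exp_nsmul]
      congr 1
      simp only [sub_zero, nsmul_eq_mul]
      push_cast
      ring
    rw [h2] at h1
    exact (pow_le_pow_iff_left₀ zero_le zero_le he.1.ne').1 h1

/-- **[S] Lemma 7.3** -/
theorem sec_spec (w₀ : C.Prol) (j : ℕ) (A : Finset C.Lam) (a : C.YY) (ha : a ∈ LSp (j • C.DY - C.TY A))
    (hN : C.nrm w₀ a ≤ 1) (w : C.Orb w₀) :
    (C.rw w.1).res a ∈ LSp (j • C.Dw w.1 - C.Tw w.1 A) := by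
  classical
  obtain ⟨c, hroot, hc⟩ := exists_charCoeff (X := C.XX) a
  have hall := (C.nrm_le_iff w₀ a 1).1 hN
  have ha1 : w.1.1 a ≤ 1 := hall w
  -- all conjugates are integral at `w`
  have hconj : ∀ g : C.J, w.1.1 (g a) ≤ 1 := by
    intro g
    obtain ⟨w', h0, hw'⟩ := w
    have h1 := hall ⟨g⁻¹ • w', by
      rw [← hw']
      exact ⟨g⁻¹ * h0, mul_smul _ _ _⟩⟩
    exact h1
  have hcw : ∀ k ∈ Finset.Icc 1 (Module.finrank C.XX C.YY), w.1.1 (algebraMap C.XX C.YY (c k)) ≤ 1 := by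
    intro k hk
    have := hc ℚᵐ⁰ w.1.1 1 hconj k hk
    rwa [one_pow] at this
  have hcX : ∀ k ∈ Finset.Icc 1 (Module.finrank C.XX C.YY), C.vX (c k) ≤ 1 := by
    intro k hk
    have := hcw k hk
    rwa [w.1.2] at this
  have hred : ∀ k ∈ Finset.Icc 1 (Module.finrank C.XX C.YY),
      C.rX.res (c k) ∈ LSp ((k * j) • C.DF - ∑ l ∈ A, Finsupp.single (C.t l) 1) := fun k hk =>
    C.red (k * j) A (c k) (C.charCoeff_mem j A a ha c hc k hk) (hcX k hk)
  -- the reduced relation
  have hrel : (C.rw w.1).res a ^ Module.finrank C.XX C.YY +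
      ∑ k ∈ Finset.Icc 1 (Module.finrank C.XX C.YY),
        algebraMap C.EE (C.Kw w.1) (C.rX.res (c k)) * (C.rw w.1).res a ^ (Module.finrank C.XX C.YY - k)
      = 0 := by
    have hmem : ∀ y : C.YY, w.1.1 y ≤ 1 → y ∈ w.1.1.valuationSubring := fun y hy =>
      (Valuation.mem_valuationSubring_iff _ _).2 hy
    obtain ⟨c', hc'⟩ : ∃ c' : ℕ → w.1.1.valuationSubring,
        ∀ k ∈ Finset.Icc 1 (Module.finrank C.XX C.YY), (c' k : C.YY) = algebraMap C.XX C.YY (c k) := by
      refine ⟨fun k => if hk : k ∈ Finset.Icc 1 (Module.finrank C.XX C.YY) then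
        ⟨algebraMap C.XX C.YY (c k), hmem _ (hcw k hk)⟩ else 0, fun k hk => ?_⟩
      beta_reduce
      rw [dif_pos hk]
    have hO : (⟨a, hmem a ha1⟩ : w.1.1.valuationSubring) ^ Module.finrank C.XX C.YY +
        ∑ k ∈ Finset.Icc 1 (Module.finrank C.XX C.YY),
          c' k * (⟨a, hmem a ha1⟩ : w.1.1.valuationSubring) ^ (Module.finrank C.XX C.YY - k) = 0 := by
      apply Subtype.ext
      push_cast
      rw [← hroot]
      congr 1
      exact Finset.sum_congr rfl fun k hk => by rw [hc' k hk]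
    have h2 := congrArg (C.rw w.1).toHom hO
    rw [map_add, map_pow, map_sum, map_zero] at h2
    rw [(C.rw w.1).res_eq ha1, ← h2]
    congr 1
    refine Finset.sum_congr rfl fun k hk => ?_
    rw [map_mul, map_pow, ← C.rw_algebraMap w.1 (c k) (hcX k hk), (C.rw w.1).res_eq (hcw k hk)]
    congr 2
    exact Subtype.ext (hc' k hk).symm
  intro Q
  obtain ⟨P₀, hP₀, -⟩ := Place.existsUnique_below (M := C.EE) Q
  have he := Place.overE_ramIdx hP₀
  rw [C.Dw_Tw_apply w.1 j A hP₀]
  have hval : ∀ k ∈ Finset.Icc 1 (Module.finrank C.XX C.YY),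
      Q.v (algebraMap C.EE (C.Kw w.1) (C.rX.res (c k))) ≤
        exp ((k * j) • C.DF P₀ - if ∃ l ∈ A, P₀ = C.t l then 1 else 0) ^ Q.ramIdx P₀ := by
    intro k hk
    have h1 := hred k hk P₀
    rw [Finsupp.sub_apply, Finsupp.smul_apply, sum_single_apply_inj C.t C.t_inj A P₀] at h1
    rw [he.2]
    exact pow_le_pow_left₀ zero_le h1 _
  by_cases hex : ∃ l ∈ A, P₀ = C.t l
  · rw [if_pos hex]
    simp only [if_pos hex] at hval
    obtain ⟨l, hl, rfl⟩ := hex
    rw [C.DF_t]
    have h3 : Q.v ((C.rw w.1).res a) < 1 := by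
      refine val_lt_one_of_monic_root Q.v _ _ hrel fun k hk => lt_of_le_of_lt (hval k hk) ?_
      rw [C.DF_t, ← exp_nsmul, ← exp_zero, exp_lt_exp]
      simp only [smul_zero, zero_sub, smul_neg, nsmul_eq_mul, mul_one, Left.neg_neg_iff]
      exact_mod_cast he.1
    simpa using le_exp_neg_one_of_lt_one h3
  · rw [if_neg hex]
    simp only [if_neg hex] at hval
    refine val_le_of_monic_root Q.v _ _ _ hrel fun k hk => (hval k hk).trans (le_of_eq ?_)
    rw [← exp_nsmul, ← exp_nsmul]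
    congr 1
    simp only [sub_zero, nsmul_eq_mul]
    push_cast
    ring

end SpecData

end Claimed.Agent.R280
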