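import Claimed.Agent.R280.Val.Main

/-!
# Row 280, package Spec: valued fields with value group `ℚ` -- definitions and what [S] consumes from [V]

Definitions (real, owner helper66): `Prolongs`, `Prolongs.mapO`, `ResMap.canon`, `ResMap.lift`, `ResMap.map`,
`IsVNorm`.
Statements V1-V4: PROVED here from the statements of package Val (`Val/Main.lean`): pure adapters.
-/

set_option autoImplicit false

namespace Claimed.Agent.R280

open WithZero

section Defs

variable {T U : Type} [Field T] [Field U] [Algebra T U]

/-- `w` prolongs `v` -/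
def Prolongs (v : Valuation T ℚᵐ⁰) (w : Valuation U ℚᵐ⁰) : Prop := ∀ a : T, w (algebraMap T U a) = v a

variable {v : Valuation T ℚᵐ⁰} {w : Valuation U ℚᵐ⁰}

/-- the map of valuation rings `O_v → O_w` -/
def Prolongs.mapO (h : Prolongs v w) : v.valuationSubring →+* w.valuationSubring :=
  ((algebraMap T U).comp v.valuationSubring.subtype).codRestrict w.valuationSubring.toSubring fun x => by
    have hx : v (x : T) ≤ 1 := (Valuation.mem_valuationSubring_iff v _).1 x.2
    show algebraMap T U (x : T) ∈ w.valuationSubring
    rw [Valuation.mem_valuationSubring_iff, h]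
    exact hx

@[simp] theorem Prolongs.coe_mapO (h : Prolongs v w) (x : v.valuationSubring) :
    ((h.mapO x : w.valuationSubring) : U) = algebraMap T U (x : T) := rfl

/-- the canonical residue map onto the residue field of the valuation ring -/
noncomputable def ResMap.canon (w : Valuation U ℚᵐ⁰) :
    ResMap w (IsLocalRing.ResidueField w.valuationSubring) where
  toHom := IsLocalRing.residue _
  surj := IsLocalRing.residue_surjective
  ker := fun x => by
    rw [IsLocalRing.residue_eq_zero_iff, IsLocalRing.mem_maximalIdeal, mem_nonunits_iff]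
    have hx : w (x : U) ≤ 1 := (Valuation.mem_valuationSubring_iff w _).1 x.2
    constructor
    · intro hu
      refine lt_of_le_of_ne hx fun h1 => hu ?_
      have hx0 : (x : U) ≠ 0 := by
        intro h0
        rw [h0, map_zero] at h1
        exact zero_ne_one h1
      have hinv : (x : U)⁻¹ ∈ w.valuationSubring := by
        rw [Valuation.mem_valuationSubring_iff, map_inv₀, h1, inv_one]
      exact IsUnit.of_mul_eq_one (⟨(x : U)⁻¹, hinv⟩ : w.valuationSubring) (Subtype.ext (mul_inv_cancel₀ hx0))
    · intro hlt hu
      obtain ⟨y, hy⟩ := hu.exists_right_inv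
      have hy1 : w (y : U) ≤ 1 := (Valuation.mem_valuationSubring_iff w _).1 y.2
      have h1 : w ((x : U) * (y : U)) = 1 := by
        have : (x : U) * (y : U) = 1 := congrArg Subtype.val hy
        rw [this, map_one]
      rw [map_mul] at h1
      have : w (x : U) * w (y : U) < 1 := by
        calc w (x : U) * w (y : U) ≤ w (x : U) * 1 := by gcongr
          _ < 1 := by rwa [mul_one]
      exact absurd h1 this.ne

/-- a ring homomorphism out of the valuation ring that kills the maximal ideal factors through a residue map -/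
noncomputable def ResMap.lift {k : Type} [Field k] (r : ResMap v k) {B : Type} [CommRing B]
    (f : v.valuationSubring →+* B) (hf : ∀ x : v.valuationSubring, v (x : T) < 1 → f x = 0) : k →+* B :=
  (Ideal.Quotient.lift (RingHom.ker r.toHom) f fun x hx => hf x ((r.ker x).1 hx)).comp
    (RingHom.quotientKerEquivOfSurjective r.surj).symm.toRingHom

theorem ResMap.lift_toHom {k : Type} [Field k] (r : ResMap v k) {B : Type} [CommRing B]
    (f : v.valuationSubring →+* B) (hf : ∀ x : v.valuationSubring, v (x : T) < 1 → f x = 0)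
    (x : v.valuationSubring) : r.lift f hf (r.toHom x) = f x := by
  have h : (RingHom.quotientKerEquivOfSurjective r.surj).symm (r.toHom x) =
      Ideal.Quotient.mk (RingHom.ker r.toHom) x := by
    rw [RingEquiv.symm_apply_eq]
    rfl
  simp only [ResMap.lift, RingHom.comp_apply, RingEquiv.toRingHom_eq_coe, RingHom.coe_coe, h,
    Ideal.Quotient.lift_mk]

/-- the map of residue fields induced by a prolongation -/
noncomputable def ResMap.map {k k' : Type} [Field k] [Field k'] (r : ResMap v k) (r' : ResMap w k')
    (h : Prolongs v w) : k →+* k' :=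
  r.lift (r'.toHom.comp h.mapO) fun x hx => by
    rw [RingHom.comp_apply, r'.ker, h.coe_mapO, h]
    exact hx

/-- a valuation norm on an `L`-vector space (multiplicative notation) -/
structure IsVNorm {V : Type} [AddCommGroup V] [Module T V] (v : Valuation T ℚᵐ⁰) (N : V → ℚᵐ⁰) : Prop where
  eq_zero : ∀ x, N x = 0 ↔ x = 0
  add_le : ∀ x y, N (x + y) ≤ max (N x) (N y)
  smul : ∀ (a : T) (x : V), N (a • x) = v a * N x

end Defs

/-! ## The statements consumed from [V] (adapters to `Val/Main.lean`) -/

section V

variable {T U : Type} [Field T] [Field U] [Algebra T U]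

theorem ResMap.res_eq {K : Type} [Field K] {v : Valuation K ℚᵐ⁰} {k : Type} [Field k] (r : ResMap v k) {x : K}
    (h : v x ≤ 1) : r.res x = r.toHom ⟨x, (Valuation.mem_valuationSubring_iff v x).2 h⟩ := by
  rw [ResMap.res, dif_pos h]

/-- equal residues: the difference lies in the maximal ideal -/
theorem ResMap.lt_one_of_res_eq {K : Type} [Field K] {v : Valuation K ℚᵐ⁰} {k : Type} [Field k] (r : ResMap v k)
    {x y : K} (hx : v x ≤ 1) (hy : v y ≤ 1) (h : r.res x = r.res y) : v (x - y) < 1 := by
  rw [r.res_eq hx, r.res_eq hy, ← sub_eq_zero, ← map_sub, r.ker] at h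
  exact h

/-- **V1** existence of prolongations (value group `ℚ` is divisible) -/
theorem exists_prolongs [Algebra.IsAlgebraic T U] (v : Valuation T ℚᵐ⁰) (_hv : Function.Surjective v) :
    ∃ w : Valuation U ℚᵐ⁰, Prolongs v w := by
  obtain ⟨w, _, _, _, _, hw, _⟩ := exists_valExt v (ResMap.canon v) U
  exact ⟨w, hw⟩

/-- **V2** ([V] Lemma 6.3) orthonormal bases over a spherically complete field with value group `ℚ` -/
theorem exists_orthonormal_basis (v : Valuation T ℚᵐ⁰) (hv : Function.Surjective v) (hs : IsSphComplete v)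
    {V : Type} [AddCommGroup V] [Module T V] [FiniteDimensional T V] (N : V → ℚᵐ⁰) (hN : IsVNorm v N) :
    ∃ e : Module.Basis (Fin (Module.finrank T V)) T V,
      ∀ c : Fin (Module.finrank T V) → T, N (∑ i, c i • e i) = Finset.univ.sup fun i => v (c i) := by
  obtain ⟨e, he⟩ := VNorm.exists_orthonormal hv hs (⟨N, hN.eq_zero, hN.add_le, hN.smul⟩ : VNorm v V)
  refine ⟨e, fun c => ?_⟩
  have h := he (∑ i, c i • e i)
  simp only [Module.Basis.repr_sum_self] at h
  exact h

/-- **V3** ([V] Lemma 6.4) simultaneous residue approximation -/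
theorem simult_approx [FiniteDimensional T U] (v : Valuation T ℚᵐ⁰) (hv : Function.Surjective v)
    {k : Type} [Field k] [Infinite k] (r : ResMap v k) (ws : Finset (Valuation U ℚᵐ⁰))
    (hws : ∀ w ∈ ws, Prolongs v w) (b : Valuation U ℚᵐ⁰ → U) (hb : ∀ w ∈ ws, w (b w) ≤ 1) :
    ∃ a : U, ∀ w ∈ ws, w (a - b w) < 1 := by
  obtain ⟨a, ha⟩ := simultaneous_residues v r hv (ι := ws) (fun i => i.1)
    (fun i => IsLocalRing.ResidueField i.1.valuationSubring) (fun i => ResMap.canon i.1)
    (fun i => hws i.1 i.2) Subtype.val_injective (fun i => (ResMap.canon i.1).res (b i.1))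
  exact ⟨a, fun w hw => (ResMap.canon w).lt_one_of_res_eq (ha ⟨w, hw⟩).1 (hb w hw) (ha ⟨w, hw⟩).2⟩

/-- **V4** ([V] (6.9)) the residue degree bound -/
theorem sum_resDeg_le [FiniteDimensional T U] (v : Valuation T ℚᵐ⁰) (hv : Function.Surjective v)
    {k : Type} [Field k] [Infinite k] (r : ResMap v k) {W : Type} [Fintype W] (w : W → Valuation U ℚᵐ⁰)
    (hinj : Function.Injective w) (hw : ∀ i, Prolongs v (w i)) (kw : W → Type) [∀ i, Field (kw i)]
    [∀ i, Algebra k (kw i)] (rw : ∀ i, ResMap (w i) (kw i))
    (hc : ∀ i, algebraMap k (kw i) = r.map (rw i) (hw i)) :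
    (∀ i, Module.Finite k (kw i)) ∧ ∑ i, Module.finrank k (kw i) ≤ Module.finrank T U := by
  refine sum_residue_degree_le v r hv w kw rw hw (fun i a ha => ?_) hinj
  have h1 : w i (algebraMap T U a) ≤ 1 := by rw [hw i]; exact ha
  rw [hc i, r.res_eq ha, (rw i).res_eq h1, ResMap.map, ResMap.lift_toHom]
  rfl

end V

end Claimed.Agent.R280
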